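import Mathlib
import Vale.Agent.P157.ParDefs
import Vale.Agent.P166.Defs
import Vale.Agent.P157.Defs

set_option linter.all false

section

/-!
P166, full formula: the commutative algebra of hierarchical matrices in the limit of zero replicas.
`K + 1` levels `0, …, K`, exponents `m` with `m 0 = 0`, `m (K + 1) = 1`, weights
`m (l + 1) - m l` of the levels.
-/

open Finset

namespace Vale.Agent.P166.F

/-- Admissible exponents (the same conditions as in `Lv.Sy.Reg`). -/
structure Expo (K : ℕ) (m : ℕ → ℝ) : Prop where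
  m0 : m 0 = 0
  mK : m (K + 1) = 1
  mono : ∀ l ≤ K, m l ≤ m (l + 1)
  pos : 0 < m 1

/-- A hierarchical matrix: the diagonal entry `d` and the entries `e l` of the levels. -/
structure Hm where
  d : ℝ
  e : ℕ → ℝ

namespace Hm

/-- The product (the number of replicas is zero). -/
noncomputable def mul (K : ℕ) (m : ℕ → ℝ) (M N : Hm) : Hm where
  d := M.d * N.d - ∑ j ∈ range (K + 1), (m (j + 1) - m j) * (M.e j * N.e j)
  e := fun l => M.d * N.e l + M.e l * N.d - (2 * m (l + 1) - m l) * (M.e l * N.e l)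
    - ∑ j ∈ Ico (l + 1) (K + 1), (m (j + 1) - m j) * (M.e j * N.e l + M.e l * N.e j)
    - ∑ j ∈ range l, (m (j + 1) - m j) * (M.e j * N.e j)

/-- The eigenvalue at the level `l`. -/
noncomputable def ev (K : ℕ) (m : ℕ → ℝ) (M : Hm) (l : ℕ) : ℝ :=
  M.d - m (l + 1) * M.e l - ∑ j ∈ Ico (l + 1) (K + 1), (m (j + 1) - m j) * M.e j

/-- The norm `|d| + ∑ p_l |e_l|`. -/
noncomputable def nrm (K : ℕ) (m : ℕ → ℝ) (M : Hm) : ℝ :=
  |M.d| + ∑ l ∈ range (K + 1), (m (l + 1) - m l) * |M.e l|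

/-- The matrix with the eigenvalues `f l` and the entry `0` at the level `0`. -/
noncomputable def ofEv (K : ℕ) (m : ℕ → ℝ) (f : ℕ → ℝ) : Hm where
  d := f K + ∑ i ∈ range K, (f i - f (i + 1)) / m (i + 1)
  e := fun l => ∑ i ∈ range l, (f i - f (i + 1)) / m (i + 1)

/-- Linear combinations. -/
noncomputable def lin {B : Type} [Fintype B] (a : B → ℝ) (R : B → Hm) : Hm where
  d := ∑ b, a b * (R b).d
  e := fun l => ∑ b, a b * (R b).e l

/-- Differences. -/
noncomputable def sub (M N : Hm) : Hm where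
  d := M.d - N.d
  e := fun l => M.e l - N.e l

/-- The loop matrix `N - M + c M N`. -/
noncomputable def loop (K : ℕ) (m : ℕ → ℝ) (c : ℝ) (M N : Hm) : Hm where
  d := N.d - M.d + c * (mul K m M N).d
  e := fun l => N.e l - M.e l + c * (mul K m M N).e l

end Hm

/-- The trace `tr f(Q)` of a function of the matrix `Q` with the eigenvalues `x l`
(the diagonal entry of `f(Q)`, when the entry of level `0` vanishes). -/
noncomputable def trf (K : ℕ) (m : ℕ → ℝ) (f : ℝ → ℝ) (x : ℕ → ℝ) : ℝ :=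
  f (x K) + ∑ i ∈ range K, (f (x i) - f (x (i + 1))) / m (i + 1)

/-- The eigenvalue at the level `l` of the overlap path `q` (self-overlap one). -/
noncomputable def eq' (K : ℕ) (m q : ℕ → ℝ) (l : ℕ) : ℝ :=
  1 - m (l + 1) * q l - ∑ j ∈ Ico (l + 1) (K + 1), (m (j + 1) - m j) * q j

/-- The (normalized) overlaps of the blocks `b` of weights `α b`: nondecreasing entries, vanishing
at the level `0`, total self-overlap one. -/
structure Blocks (K : ℕ) {B : Type} [Fintype B] (α : B → ℝ) (R : B → Hm) : Prop where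
  zero : ∀ b, (R b).e 0 = 0
  mono : ∀ b, ∀ l < K, (R b).e l ≤ (R b).e (l + 1)
  le : ∀ b, (R b).e K ≤ (R b).d
  one : ∑ b, α b * (R b).d = 1
  lt : ∑ b, α b * (R b).e K < 1

/-- `ζ x` is the solution `ζ > max a` of `∑ α_b / (ζ - a_b) = β x`. -/
structure Zeta {B : Type} [Fintype B] (β : ℝ) (a α : B → ℝ) (ζ : ℝ → ℝ) : Prop where
  lt : ∀ x, 0 < x → ∀ b, a b < ζ x
  eq : ∀ x, 0 < x → ∑ b, α b / (ζ x - a b) = β * x

end Vale.Agent.P166.F
end

section

section

/-!
Definitions for the Guerra upper bound (module U of the Parisi plan): the cascades in dimension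
`N`, the tilted chain, and the log-weights of a finite system in a Gaussian field.
-/

open MeasureTheory ProbabilityTheory

namespace Vale.Agent.P157.Par

/-- The standard Gaussian measure on `ℝ^N`. -/
noncomputable abbrev gN (N : ℕ) : Measure (Fin N → ℝ) := Measure.pi fun _ => gaussianReal 0 1

variable {N : ℕ}

/-- One step of the cascade in dimension `N`: `y ↦ (1/m) log E exp(m G(y + √v z))`. -/
noncomputable def gstepN (m v : ℝ) (G : (Fin N → ℝ) → ℝ) : (Fin N → ℝ) → ℝ := fun y =>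
  1 / m * Real.log (∫ z, Real.exp (m * G (y + √v • z)) ∂(gN N))

/-- One step of the tilted chain: `y ↦ E[h(y + √v z) e^{m G(y + √v z)}] / E[e^{m G(y + √v z)}]`. -/
noncomputable def tiltN (m v : ℝ) (G h : (Fin N → ℝ) → ℝ) : (Fin N → ℝ) → ℝ := fun y =>
  (∫ z, h (y + √v • z) * Real.exp (m * G (y + √v • z)) ∂(gN N)) /
    ∫ z, Real.exp (m * G (y + √v • z)) ∂(gN N)

/-- The value of the full cascade started at the level `l` with the function `G`. -/
noncomputable def topN (m r : ℕ → ℝ) : ℕ → ((Fin N → ℝ) → ℝ) → ℝ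
  | 0, G => ∫ z, G (√(r 0) • z) ∂(gN N)
  | l + 1, G => topN m r l (gstepN (m (l + 1)) (r (l + 1) - r l) G)

/-- The average of `h` over the state at the level `l` of the tilted chain, when the log-weight at
the level `l` is `G`. -/
noncomputable def chainAv (m r : ℕ → ℝ) : ℕ → ((Fin N → ℝ) → ℝ) → ((Fin N → ℝ) → ℝ) → ℝ
  | 0, _, h => ∫ z, h (√(r 0) • z) ∂(gN N)
  | l + 1, G, h => chainAv m r l (gstepN (m (l + 1)) (r (l + 1) - r l) G)
      (tiltN (m (l + 1)) (r (l + 1) - r l) G h)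

/-- The overlap path of the tilted chain: `Rs m r l G B j = (1/N) E_chain |B_j|²` for `j ≤ l`, where
`B_l = B` and `B_{j-1}` is the tilted average of `B_j`. -/
noncomputable def Rs (m r : ℕ → ℝ) : ℕ → ((Fin N → ℝ) → ℝ) → ((Fin N → ℝ) → Fin N → ℝ) → ℕ → ℝ
  | 0, G, B, _ => chainAv m r 0 G (fun y => ∑ i, B y i ^ 2) / N
  | l + 1, G, B, j => if j ≤ l then
      Rs m r l (gstepN (m (l + 1)) (r (l + 1) - r l) G)
        (fun y i => tiltN (m (l + 1)) (r (l + 1) - r l) G (fun y => B y i) y) j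
      else chainAv m r (l + 1) G (fun y => ∑ i, B y i ^ 2) / N

theorem topN_succ_def (m r : ℕ → ℝ) (l : ℕ) (G : (Fin N → ℝ) → ℝ) :
    topN m r (l + 1) G = topN m r l (gstepN (m (l + 1)) (r (l + 1) - r l) G) := by
  have h1 := @topN.eq_1
  have h2 := @topN.eq_def
  simp only [topN]

variable {X : Type} [Fintype X]

/-- The log-partition function in the field `c y`: `y ↦ log ∑_x e^{u x + c ⟨y, φ x⟩}`. -/
noncomputable def lw (φ : X → Fin N → ℝ) (c : ℝ) (u : X → ℝ) : (Fin N → ℝ) → ℝ := fun y =>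
  Real.log (∑ x, Real.exp (u x + c * ∑ i, y i * φ x i))

end Vale.Agent.P157.Par
end
end

section

section

namespace Vale.Agent.P157

/-- The cube point coded by a Boolean vector. -/
def spin {N : ℕ} (σ : Fin N → Bool) : Fin N → ℝ := fun i => if σ i then 1 else -1

end Vale.Agent.P157
end
end

section

section

/-!
Tensorization of the spin cascade (module U of the Parisi plan).
-/

open MeasureTheory ProbabilityTheory Filter Topology

namespace Vale.Agent.P157.Par

variable {N : ℕ}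

/-- Lipschitz functions of one real variable. -/
def Lip1 (F : ℝ → ℝ) : Prop := ∃ L : ℝ, 0 ≤ L ∧ ∀ x x', |F x - F x'| ≤ L * |x - x'|

lemma Lip1.continuous {F : ℝ → ℝ} (h : Lip1 F) : Continuous F := by
  obtain ⟨L, hL, h⟩ := h
  refine (LipschitzWith.of_dist_le_mul (K := ⟨L, hL⟩) fun y y' => ?_).continuous
  rw [Real.dist_eq, Real.dist_eq]; exact h y y'

lemma integrable_exp_abs (a : ℝ) :
    Integrable (fun x : ℝ => Real.exp (a * |x|)) (gaussianReal 0 1) :=
  ProbabilityTheory.integrable_exp_mul_abs (X := fun x => x) (t := a)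
    (by simpa using integrable_exp_mul_gaussianReal (μ := 0) (v := 1) a)
    (by simpa using integrable_exp_mul_gaussianReal (μ := 0) (v := 1) (-a))

lemma Lip1.abs_le {F : ℝ → ℝ} {L : ℝ} (_hL : 0 ≤ L) (h : ∀ x x', |F x - F x'| ≤ L * |x - x'|)
    (x s z : ℝ) : |F (x + s * z)| ≤ |F x| + L * |s| * |z| := by
  have h1 := h (x + s * z) x
  rw [add_sub_cancel_left, abs_mul] at h1
  calc |F (x + s * z)| = |(F (x + s * z) - F x) + F x| := by ring_nf
    _ ≤ |F (x + s * z) - F x| + |F x| := abs_add_le _ _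
    _ ≤ _ := by linarith

lemma Lip1.integrable {F : ℝ → ℝ} (h : Lip1 F) (x s : ℝ) :
    Integrable (fun z => F (x + s * z)) (gaussianReal 0 1) := by
  obtain ⟨L, hL, hl⟩ := id h
  have hz : Integrable (fun z : ℝ => z) (gaussianReal 0 1) :=
    (memLp_id_gaussianReal 1).integrable le_rfl
  refine ((integrable_const |F x|).add (hz.abs.const_mul (L * |s|))).mono'
    (h.continuous.comp (by fun_prop)).aestronglyMeasurable (Filter.Eventually.of_forall fun z => ?_)
  rw [Real.norm_eq_abs]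
  exact Lip1.abs_le hL hl x s z

lemma Lip1.integrable_exp {F : ℝ → ℝ} (h : Lip1 F) (m x s : ℝ) :
    Integrable (fun z => Real.exp (m * F (x + s * z))) (gaussianReal 0 1) := by
  obtain ⟨L, hL, hl⟩ := id h
  refine ((integrable_exp_abs (|m| * (L * |s|))).const_mul (Real.exp (|m| * |F x|))).mono'
    ((Real.continuous_exp.comp (continuous_const.mul
      (h.continuous.comp (by fun_prop)))).aestronglyMeasurable)
    (Filter.Eventually.of_forall fun z => ?_)
  rw [Real.norm_eq_abs, abs_of_pos (Real.exp_pos _), ← Real.exp_add, Real.exp_le_exp]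
  have h1 := Lip1.abs_le hL hl x s z
  calc m * F (x + s * z) ≤ |m * F (x + s * z)| := le_abs_self _
    _ = |m| * |F (x + s * z)| := abs_mul _ _
    _ ≤ |m| * (|F x| + L * |s| * |z|) := mul_le_mul_of_nonneg_left h1 (abs_nonneg m)
    _ = _ := by ring

lemma Lip1.int_exp_pos {F : ℝ → ℝ} (h : Lip1 F) (m x s : ℝ) :
    0 < ∫ z, Real.exp (m * F (x + s * z)) ∂(gaussianReal 0 1) :=
  integral_exp_pos (h.integrable_exp m x s)

lemma Lip1.gstep {F : ℝ → ℝ} (h : Lip1 F) {m : ℝ} (hm : 0 < m) (v : ℝ) : Lip1 (gstep m v F) := by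
  obtain ⟨L, hL, hl⟩ := id h
  have key : ∀ y y', Par.gstep m v F y ≤ Par.gstep m v F y' + L * |y - y'| := by
    intro y y'
    unfold Par.gstep
    have h1 : ∫ z, Real.exp (m * F (y + √v * z)) ∂(gaussianReal 0 1) ≤
        Real.exp (m * (L * |y - y'|)) * ∫ z, Real.exp (m * F (y' + √v * z)) ∂(gaussianReal 0 1) := by
      rw [← integral_const_mul]
      refine integral_mono (h.integrable_exp m y (√v))
        ((h.integrable_exp m y' (√v)).const_mul _) fun z => ?_
      dsimp only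
      rw [← Real.exp_add, Real.exp_le_exp, ← mul_add]
      refine mul_le_mul_of_nonneg_left ?_ hm.le
      have := (_root_.abs_le.1 (hl (y + √v * z) (y' + √v * z))).2
      rw [add_sub_add_right_eq_sub] at this
      linarith
    have h2 := Real.log_le_log (h.int_exp_pos m y (√v)) h1
    rw [Real.log_mul (Real.exp_pos _).ne' (h.int_exp_pos m y' (√v)).ne', Real.log_exp] at h2
    calc 1 / m * Real.log (∫ z, Real.exp (m * F (y + √v * z)) ∂(gaussianReal 0 1)) ≤
        1 / m * (m * (L * |y - y'|) +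
          Real.log (∫ z, Real.exp (m * F (y' + √v * z)) ∂(gaussianReal 0 1))) :=
          mul_le_mul_of_nonneg_left h2 (by positivity)
      _ = _ := by field_simp; ring
  refine ⟨L, hL, fun y y' => _root_.abs_le.2 ⟨?_, ?_⟩⟩
  · have := key y' y
    rw [abs_sub_comm] at this
    linarith
  · have := key y y'
    linarith

/-- One cascade step of a sum of functions of the coordinates. -/
lemma gstepN_sum {F : ℝ → ℝ} (hF : Lip1 F) (m v : ℝ) :
    gstepN (N := N) m v (fun y => ∑ i, F (y i)) = fun y => ∑ i, gstep m v F (y i) := by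
  funext y
  unfold gstepN gstep
  have h1 : ∀ z : Fin N → ℝ, Real.exp (m * ∑ i, F ((y + √v • z) i)) =
      ∏ i, Real.exp (m * F (y i + √v * z i)) := by
    intro z
    rw [← Real.exp_sum, Finset.mul_sum]
    simp
  simp only [h1]
  rw [integral_fintype_prod_eq_prod (fun (i : Fin N) (x : ℝ) => Real.exp (m * F (y i + √v * x))),
    Real.log_prod (fun i _ => (hF.int_exp_pos m (y i) (√v)).ne'), Finset.mul_sum]

lemma topN_sum {m r : ℕ → ℝ} {l : ℕ} (hm : ∀ j < l, 0 < m (j + 1)) {F : ℝ → ℝ} (hF : Lip1 F) :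
    topN (N := N) m r l (fun y => ∑ i, F (y i)) =
      N * ∫ z, cascade m r l F (√(r 0) * z) ∂(gaussianReal 0 1) := by
  induction l generalizing F with
  | zero =>
    unfold topN cascade
    have h0 : Integrable (fun x => F (√(r 0) * x)) (gaussianReal 0 1) := by
      simpa using hF.integrable 0 (√(r 0))
    have hi : ∀ i : Fin N, ∫ z : Fin N → ℝ, F (√(r 0) * z i) ∂(gN N) =
        ∫ x, F (√(r 0) * x) ∂(gaussianReal 0 1) := fun i =>
      integral_comp_eval (μ := fun _ : Fin N => gaussianReal 0 1) (i := i)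
        (f := fun x => F (√(r 0) * x)) h0.aestronglyMeasurable
    simp only [Pi.smul_apply, smul_eq_mul]
    rw [integral_finsetSum _ (fun i _ => integrable_comp_eval
      (μ := fun _ : Fin N => gaussianReal 0 1) (i := i) (f := fun x => F (√(r 0) * x)) h0)]
    simp only [hi]
    simp
  | succ l ih =>
    unfold topN cascade
    rw [gstepN_sum hF]
    exact ih (fun j hj => hm j (by omega)) (hF.gstep (hm l (by omega)) _)

/-- `log cosh` is Lipschitz. -/
lemma lip1_log_cosh : Lip1 (fun x => Real.log (Real.cosh x)) := by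
  have key : ∀ x x' : ℝ, Real.log (Real.cosh x) ≤ Real.log (Real.cosh x') + |x - x'| := by
    intro x x'
    rw [← Real.log_exp |x - x'|, ← Real.log_mul (Real.cosh_pos x').ne' (Real.exp_pos _).ne']
    refine Real.log_le_log (Real.cosh_pos x) ?_
    rw [Real.cosh_eq, Real.cosh_eq]
    have h1 : Real.exp x ≤ Real.exp x' * Real.exp |x - x'| := by
      rw [← Real.exp_add, Real.exp_le_exp]
      linarith [le_abs_self (x - x')]
    have h2 : Real.exp (-x) ≤ Real.exp (-x') * Real.exp |x - x'| := by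
      rw [← Real.exp_add, Real.exp_le_exp]
      linarith [neg_abs_le (x - x')]
    calc (Real.exp x + Real.exp (-x)) / 2 ≤
        (Real.exp x' * Real.exp |x - x'| + Real.exp (-x') * Real.exp |x - x'|) / 2 := by linarith
      _ = _ := by ring
  refine ⟨1, zero_le_one, fun x x' => _root_.abs_le.2 ⟨?_, ?_⟩⟩
  · have := key x' x
    rw [abs_sub_comm] at this
    linarith
  · have := key x x'
    linarith

lemma lw_spin (y : Fin N → ℝ) :
    lw (X := Fin N → Bool) spin 1 (fun _ => -(N * Real.log 2)) y =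
      ∑ i, Real.log (Real.cosh (y i)) := by
  unfold lw
  have h1 : ∀ x : Fin N → Bool, Real.exp (-(N * Real.log 2) + 1 * ∑ i, y i * spin x i) =
      ∏ i, (Real.exp (y i * (if x i then 1 else -1)) / 2) := by
    intro x
    rw [Real.exp_add, one_mul, Real.exp_sum, Finset.prod_div_distrib, Real.exp_neg]
    have : Real.exp (N * Real.log 2) = ∏ _i : Fin N, (2 : ℝ) := by
      rw [Finset.prod_const, Finset.card_univ, Fintype.card_fin, Real.exp_nat_mul,
        Real.exp_log (by norm_num)]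
    rw [this]
    unfold spin
    field_simp
  simp only [h1]
  have h2 := Finset.prod_univ_sum (fun _ : Fin N => (Finset.univ : Finset Bool))
    (fun (i : Fin N) (b : Bool) => Real.exp (y i * (if b then 1 else -1)) / 2)
  rw [Fintype.piFinset_univ] at h2
  rw [← h2, Real.log_prod]
  · refine Finset.sum_congr rfl fun i _ => ?_
    congr 1
    rw [Real.cosh_eq, Fintype.sum_bool]
    simp
    ring
  · intro i _
    refine (Finset.sum_pos (fun b _ => by positivity) Finset.univ_nonempty).ne'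

lemma Exponents.pos {k : ℕ} {m : ℕ → ℝ} (hm : Exponents k m) : ∀ j ≤ k, 0 < m (j + 1) := by
  intro j hj
  induction j with
  | zero => have := hm.2.2 0 hj; rw [hm.1] at this; exact this
  | succ j ih => exact (ih (by omega)).trans (hm.2.2 (j + 1) hj)

theorem topN_spin {k : ℕ} {m r : ℕ → ℝ} (hm : Exponents k m) (N : ℕ) :
    topN m r k (lw (X := Fin N → Bool) spin 1 (fun _ => -(N * Real.log 2))) =
      N * (spinPart k m r + r k / 2) := by
  rw [funext (lw_spin (N := N)), topN_sum (fun j hj => hm.pos j hj.le) lip1_log_cosh]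
  unfold spinPart
  ring

end Vale.Agent.P157.Par
end
end

section

section

namespace Vale.Agent.P166.Conc

open Matrix

/-- The orthogonal group `O(n)`. -/
abbrev OG (n : ℕ) := Matrix.orthogonalGroup (Fin n) ℝ

variable {n : ℕ}

/-- Householder reflection matrix. -/
noncomputable def rfl' (w : Fin n → ℝ) : Matrix (Fin n) (Fin n) ℝ :=
  1 - (2 / (w ⬝ᵥ w)) • Matrix.vecMulVec w w

lemma rfl'_transpose (w : Fin n → ℝ) : (rfl' w)ᵀ = rfl' w := by
  unfold rfl'
  ext i j
  simp [Matrix.one_apply, Matrix.vecMulVec_apply, eq_comm, mul_comm]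

lemma rfl'_mulVec (w x : Fin n → ℝ) :
    rfl' w *ᵥ x = x - ((2 / (w ⬝ᵥ w)) * (w ⬝ᵥ x)) • w := by
  unfold rfl'
  rw [Matrix.sub_mulVec, Matrix.one_mulVec, Matrix.smul_mulVec, Matrix.vecMulVec_mulVec]
  ext i
  simp [smul_smul, mul_comm]

lemma rfl'_mul_self (w : Fin n → ℝ) : rfl' w * rfl' w = 1 := by
  by_cases hw : w ⬝ᵥ w = 0
  · unfold rfl'
    rw [hw]; simp
  · have h1 : Matrix.vecMulVec w w * Matrix.vecMulVec w w = (w ⬝ᵥ w) • Matrix.vecMulVec w w := by
      ext i j
      simp only [Matrix.mul_apply, Matrix.vecMulVec_apply, Matrix.smul_apply, smul_eq_mul,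
        dotProduct, Finset.sum_mul]
      refine Finset.sum_congr rfl fun k _ => ?_
      ring
    unfold rfl'
    rw [sub_mul, one_mul, mul_sub, mul_one, Matrix.smul_mul, Matrix.mul_smul, h1, smul_smul,
      smul_smul]
    have h2 : 2 / (w ⬝ᵥ w) * (2 / (w ⬝ᵥ w)) * (w ⬝ᵥ w) = 2 / (w ⬝ᵥ w) + 2 / (w ⬝ᵥ w) := by
      field_simp; ring
    rw [h2, add_smul]
    abel

lemma rfl'_mem (w : Fin n → ℝ) : rfl' w ∈ Matrix.orthogonalGroup (Fin n) ℝ := by
  rw [Matrix.mem_orthogonalGroup_iff, rfl'_transpose, rfl'_mul_self]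

/-- Householder reflection as an element of `O(n)`. -/
noncomputable def rflG (w : Fin n → ℝ) : OG n := ⟨rfl' w, rfl'_mem w⟩

lemma rflG_mul_self (w : Fin n → ℝ) : rflG w * rflG w = 1 := Subtype.ext (rfl'_mul_self w)

lemma OG.mul_transpose (U : OG n) :
    (U : Matrix (Fin n) (Fin n) ℝ) * (U : Matrix (Fin n) (Fin n) ℝ)ᵀ = 1 :=
  (Matrix.mem_orthogonalGroup_iff (Fin n) ℝ).1 U.2

lemma OG.transpose_mul (U : OG n) :
    (U : Matrix (Fin n) (Fin n) ℝ)ᵀ * (U : Matrix (Fin n) (Fin n) ℝ) = 1 :=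
  (Matrix.mem_orthogonalGroup_iff' (Fin n) ℝ).1 U.2

lemma OG.coe_inv (U : OG n) :
    ((U⁻¹ : OG n) : Matrix (Fin n) (Fin n) ℝ) = (U : Matrix (Fin n) (Fin n) ℝ)ᵀ := by
  have h : (U : Matrix (Fin n) (Fin n) ℝ) * ((U⁻¹ : OG n) : Matrix (Fin n) (Fin n) ℝ) = 1 := by
    have := congrArg Subtype.val (mul_inv_cancel U)
    exact this
  calc ((U⁻¹ : OG n) : Matrix (Fin n) (Fin n) ℝ)
      = ((U : Matrix (Fin n) (Fin n) ℝ)ᵀ * (U : Matrix (Fin n) (Fin n) ℝ)) *
          ((U⁻¹ : OG n) : Matrix (Fin n) (Fin n) ℝ) := by rw [OG.transpose_mul, one_mul]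
    _ = _ := by rw [mul_assoc, h, mul_one]

lemma OG.coe_mul (U V : OG n) :
    ((U * V : OG n) : Matrix (Fin n) (Fin n) ℝ) = (U : Matrix (Fin n) (Fin n) ℝ) * V := rfl

lemma OG.dot (U : OG n) (x y : Fin n → ℝ) :
    ((U : Matrix (Fin n) (Fin n) ℝ) *ᵥ x) ⬝ᵥ ((U : Matrix (Fin n) (Fin n) ℝ) *ᵥ y) = x ⬝ᵥ y := by
  rw [Matrix.dotProduct_mulVec, Matrix.vecMul_mulVec, OG.transpose_mul, Matrix.vecMul_one]

lemma OG.dot_left (U : OG n) (x y : Fin n → ℝ) :
    ((U : Matrix (Fin n) (Fin n) ℝ) *ᵥ x) ⬝ᵥ y =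
      x ⬝ᵥ ((U : Matrix (Fin n) (Fin n) ℝ)ᵀ *ᵥ y) := by
  rw [Matrix.dotProduct_mulVec, Matrix.vecMul_transpose]

/-- Conjugation of a reflection. -/
lemma conj_rflG (h : OG n) (w : Fin n → ℝ) :
    h * rflG w * h⁻¹ = rflG ((h : Matrix (Fin n) (Fin n) ℝ) *ᵥ w) := by
  apply Subtype.ext
  rw [OG.coe_mul, OG.coe_mul, OG.coe_inv]
  show (h : Matrix (Fin n) (Fin n) ℝ) * rfl' w * (h : Matrix (Fin n) (Fin n) ℝ)ᵀ = rfl' _
  unfold rfl'
  rw [OG.dot, mul_sub, mul_one, sub_mul, OG.mul_transpose, Matrix.mul_smul, Matrix.smul_mul,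
    Matrix.mul_vecMulVec, Matrix.vecMulVec_mul, Matrix.vecMul_transpose]

/-- an element of `O(n)` mapping `e_k` to `v`, for a unit vector `v`. -/
noncomputable def hk (k : Fin n) (v : Fin n → ℝ) : OG n :=
  if v k ≤ 0 then rflG (Pi.single k 1 - v) else rflG (Pi.single k 1 + v) * rflG (Pi.single k 1)

lemma dot_single (k : Fin n) (v : Fin n → ℝ) : v ⬝ᵥ (Pi.single k 1 : Fin n → ℝ) = v k := by
  simp

lemma single_dot (k : Fin n) (v : Fin n → ℝ) : (Pi.single k 1 : Fin n → ℝ) ⬝ᵥ v = v k := by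
  simp

lemma dot_sub_self (k : Fin n) (v : Fin n → ℝ) (hv : v ⬝ᵥ v = 1) :
    (Pi.single k 1 - v) ⬝ᵥ (Pi.single k 1 - v) = 2 - 2 * v k := by
  rw [sub_dotProduct, dotProduct_sub, dotProduct_sub, hv, dot_single, single_dot, dot_single]
  simp; ring

lemma dot_add_self (k : Fin n) (v : Fin n → ℝ) (hv : v ⬝ᵥ v = 1) :
    (Pi.single k 1 + v) ⬝ᵥ (Pi.single k 1 + v) = 2 + 2 * v k := by
  rw [add_dotProduct, dotProduct_add, dotProduct_add, hv, dot_single, single_dot, dot_single]
  simp; ring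

lemma hk_mulVec (k : Fin n) (v : Fin n → ℝ) (hv : v ⬝ᵥ v = 1) :
    (hk k v : Matrix (Fin n) (Fin n) ℝ) *ᵥ Pi.single k 1 = v := by
  unfold hk
  split_ifs with h
  · show rfl' _ *ᵥ _ = _
    rw [rfl'_mulVec, dot_sub_self k v hv, sub_dotProduct, dot_single, dot_single]
    have h2 : 2 - 2 * v k ≠ 0 := by linarith
    have : 2 / (2 - 2 * v k) * ((Pi.single k 1 : Fin n → ℝ) k - v k) = 1 := by
      simp only [Pi.single_eq_same]
      rw [div_mul_eq_mul_div, div_eq_one_iff_eq h2]; ring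
    rw [this, one_smul]; abel
  · have h' : 0 < v k := not_le.1 h
    rw [OG.coe_mul]
    show (rfl' _ * rfl' _) *ᵥ _ = _
    rw [← Matrix.mulVec_mulVec]
    have h1 : rfl' (Pi.single k 1 : Fin n → ℝ) *ᵥ Pi.single k 1 = - Pi.single k 1 := by
      rw [rfl'_mulVec, dot_single]
      simp only [Pi.single_eq_same]
      ext i; simp; ring
    rw [h1, Matrix.mulVec_neg, rfl'_mulVec, dot_add_self k v hv, add_dotProduct, dot_single,
      dot_single]
    have h2 : 2 + 2 * v k ≠ 0 := by linarith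
    have : 2 / (2 + 2 * v k) * ((Pi.single k 1 : Fin n → ℝ) k + v k) = 1 := by
      simp only [Pi.single_eq_same]
      rw [div_mul_eq_mul_div, div_eq_one_iff_eq h2]; ring
    rw [this, one_smul]; abel

/-- conjugation of `hk` by an element fixing `e_k`. -/
lemma conj_hk (k : Fin n) (v : Fin n → ℝ) (h : OG n)
    (hh : (h : Matrix (Fin n) (Fin n) ℝ) *ᵥ Pi.single k 1 = Pi.single k 1) :
    h * hk k v * h⁻¹ = hk k ((h : Matrix (Fin n) (Fin n) ℝ) *ᵥ v) := by
  have hv : ((h : Matrix (Fin n) (Fin n) ℝ) *ᵥ v) k = v k := by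
    rw [← single_dot k ((h : Matrix (Fin n) (Fin n) ℝ) *ᵥ v), ← single_dot k v]
    nth_rewrite 1 [← hh]
    rw [OG.dot]
  unfold hk
  rw [hv]
  split_ifs with h'
  · rw [conj_rflG, Matrix.mulVec_sub, hh]
  · have : h * (rflG (Pi.single k 1 + v) * rflG (Pi.single k 1)) * h⁻¹
        = (h * rflG (Pi.single k 1 + v) * h⁻¹) * (h * rflG (Pi.single k 1) * h⁻¹) := by group
    rw [this, conj_rflG, conj_rflG, Matrix.mulVec_add, hh]

end Vale.Agent.P166.Conc
end
end

section

section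

namespace Vale.Agent.P166.Conc

open Matrix MeasureTheory ProbabilityTheory

variable {n : ℕ}

instance secondCountable_OG : SecondCountableTopology (OG n) := by
  have : SecondCountableTopology (Matrix (Fin n) (Fin n) ℝ) :=
    inferInstanceAs (SecondCountableTopology (Fin n → Fin n → ℝ))
  exact TopologicalSpace.Subtype.secondCountableTopology _

section Haar

variable [MeasurableSpace (OG n)] [BorelSpace (OG n)]

lemma measurable_OG {α : Type*} [MeasurableSpace α] {f : α → OG n}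
    (hf : ∀ i j, Measurable fun a => (f a : Matrix (Fin n) (Fin n) ℝ) i j) : Measurable f := by
  have h : ‹MeasurableSpace (OG n)› =
      MeasurableSpace.comap
        (fun (U : OG n) (i j : Fin n) => (U : Matrix (Fin n) (Fin n) ℝ) i j)
        MeasurableSpace.pi := by
    rw [BorelSpace.measurable_eq (α := OG n),
      BorelSpace.measurable_eq (α := Fin n → Fin n → ℝ)]
    exact borel_comap
  intro s hs
  rw [h] at hs
  obtain ⟨t, ht, rfl⟩ := hs
  have h2 : Measurable fun a => (fun (i j : Fin n) => (f a : Matrix (Fin n) (Fin n) ℝ) i j) :=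
    measurable_pi_iff.2 fun i => measurable_pi_iff.2 fun j => hf i j
  exact h2 ht

lemma continuous_coe_OG (i j : Fin n) :
    Continuous fun U : OG n => (U : Matrix (Fin n) (Fin n) ℝ) i j :=
  (continuous_apply_apply i j).comp continuous_subtype_val

lemma measurable_coe_OG (i j : Fin n) :
    Measurable fun U : OG n => (U : Matrix (Fin n) (Fin n) ℝ) i j :=
  (continuous_coe_OG i j).measurable

variable (ν ν' : Measure (OG n)) [IsProbabilityMeasure ν] [IsProbabilityMeasure ν']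
  [ν.IsMulLeftInvariant] [ν'.IsMulLeftInvariant]

lemma lintegral_inv_eq (f : OG n → ENNReal) (hf : Measurable f) :
    ∫⁻ U, f U ∂ν = ∫⁻ U, f U⁻¹ ∂ν' := by
  have h1 : ∫⁻ W, ∫⁻ U, f (W⁻¹ * U) ∂ν ∂ν' = ∫⁻ U, f U ∂ν := by
    simp_rw [lintegral_mul_left_eq_self (μ := ν) f]
    simp only [lintegral_const, measure_univ, mul_one]
  have h2 : ∫⁻ U, ∫⁻ W, f (W⁻¹ * U) ∂ν' ∂ν = ∫⁻ U, f U⁻¹ ∂ν' := by
    have : ∀ U : OG n, ∫⁻ W, f (W⁻¹ * U) ∂ν' = ∫⁻ W, f W⁻¹ ∂ν' := by
      intro U
      have := lintegral_mul_left_eq_self (μ := ν') (fun W => f W⁻¹) U⁻¹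
      simpa only [_root_.mul_inv_rev, inv_inv] using this
    simp_rw [this]
    simp
  rw [← h1, ← h2]
  apply lintegral_lintegral_swap
  exact (hf.comp ((measurable_inv.comp measurable_fst).mul measurable_snd)).aemeasurable

lemma haar_map_inv : ν.map (fun U => U⁻¹) = ν := by
  ext s hs
  rw [Measure.map_apply measurable_inv hs]
  have h1 := lintegral_inv_eq ν ν (s.indicator 1) (measurable_one.indicator hs)
  have h3 : ∀ U : OG n, s.indicator (1 : OG n → ENNReal) U⁻¹ =
      ((fun U : OG n => U⁻¹) ⁻¹' s).indicator 1 U := fun U => rfl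
  simp_rw [h3] at h1
  rw [lintegral_indicator hs, lintegral_indicator (measurable_inv hs)] at h1
  simpa only [Set.inv_preimage, Pi.one_apply, lintegral_const, MeasurableSet.univ, Measure.restrict_apply,     Set.univ_inter, one_mul] using h1.symm

lemma haar_right_inv : ν.IsMulRightInvariant := by
  constructor
  intro g
  have h : (fun U : OG n => U * g) = (fun U => U⁻¹) ∘ (fun U => g⁻¹ * U) ∘ (fun U => U⁻¹) := by
    funext U; simp only [Function.comp_apply, _root_.mul_inv_rev, inv_inv]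
  rw [h, ← Measure.map_map measurable_inv ((measurable_const_mul _).comp measurable_inv),
    ← Measure.map_map (measurable_const_mul _) measurable_inv, haar_map_inv ν,
    map_mul_left_eq_self ν, haar_map_inv ν]

end Haar

/-- The subgroup of `O(n)` fixing the first `m` basis vectors. -/
def Fx (n m : ℕ) : Subgroup (OG n) where
  carrier := {h | ∀ j : Fin n, (j : ℕ) < m →
    (h : Matrix (Fin n) (Fin n) ℝ) *ᵥ Pi.single j 1 = Pi.single j 1}
  mul_mem' := by
    intro a b ha hb j hj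
    rw [OG.coe_mul, ← Matrix.mulVec_mulVec, hb j hj, ha j hj]
  one_mem' := by
    intro j _
    exact Matrix.one_mulVec _
  inv_mem' := by
    intro a ha j hj
    have h := ha j hj
    rw [OG.coe_inv]
    nth_rewrite 1 [← h]
    rw [Matrix.mulVec_mulVec, OG.transpose_mul, Matrix.one_mulVec]

lemma Fx_mono {m m' : ℕ} (h : m ≤ m') : Fx n m' ≤ Fx n m := fun _ ha j hj =>
  ha j (lt_of_lt_of_le hj h)

/-- truncation to coordinates `≥ m`. -/
def tr (m : ℕ) (x : Fin n → ℝ) : Fin n → ℝ := fun i => if m ≤ (i : ℕ) then x i else 0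

lemma Fx_coord {m : ℕ} {h : OG n} (hh : h ∈ Fx n m) (x : Fin n → ℝ) (j : Fin n) (hj : (j : ℕ) < m) :
    ((h : Matrix (Fin n) (Fin n) ℝ) *ᵥ x) j = x j := by
  have h1 := (Fx n m).inv_mem hh j hj
  rw [OG.coe_inv] at h1
  rw [← single_dot j ((h : Matrix (Fin n) (Fin n) ℝ) *ᵥ x), dotProduct_comm, OG.dot_left, h1, dot_single]

lemma tr_mulVec {m : ℕ} {h : OG n} (hh : h ∈ Fx n m) (x : Fin n → ℝ) :
    tr m ((h : Matrix (Fin n) (Fin n) ℝ) *ᵥ x) = (h : Matrix (Fin n) (Fin n) ℝ) *ᵥ tr m x := by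
  have hx : x = tr m x + (x - tr m x) := by abel
  have hrest : (h : Matrix (Fin n) (Fin n) ℝ) *ᵥ (x - tr m x) = x - tr m x := by
    have : x - tr m x = ∑ j : Fin n, (x - tr m x) j • (Pi.single j 1 : Fin n → ℝ) := by
      rw [← pi_eq_sum_univ' ]
    rw [this, Matrix.mulVec_sum]
    refine Finset.sum_congr rfl fun j _ => ?_
    rw [Matrix.mulVec_smul]
    by_cases hj : (j : ℕ) < m
    · rw [hh j hj]
    · have : (x - tr m x) j = 0 := by simp only [Pi.sub_apply, tr, not_lt.1 hj, ↓reduceIte, sub_self]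
      rw [this]; simp
  ext i
  by_cases hi : m ≤ (i : ℕ)
  · have h2 : tr m ((h : Matrix (Fin n) (Fin n) ℝ) *ᵥ x) i = ((h : Matrix (Fin n) (Fin n) ℝ) *ᵥ x) i := by
      simp only [tr, hi, ↓reduceIte]
    rw [h2]
    nth_rewrite 1 [hx]
    rw [Matrix.mulVec_add, hrest]
    simp only [Pi.add_apply, Pi.sub_apply, tr, hi, ↓reduceIte, sub_self, add_zero]
  · have h2 : tr m ((h : Matrix (Fin n) (Fin n) ℝ) *ᵥ x) i = 0 := by
      simp [tr, hi]
    rw [h2, Fx_coord hh _ i (not_le.1 hi)]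
    simp [tr, hi]

/-- normalized truncation. -/
noncomputable def nv (m : ℕ) (x : Fin n → ℝ) : Fin n → ℝ :=
  (√(tr m x ⬝ᵥ tr m x))⁻¹ • tr m x

lemma nv_mulVec {m : ℕ} {h : OG n} (hh : h ∈ Fx n m) (x : Fin n → ℝ) :
    nv m ((h : Matrix (Fin n) (Fin n) ℝ) *ᵥ x) = (h : Matrix (Fin n) (Fin n) ℝ) *ᵥ nv m x := by
  unfold nv
  rw [tr_mulVec hh, OG.dot, Matrix.mulVec_smul]

lemma nv_unit {m : ℕ} {x : Fin n → ℝ} (hx : tr m x ≠ 0) : nv m x ⬝ᵥ nv m x = 1 := by
  unfold nv
  have h0 : 0 < tr m x ⬝ᵥ tr m x := by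
    have h1 : 0 ≤ tr m x ⬝ᵥ tr m x := Finset.sum_nonneg fun i _ => mul_self_nonneg _
    rcases h1.lt_or_eq with h | h
    · exact h
    · exact absurd (dotProduct_self_eq_zero.1 h.symm) hx
  rw [smul_dotProduct, dotProduct_smul, smul_eq_mul, smul_eq_mul, ← mul_assoc, ← mul_inv,
    Real.mul_self_sqrt h0.le, inv_mul_cancel₀ h0.ne']

lemma nv_zero_of_lt {m : ℕ} {x : Fin n → ℝ} {j : Fin n} (hj : (j : ℕ) < m) : nv m x j = 0 := by
  simp only [nv, Pi.smul_apply, tr, not_le.2 hj, ↓reduceIte, smul_eq_mul, mul_zero]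

lemma rflG_mem_Fx {m : ℕ} {w : Fin n → ℝ} (hw : ∀ j : Fin n, (j : ℕ) < m → w j = 0) :
    rflG w ∈ Fx n m := by
  intro j hj
  show rfl' w *ᵥ _ = _
  rw [rfl'_mulVec, dot_single, hw j hj]; simp only [mul_zero, zero_smul, sub_zero]

lemma hk_mem_Fx {m : ℕ} (k : Fin n) (hk' : m ≤ (k : ℕ)) {v : Fin n → ℝ}
    (hv : ∀ j : Fin n, (j : ℕ) < m → v j = 0) : hk k v ∈ Fx n m := by
  have hs : ∀ j : Fin n, (j : ℕ) < m → (Pi.single k (1 : ℝ) : Fin n → ℝ) j = 0 := by
    intro j hj
    have : j ≠ k := by rintro rfl; omega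
    simp [this]
  unfold hk
  split_ifs
  · apply rflG_mem_Fx
    intro j hj
    simp [hs j hj, hv j hj]
  · apply (Fx n m).mul_mem
    · apply rflG_mem_Fx
      intro j hj
      simp [hs j hj, hv j hj]
    · apply rflG_mem_Fx
      intro j hj
      simp [hs j hj]

/-- the standard Gaussian measure on `ℝⁿ`. -/
noncomputable def gam (n : ℕ) : Measure (Fin n → ℝ) := Measure.pi fun _ => gaussianReal 0 1

instance : IsProbabilityMeasure (gam n) := by unfold gam; infer_instance

end Vale.Agent.P166.Conc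
end
end

section

section

namespace Vale.Agent.P166.Conc

open Matrix MeasureTheory ProbabilityTheory

variable {n : ℕ}

noncomputable def isoOf (h : OG n) : EuclideanSpace ℝ (Fin n) ≃ₗᵢ[ℝ] EuclideanSpace ℝ (Fin n) where
  toLinearEquiv := LinearEquiv.ofLinearMap
    (Matrix.toEuclideanLin (h : Matrix (Fin n) (Fin n) ℝ))
    (Matrix.toEuclideanLin (h : Matrix (Fin n) (Fin n) ℝ)ᵀ)
    (by
      ext x i
      simp [Matrix.toLpLin_apply, Matrix.mulVec_mulVec, OG.mul_transpose])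
    (by
      ext x i
      simp [Matrix.toLpLin_apply, Matrix.mulVec_mulVec, OG.transpose_mul])
  norm_map' := by
    intro x
    rw [EuclideanSpace.norm_eq, EuclideanSpace.norm_eq]
    congr 1
    have := OG.dot h x.ofLp x.ofLp
    simp only [dotProduct] at this
    simp only [Real.norm_eq_abs, sq, abs_mul_abs_self]
    exact this

lemma gam_map (h : OG n) :
    (gam n).map (fun x => (h : Matrix (Fin n) (Fin n) ℝ) *ᵥ x) = gam n := by
  have h1 : (gam n).map (WithLp.toLp 2) = stdGaussian (EuclideanSpace ℝ (Fin n)) :=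
    map_pi_eq_stdGaussian
  have h2 := stdGaussian_map (E := EuclideanSpace ℝ (Fin n)) (isoOf h)
  have hm : Measurable (WithLp.ofLp : EuclideanSpace ℝ (Fin n) → (Fin n → ℝ)) := by fun_prop
  have hm2 : Measurable (WithLp.toLp 2 : (Fin n → ℝ) → EuclideanSpace ℝ (Fin n)) := by fun_prop
  have h3 : (fun x : Fin n → ℝ => (h : Matrix (Fin n) (Fin n) ℝ) *ᵥ x) =
      (WithLp.ofLp : EuclideanSpace ℝ (Fin n) → (Fin n → ℝ)) ∘ (isoOf h) ∘ (WithLp.toLp 2) := by
    funext x
    rfl
  have h4 : gam n = (stdGaussian (EuclideanSpace ℝ (Fin n))).map WithLp.ofLp := by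
    rw [← h1, Measure.map_map hm hm2]
    exact Measure.map_id.symm
  rw [h3, ← Measure.map_map hm (by fun_prop), ← Measure.map_map (by fun_prop) hm2, h1, h2, ← h4]

lemma gam_ne_zero (k : Fin n) : ∀ᵐ x ∂(gam n), x k ≠ 0 := by
  have h1 : MeasurePreserving (Function.eval k) (gam n) (gaussianReal 0 1) :=
    measurePreserving_eval (fun _ => gaussianReal 0 1) k
  have h2 : ∀ᵐ y ∂(gaussianReal 0 1), y ≠ 0 := by
    have : NullSingletonClass (gaussianReal 0 1) := nullSingletonClass_gaussianReal (by norm_num)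
    exact Measure.ae_ne _ 0
  exact h1.quasiMeasurePreserving.ae h2

lemma tr_ne_zero (k : Fin n) : ∀ᵐ x ∂(gam n), tr (k : ℕ) x ≠ 0 := by
  filter_upwards [gam_ne_zero k] with x hx h0
  apply hx
  have := congrFun h0 k
  simpa [tr] using this

lemma nv_ae_unit (k : Fin n) : ∀ᵐ x ∂(gam n), nv (k : ℕ) x ⬝ᵥ nv (k : ℕ) x = 1 := by
  filter_upwards [tr_ne_zero k] with x hx using nv_unit hx

lemma measurable_tr (m : ℕ) : Measurable (tr m : (Fin n → ℝ) → (Fin n → ℝ)) := by
  refine measurable_pi_iff.2 fun i => ?_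
  unfold tr
  split_ifs
  · exact measurable_pi_apply i
  · exact measurable_const

lemma measurable_dot {α : Type*} [MeasurableSpace α] {f g : α → (Fin n → ℝ)}
    (hf : Measurable f) (hg : Measurable g) : Measurable fun a => f a ⬝ᵥ g a := by
  unfold dotProduct
  refine Finset.measurable_sum _ fun i _ => ?_
  exact ((measurable_pi_apply i).comp hf).mul ((measurable_pi_apply i).comp hg)

lemma measurable_nv (m : ℕ) : Measurable (nv m : (Fin n → ℝ) → (Fin n → ℝ)) := by
  unfold nv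
  have h := measurable_tr (n := n) m
  exact ((measurable_dot h h).sqrt.inv).smul h

section

variable [MeasurableSpace (OG n)] [BorelSpace (OG n)]

lemma measurable_rflG {α : Type*} [MeasurableSpace α] {f : α → (Fin n → ℝ)} (hf : Measurable f) :
    Measurable fun a => rflG (f a) := by
  refine measurable_OG fun i j => ?_
  have : (fun a => (rflG (f a) : Matrix (Fin n) (Fin n) ℝ) i j) =
      fun a => (1 : Matrix (Fin n) (Fin n) ℝ) i j - (2 / (f a ⬝ᵥ f a)) * (f a i * f a j) := by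
    funext a
    show rfl' (f a) i j = _
    simp [rfl', Matrix.vecMulVec_apply]
  rw [this]
  have hi := (measurable_pi_apply i).comp hf
  have hj := (measurable_pi_apply j).comp hf
  exact measurable_const.sub ((measurable_const.div (measurable_dot hf hf)).mul (hi.mul hj))

lemma measurable_hk (k : Fin n) : Measurable fun v : Fin n → ℝ => hk k v := by
  unfold hk
  refine Measurable.ite ?_ ?_ ?_
  · exact measurableSet_le (measurable_pi_apply k) measurable_const
  · exact measurable_rflG (measurable_const.sub measurable_id)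
  · exact (measurable_rflG (measurable_const.add measurable_id)).mul measurable_const

/-- the random element `hk k (nv k x)`. -/
noncomputable def Hx (k : Fin n) (x : Fin n → ℝ) : OG n := hk k (nv (k : ℕ) x)

lemma measurable_Hx (k : Fin n) : Measurable (Hx k) := (measurable_hk k).comp (measurable_nv _)

end

lemma Hx_mem (k : Fin n) (x : Fin n → ℝ) : Hx k x ∈ Fx n (k : ℕ) :=
  hk_mem_Fx k le_rfl fun _ hj => nv_zero_of_lt hj

end Vale.Agent.P166.Conc
end
end

section

section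

namespace Vale.Agent.P166.Conc

open Matrix MeasureTheory ProbabilityTheory

variable {n : ℕ} [MeasurableSpace (OG n)] [BorelSpace (OG n)]

/-- averaging operator -/
noncomputable def T (k : Fin n) (g : OG n → ℝ) (U : OG n) : ℝ := ∫ x, g (U * Hx k x) ∂(gam n)

/-- Dirichlet form of the `k`-th step. -/
noncomputable def D (ν : Measure (OG n)) (k : Fin n) (g : OG n → ℝ) : ℝ :=
  ∫ U, ∫ x, (g (U * Hx k x) - g U) ^ 2 ∂(gam n) ∂ν

/-- bounded measurable functions -/
structure BM (B : ℝ) (g : OG n → ℝ) : Prop where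
  meas : Measurable g
  bd : ∀ U, |g U| ≤ B

lemma meas_pair (k : Fin n) {g : OG n → ℝ} (hg : Measurable g) :
    Measurable fun p : OG n × (Fin n → ℝ) => g (p.1 * Hx k p.2) :=
  hg.comp (measurable_fst.mul ((measurable_Hx k).comp measurable_snd))

lemma intg {α : Type*} [MeasurableSpace α] (μ : Measure α) [IsFiniteMeasure μ] {f : α → ℝ}
    (hf : Measurable f) (C : ℝ) (hC : ∀ a, |f a| ≤ C) : Integrable f μ :=
  Integrable.of_bound hf.aestronglyMeasurable C (Filter.Eventually.of_forall fun a => by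
    simpa using hC a)

lemma BM.T {B : ℝ} {g : OG n → ℝ} (hg : BM B g) (k : Fin n) : BM B (T k g) := by
  constructor
  · have h1 : StronglyMeasurable (Function.uncurry fun (U : OG n) (x : Fin n → ℝ) =>
        g (U * Hx k x)) := (meas_pair k hg.meas).stronglyMeasurable
    exact (h1.integral_prod_right (ν := gam n)).measurable
  · intro U
    unfold Conc.T
    have h : ‖∫ x, g (U * Hx k x) ∂(gam n)‖ ≤ B * (gam n).real Set.univ :=
      norm_integral_le_of_norm_le_const (Filter.Eventually.of_forall fun x => by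
        simpa using hg.bd (U * Hx k x))
    simpa using h

lemma T_inv {m : ℕ} (k : Fin n) (hk' : (k : ℕ) = m) {g : OG n → ℝ} (hg : Measurable g)
    (hinv : ∀ U : OG n, ∀ h ∈ Fx n (m + 1), g (U * h) = g U) :
    ∀ U : OG n, ∀ h ∈ Fx n m, T k g (U * h) = T k g U := by
  intro U h hh
  unfold T
  have h1 : ∫ x, g (U * Hx k x) ∂(gam n) =
      ∫ x, g (U * Hx k ((h : Matrix (Fin n) (Fin n) ℝ) *ᵥ x)) ∂(gam n) := by
    have hmm : Measurable fun x : Fin n → ℝ => (h : Matrix (Fin n) (Fin n) ℝ) *ᵥ x :=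
      (Continuous.matrix_mulVec continuous_const continuous_id).measurable
    nth_rewrite 1 [← gam_map h]
    rw [integral_map hmm.aemeasurable]
    exact (hg.comp (measurable_const.mul (measurable_Hx k))).aestronglyMeasurable
  rw [h1]
  refine integral_congr_ae ?_
  filter_upwards [nv_ae_unit k] with x hx
  have hmem : (Hx k ((h : Matrix (Fin n) (Fin n) ℝ) *ᵥ x))⁻¹ * (h * Hx k x) ∈ Fx n (m + 1) := by
    intro j hj
    rcases Nat.lt_succ_iff_lt_or_eq.1 hj with hj | hj
    · have hall : (Hx k ((h : Matrix (Fin n) (Fin n) ℝ) *ᵥ x))⁻¹ * (h * Hx k x) ∈ Fx n m := by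
        apply (Fx n m).mul_mem ((Fx n m).inv_mem _) ((Fx n m).mul_mem hh _)
        · rw [← hk']; exact Hx_mem _ _
        · rw [← hk']; exact Hx_mem _ _
      exact hall j hj
    · have hjk : j = k := Fin.ext (by rw [hk', ← hj])
      subst hjk
      have e1 : (Hx j x : Matrix (Fin n) (Fin n) ℝ) *ᵥ Pi.single j 1 = nv (j : ℕ) x :=
        hk_mulVec j _ hx
      have hx2 : nv (j : ℕ) ((h : Matrix (Fin n) (Fin n) ℝ) *ᵥ x) =
          (h : Matrix (Fin n) (Fin n) ℝ) *ᵥ nv (j : ℕ) x := nv_mulVec (hk' ▸ hh) x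
      have hx3 : nv (j : ℕ) ((h : Matrix (Fin n) (Fin n) ℝ) *ᵥ x) ⬝ᵥ
          nv (j : ℕ) ((h : Matrix (Fin n) (Fin n) ℝ) *ᵥ x) = 1 := by
        rw [hx2, OG.dot, hx]
      have e2 : (Hx j ((h : Matrix (Fin n) (Fin n) ℝ) *ᵥ x) : Matrix (Fin n) (Fin n) ℝ) *ᵥ
          Pi.single j 1 = (h : Matrix (Fin n) (Fin n) ℝ) *ᵥ nv (j : ℕ) x := by
        rw [← hx2]; exact hk_mulVec j _ hx3
      rw [OG.coe_mul, OG.coe_mul, ← Matrix.mulVec_mulVec, ← Matrix.mulVec_mulVec, e1, ← e2,
        OG.coe_inv, Matrix.mulVec_mulVec, OG.transpose_mul, Matrix.one_mulVec]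
  have h2 := hinv (U * Hx k ((h : Matrix (Fin n) (Fin n) ℝ) *ᵥ x)) _ hmem
  rw [← h2]
  congr 1
  group


variable (ν : Measure (OG n)) [IsProbabilityMeasure ν] [ν.IsMulRightInvariant]

lemma integral_T {B : ℝ} {g : OG n → ℝ} (hg : BM B g) (k : Fin n) :
    ∫ U, T k g U ∂ν = ∫ U, g U ∂ν := by
  unfold T
  rw [integral_integral_swap]
  · simp_rw [integral_mul_right_eq_self (μ := ν) g]
    simp
  · exact intg _ (meas_pair k hg.meas) B fun p => hg.bd _

lemma BM.sq {B : ℝ} {g : OG n → ℝ} (hg : BM B g) : BM (B ^ 2) fun U => g U ^ 2 := by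
  refine ⟨hg.meas.pow_const 2, fun U => ?_⟩
  rw [abs_pow]
  exact pow_le_pow_left₀ (abs_nonneg _) (hg.bd U) 2

lemma BM.nonneg {B : ℝ} {g : OG n → ℝ} (hg : BM B g) : 0 ≤ B := (abs_nonneg _).trans (hg.bd 1)

lemma sq_diff_bd {B : ℝ} {g : OG n → ℝ} (hg : BM B g) (U V : OG n) :
    |(g U - g V) ^ 2| ≤ (2 * B) ^ 2 := by
  rw [abs_pow]
  refine pow_le_pow_left₀ (abs_nonneg _) ?_ 2
  calc |g U - g V| ≤ |g U| + |g V| := abs_sub _ _
    _ ≤ 2 * B := by linarith [hg.bd U, hg.bd V]

lemma meas_diff (k : Fin n) {g : OG n → ℝ} (hg : Measurable g) :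
    Measurable fun p : OG n × (Fin n → ℝ) => (g (p.1 * Hx k p.2) - g p.1) ^ 2 :=
  ((meas_pair k hg).sub (hg.comp measurable_fst)).pow_const 2

omit [MeasurableSpace (OG n)] [BorelSpace (OG n)] in
lemma integral_sq_sub {α : Type*} [MeasurableSpace α] (μ : Measure α) [IsProbabilityMeasure μ]
    {X : α → ℝ} (h1 : Integrable X μ) (h2 : Integrable (fun a => X a ^ 2) μ) (c : ℝ) :
    ∫ a, (X a - c) ^ 2 ∂μ = ∫ a, X a ^ 2 ∂μ - 2 * c * ∫ a, X a ∂μ + c ^ 2 := by
  have h3 : ∀ a, (X a - c) ^ 2 = X a ^ 2 - (2 * c * X a - c ^ 2) := fun a => by ring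
  have h4 : Integrable (fun a => 2 * c * X a) μ := h1.const_mul _
  have h5 : Integrable (fun a => 2 * c * X a - c ^ 2) μ := h4.sub (integrable_const _)
  simp_rw [h3]
  rw [integral_sub h2 h5, integral_sub h4 (integrable_const _), integral_const_mul]
  simp
  ring

/-- variance drop in one step. -/
lemma var_drop {B : ℝ} {g : OG n → ℝ} (hg : BM B g) (k : Fin n) :
    ∫ U, g U ^ 2 ∂ν - ∫ U, (T k g U) ^ 2 ∂ν ≤ D ν k g := by
  rw [← integral_T ν hg.sq k, ← integral_sub]
  · unfold D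
    apply integral_mono
    · refine intg ν ?_ (B ^ 2 + B ^ 2) fun U => ?_
      · exact (hg.sq.T k).meas.sub (hg.T k).sq.meas
      · exact (abs_sub _ _).trans (add_le_add ((hg.sq.T k).bd U) ((hg.T k).sq.bd U))
    · refine intg ν ?_ ((2 * B) ^ 2) fun U => ?_
      · have h1 : StronglyMeasurable (Function.uncurry fun (U : OG n) (x : Fin n → ℝ) =>
          (g (U * Hx k x) - g U) ^ 2) := (meas_diff k hg.meas).stronglyMeasurable
        exact (h1.integral_prod_right (ν := gam n)).measurable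
      · have h : ‖∫ x, (g (U * Hx k x) - g U) ^ 2 ∂(gam n)‖ ≤
            (2 * B) ^ 2 * (gam n).real Set.univ :=
          norm_integral_le_of_norm_le_const (Filter.Eventually.of_forall fun x => by
            simpa using sq_diff_bd hg (U * Hx k x) U)
        simpa using h
    · intro U
      have hm : Measurable fun x => g (U * Hx k x) :=
        hg.meas.comp (measurable_const.mul (measurable_Hx k))
      have hi1 : Integrable (fun x => g (U * Hx k x)) (gam n) := intg _ hm B fun x => hg.bd _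
      have hi2 : Integrable (fun x => g (U * Hx k x) ^ 2) (gam n) :=
        intg _ (hm.pow_const 2) (B ^ 2) fun x => hg.sq.bd _
      show ∫ x, g (U * Hx k x) ^ 2 ∂(gam n) - (∫ x, g (U * Hx k x) ∂(gam n)) ^ 2 ≤
        ∫ x, (g (U * Hx k x) - g U) ^ 2 ∂(gam n)
      rw [integral_sq_sub (gam n) hi1 hi2 (g U)]
      nlinarith [sq_nonneg (∫ x, g (U * Hx k x) ∂(gam n) - g U)]
  · exact intg ν (hg.sq.T k).meas _ (hg.sq.T k).bd
  · exact intg ν (hg.T k).sq.meas _ (hg.T k).sq.bd


omit [MeasurableSpace (OG n)] [BorelSpace (OG n)] in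
lemma sq_integral_le {α : Type*} [MeasurableSpace α] (μ : Measure α) [IsProbabilityMeasure μ]
    {X : α → ℝ} (h1 : Integrable X μ) (h2 : Integrable (fun a => X a ^ 2) μ) :
    (∫ a, X a ∂μ) ^ 2 ≤ ∫ a, X a ^ 2 ∂μ := by
  have h := integral_sq_sub μ h1 h2 (∫ a, X a ∂μ)
  have h3 : 0 ≤ ∫ a, (X a - ∫ a, X a ∂μ) ^ 2 ∂μ := integral_nonneg fun a => sq_nonneg _
  rw [h] at h3
  nlinarith

omit [MeasurableSpace (OG n)] [BorelSpace (OG n)] in
lemma Hx_conj (i k : Fin n) (hik : i < k) (x y : Fin n → ℝ) :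
    Hx i y * Hx k x = Hx k x *
      Hx i ((((Hx k x)⁻¹ : OG n) : Matrix (Fin n) (Fin n) ℝ) *ᵥ y) := by
  have hmem : (Hx k x)⁻¹ ∈ Fx n (k : ℕ) := (Fx n _).inv_mem (Hx_mem k x)
  have hmem2 : (Hx k x)⁻¹ ∈ Fx n (i : ℕ) := Fx_mono (le_of_lt hik) hmem
  have h1 := conj_hk i (nv (i : ℕ) y) (Hx k x)⁻¹ (hmem i hik)
  rw [← nv_mulVec hmem2 y] at h1
  show Hx i y * Hx k x = Hx k x * hk i (nv (i : ℕ) _)
  rw [← h1]
  show Hx i y * Hx k x = Hx k x * ((Hx k x)⁻¹ * Hx i y * (Hx k x)⁻¹⁻¹)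
  group

lemma meas_prod_left {F : OG n × (Fin n → ℝ) → ℝ} (hF : Measurable F) (ν : Measure (OG n))
    [IsProbabilityMeasure ν] : Measurable fun y => ∫ U, F (U, y) ∂ν := by
  have h1 : StronglyMeasurable (Function.uncurry fun (y : Fin n → ℝ) (U : OG n) => F (U, y)) :=
    (hF.comp measurable_swap).stronglyMeasurable
  exact (h1.integral_prod_right (ν := ν)).measurable

lemma meas_triple (i k : Fin n) {g : OG n → ℝ} (hg : Measurable g) :
    Measurable fun p : (OG n × (Fin n → ℝ)) × (Fin n → ℝ) =>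
      (g (p.1.1 * Hx i p.1.2 * Hx k p.2) - g (p.1.1 * Hx k p.2)) ^ 2 := by
  refine ((hg.comp ?_).sub (hg.comp ?_)).pow_const 2
  · exact ((measurable_fst.comp measurable_fst).mul
      ((measurable_Hx i).comp (measurable_snd.comp measurable_fst))).mul
      ((measurable_Hx k).comp measurable_snd)
  · exact (measurable_fst.comp measurable_fst).mul ((measurable_Hx k).comp measurable_snd)

lemma D_eq {B : ℝ} {g : OG n → ℝ} (hg : BM B g) (i : Fin n) :
    D ν i g = ∫ y, ∫ U, (g (U * Hx i y) - g U) ^ 2 ∂ν ∂(gam n) := by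
  unfold D
  rw [integral_integral_swap]
  exact intg _ (meas_diff i hg.meas) _ fun p => sq_diff_bd hg _ _

lemma integral_rot {Ψ : (Fin n → ℝ) → ℝ} (hΨ : Measurable Ψ) (h : OG n) :
    ∫ y, Ψ ((h : Matrix (Fin n) (Fin n) ℝ) *ᵥ y) ∂(gam n) = ∫ y, Ψ y ∂(gam n) := by
  have hmm : Measurable fun x : Fin n → ℝ => (h : Matrix (Fin n) (Fin n) ℝ) *ᵥ x :=
    (Continuous.matrix_mulVec continuous_const continuous_id).measurable
  nth_rewrite 2 [← gam_map h]
  rw [integral_map hmm.aemeasurable hΨ.aestronglyMeasurable]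

lemma D_key {B : ℝ} {g : OG n → ℝ} (hg : BM B g) (i k : Fin n) (hik : i < k) (x : Fin n → ℝ) :
    ∫ p, (g (p.1 * Hx i p.2 * Hx k x) - g (p.1 * Hx k x)) ^ 2 ∂(ν.prod (gam n)) = D ν i g := by
  have hMx : Measurable fun p : OG n × (Fin n → ℝ) =>
      (g (p.1 * Hx i p.2 * Hx k x) - g (p.1 * Hx k x)) ^ 2 := by
    refine ((hg.meas.comp ?_).sub (hg.meas.comp ?_)).pow_const 2
    · exact (measurable_fst.mul ((measurable_Hx i).comp measurable_snd)).mul measurable_const
    · exact measurable_fst.mul measurable_const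
  rw [integral_prod_symm _ (intg _ hMx _ fun p => sq_diff_bd hg _ _), D_eq ν hg]
  have hΨm : Measurable fun y : Fin n → ℝ => ∫ U, (g (U * Hx i y) - g U) ^ 2 ∂ν :=
    meas_prod_left (meas_diff i hg.meas) ν
  rw [← integral_rot hΨm (Hx k x)⁻¹]
  refine integral_congr_ae (Filter.Eventually.of_forall fun y => ?_)
  have h2 := integral_mul_right_eq_self (μ := ν)
    (fun V => (g (V * Hx i ((((Hx k x)⁻¹ : OG n) : Matrix (Fin n) (Fin n) ℝ) *ᵥ y)) - g V) ^ 2)
    (Hx k x)
  refine Eq.trans ?_ h2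
  refine integral_congr_ae (Filter.Eventually.of_forall fun U => ?_)
  show (g (U * Hx i y * Hx k x) - g (U * Hx k x)) ^ 2 =
    (g (U * Hx k x * Hx i ((((Hx k x)⁻¹ : OG n) : Matrix (Fin n) (Fin n) ℝ) *ᵥ y))
      - g (U * Hx k x)) ^ 2
  rw [mul_assoc U (Hx i y), Hx_conj i k hik x y, mul_assoc U (Hx k x)]

lemma D_jensen {B : ℝ} {g : OG n → ℝ} (hg : BM B g) (i k : Fin n) :
    D ν i (T k g) ≤ ∫ p, ∫ x,
      (g (p.1 * Hx i p.2 * Hx k x) - g (p.1 * Hx k x)) ^ 2 ∂(gam n) ∂(ν.prod (gam n)) := by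
  have hDT : D ν i (T k g) = ∫ p, (T k g (p.1 * Hx i p.2) - T k g p.1) ^ 2 ∂(ν.prod (gam n)) := by
    rw [integral_prod]
    · rfl
    · exact intg _ (meas_diff i (hg.T k).meas) _ fun p => sq_diff_bd (hg.T k) _ _
  have hI3 : Integrable (fun p : (OG n × (Fin n → ℝ)) × (Fin n → ℝ) =>
      (g (p.1.1 * Hx i p.1.2 * Hx k p.2) - g (p.1.1 * Hx k p.2)) ^ 2)
      ((ν.prod (gam n)).prod (gam n)) :=
    intg _ (meas_triple i k hg.meas) _ fun p => sq_diff_bd hg _ _
  rw [hDT]
  apply integral_mono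
  · exact intg _ (meas_diff i (hg.T k).meas) _ fun p => sq_diff_bd (hg.T k) _ _
  · exact hI3.integral_prod_left
  · intro p
    have hm1 : Measurable fun x => g (p.1 * Hx i p.2 * Hx k x) :=
      hg.meas.comp (measurable_const.mul (measurable_Hx k))
    have hm2 : Measurable fun x => g (p.1 * Hx k x) :=
      hg.meas.comp (measurable_const.mul (measurable_Hx k))
    have hi1 : Integrable (fun x => g (p.1 * Hx i p.2 * Hx k x)) (gam n) :=
      intg _ hm1 B fun x => hg.bd _
    have hi2 : Integrable (fun x => g (p.1 * Hx k x)) (gam n) :=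
      intg _ hm2 B fun x => hg.bd _
    have h1 : T k g (p.1 * Hx i p.2) - T k g p.1 =
        ∫ x, (g (p.1 * Hx i p.2 * Hx k x) - g (p.1 * Hx k x)) ∂(gam n) :=
      (integral_sub hi1 hi2).symm
    show (T k g (p.1 * Hx i p.2) - T k g p.1) ^ 2 ≤ _
    rw [h1]
    exact sq_integral_le (gam n) (hi1.sub hi2)
      (intg _ ((hm1.sub hm2).pow_const 2) _ fun x => sq_diff_bd hg _ _)

/-- contraction of the Dirichlet forms. -/
lemma D_T {B : ℝ} {g : OG n → ℝ} (hg : BM B g) (i k : Fin n) (hik : i < k) :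
    D ν i (T k g) ≤ D ν i g := by
  have hI3 : Integrable (fun p : (OG n × (Fin n → ℝ)) × (Fin n → ℝ) =>
      (g (p.1.1 * Hx i p.1.2 * Hx k p.2) - g (p.1.1 * Hx k p.2)) ^ 2)
      ((ν.prod (gam n)).prod (gam n)) :=
    intg _ (meas_triple i k hg.meas) _ fun p => sq_diff_bd hg _ _
  refine (D_jensen ν hg i k).trans (le_of_eq ?_)
  have hswap := integral_integral_swap (f := fun (p : OG n × (Fin n → ℝ)) (x : Fin n → ℝ) =>
    (g (p.1 * Hx i p.2 * Hx k x) - g (p.1 * Hx k x)) ^ 2) hI3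
  rw [hswap]
  simp_rw [D_key ν hg i k hik]
  simp

end Vale.Agent.P166.Conc
end
end

section

section

/-! Task F-S: traces as integrals and the Schur inequality. -/

open Finset MeasureTheory

namespace Vale.Agent.P166.F

/-- `Λ_q(s) = 1 - s - ∑ p_l (q_l - s)^+` (the integral from `s` to `1` of the distribution
function of the path). -/
noncomputable def Lam (K : ℕ) (m q : ℕ → ℝ) (s : ℝ) : ℝ :=
  1 - s - ∑ l ∈ range (K + 1), (m (l + 1) - m l) * max (q l - s) 0

/-- An overlap path. -/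
structure OPath (K : ℕ) (q : ℕ → ℝ) : Prop where
  nonneg : 0 ≤ q 0
  mono : ∀ l < K, q l ≤ q (l + 1)
  le : q K ≤ 1

theorem fs_mpos {K : ℕ} {m : ℕ → ℝ} (hm : Expo K m) : ∀ l ≤ K, 0 < m (l + 1) := by
  intro l
  induction l with
  | zero => intro _; exact hm.pos
  | succ l ih => intro hl; exact (ih (by omega)).trans_le (hm.mono (l + 1) hl)

theorem fs_mono {K : ℕ} {q : ℕ → ℝ} (hq : OPath K q) : ∀ i j, i ≤ j → j ≤ K → q i ≤ q j := by
  intro i j hij
  induction j, hij using Nat.le_induction with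
  | base => intro _; exact le_rfl
  | succ j _ ih => intro hj; exact (ih (by omega)).trans (hq.mono j (by omega))

theorem fs_nonneg {K : ℕ} {q : ℕ → ℝ} (hq : OPath K q) {l : ℕ} (hl : l ≤ K) : 0 ≤ q l :=
  hq.nonneg.trans (fs_mono hq 0 l (Nat.zero_le _) hl)

theorem fs_le_one {K : ℕ} {q : ℕ → ℝ} (hq : OPath K q) {l : ℕ} (hl : l ≤ K) : q l ≤ 1 :=
  (fs_mono hq l K hl le_rfl).trans hq.le

theorem fs_tele (m : ℕ → ℝ) {a b : ℕ} (h : a ≤ b) :
    ∑ l ∈ Ico a b, (m (l + 1) - m l) = m b - m a := by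
  rw [Finset.sum_Ico_eq_sub _ h, Finset.sum_range_sub, Finset.sum_range_sub]
  ring

/-- one piece of the integral -/
theorem fs_piece {f f' : ℝ → ℝ} (hf : ContinuousOn f (Set.Icc 0 1))
    (hd : ∀ x ∈ Set.Ioo (0 : ℝ) 1, HasDerivAt f (f' x) x)
    (hi : IntegrableOn f' (Set.Ioo 0 1)) {a b X c : ℝ} (hab : a ≤ b) (hc : 0 < c) (hX : X ≤ 1)
    (hX' : 0 ≤ X - c * (b - a)) :
    IntervalIntegrable (fun s => f' (X - c * (s - a))) volume a b ∧
    ∫ s in a..b, f' (X - c * (s - a)) = (f X - f (X - c * (b - a))) / c := by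
  have hle : X - c * (b - a) ≤ X := by nlinarith only [hab, hc]
  have hII : IntervalIntegrable f' volume (X - c * (b - a)) X := by
    rw [intervalIntegrable_iff_integrableOn_Ioo_of_le hle]
    exact hi.mono_set (Set.Ioo_subset_Ioo hX' hX)
  have hfun : (fun s => f' (X - c * (s - a))) = fun s => f' ((X + c * a) - c * s) := by
    funext s; congr 1; ring
  constructor
  · rw [hfun]
    have h1 := hII.comp_sub_left (X + c * a)
    have h2 := h1.comp_mul_left (c := c)
    have e1 : (X + c * a - (X - c * (b - a))) / c = b := by field_simp; ring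
    have e2 : (X + c * a - X) / c = a := by field_simp; ring
    rw [e1, e2] at h2
    exact h2.symm
  · rw [hfun, intervalIntegral.integral_comp_sub_mul f' hc.ne' (X + c * a)]
    have e1 : X + c * a - c * b = X - c * (b - a) := by ring
    have e2 : X + c * a - c * a = X := by ring
    rw [e1, e2, intervalIntegral.integral_eq_sub_of_hasDerivAt_of_le hle
      (hf.mono (Set.Icc_subset_Icc hX' hX))
      (fun x hx => hd x ⟨hX'.trans_lt hx.1, hx.2.trans_le hX⟩) hII]
    rw [smul_eq_mul]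
    (clear * - hc; field_simp)

/-- the affine pieces of `Λ` -/
theorem fs_affine {K : ℕ} {m q : ℕ → ℝ} (hm : Expo K m) (hq : OPath K q) {l : ℕ} (hl : l ≤ K)
    {s : ℝ} (h1 : q l ≤ s) (h2 : ∀ j, l < j → j ≤ K → s ≤ q j) :
    Lam K m q s = eq' K m q l - m (l + 1) * (s - q l) := by
  have e1 : ∑ j ∈ range (K + 1), (m (j + 1) - m j) * max (q j - s) 0
      = ∑ j ∈ Ico (l + 1) (K + 1), (m (j + 1) - m j) * (q j - s) := by
    rw [Finset.range_eq_Ico, ← Finset.sum_Ico_consecutive _ (Nat.zero_le (l + 1)) (by omega)]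
    have z : ∑ j ∈ Ico 0 (l + 1), (m (j + 1) - m j) * max (q j - s) 0 = 0 := by
      refine Finset.sum_eq_zero fun j hj => ?_
      rw [Finset.mem_Ico] at hj
      rw [max_eq_right, mul_zero]
      have := fs_mono hq j l (by omega) hl
      linarith only [h1, this]
    rw [z, zero_add]
    refine Finset.sum_congr rfl fun j hj => ?_
    rw [Finset.mem_Ico] at hj
    rw [max_eq_left]
    have := h2 j (by omega) (by omega)
    linarith only [this]
  have e2 : ∑ j ∈ Ico (l + 1) (K + 1), (m (j + 1) - m j) * (q j - s)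
      = ∑ j ∈ Ico (l + 1) (K + 1), (m (j + 1) - m j) * q j - (1 - m (l + 1)) * s := by
    have : (1 - m (l + 1)) = ∑ j ∈ Ico (l + 1) (K + 1), (m (j + 1) - m j) := by
      rw [fs_tele m (by omega), hm.mK]
    rw [this, Finset.sum_mul, ← Finset.sum_sub_distrib]
    exact Finset.sum_congr rfl fun j _ => by ring
  unfold Lam eq'
  rw [e1, e2]
  ring

/-- Traces as integrals. -/
theorem trf_eq_integral {K : ℕ} {m q : ℕ → ℝ} (hm : Expo K m) (hq : OPath K q) (h0 : q 0 = 0)
    {f f' : ℝ → ℝ} (hf : ContinuousOn f (Set.Icc 0 1)) (hf0 : f 0 = 0)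
    (hd : ∀ x ∈ Set.Ioo (0 : ℝ) 1, HasDerivAt f (f' x) x)
    (hi : IntegrableOn f' (Set.Ioo 0 1)) :
    IntervalIntegrable (fun s => f' (Lam K m q s)) volume 0 1 ∧
    trf K m f (eq' K m q) = ∫ s in (0 : ℝ)..1, f' (Lam K m q s) := by
  let Q : ℕ → ℝ := fun l => if l ≤ K then q l else 1
  let X : ℕ → ℝ := fun l => if l ≤ K then eq' K m q l else 0
  have Qle : ∀ l ≤ K, Q l = q l := fun l hl => by simp only [Q, if_pos hl]
  have QK : Q (K + 1) = 1 := by simp only [add_le_iff_nonpos_right, nonpos_iff_eq_zero, one_ne_zero, ↓reduceIte, Q]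
  have Xle : ∀ l ≤ K, X l = eq' K m q l := fun l hl => by simp only [X, if_pos hl]
  have XK : X (K + 1) = 0 := by simp only [add_le_iff_nonpos_right, nonpos_iff_eq_zero, one_ne_zero, ↓reduceIte, X]
  have hQm : ∀ l ≤ K, Q l ≤ Q (l + 1) := by
    intro l hl
    rw [Qle l hl]
    rcases Nat.lt_or_eq_of_le hl with h | h
    · rw [Qle (l + 1) (by omega)]; exact hq.mono l h
    · rw [h, QK]; exact hq.le
  have hstep : ∀ l ≤ K, X l - X (l + 1) = m (l + 1) * (Q (l + 1) - Q l) := by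
    intro l hl
    rw [Qle l hl, Xle l hl]
    rcases Nat.lt_or_eq_of_le hl with h | h
    · rw [Qle (l + 1) (by omega), Xle (l + 1) (by omega)]
      unfold eq'
      rw [Finset.sum_eq_sum_Ico_succ_bot (show l + 1 < K + 1 by omega)]
      ring
    · rw [h, QK, XK]
      unfold eq'
      rw [Finset.Ico_self, Finset.sum_empty, hm.mK]
      ring
  have hXanti : ∀ l ≤ K, X (l + 1) ≤ X l := by
    intro l hl
    have h1 := hstep l hl
    have h2 := mul_nonneg (fs_mpos hm l hl).le (sub_nonneg.2 (hQm l hl))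
    linarith only [h1, h2]
  have hX0 : X 0 ≤ 1 := by
    rw [Xle 0 (Nat.zero_le _)]
    unfold eq'
    have h1 : 0 ≤ ∑ j ∈ Ico (0 + 1) (K + 1), (m (j + 1) - m j) * q j := by
      refine Finset.sum_nonneg fun j hj => ?_
      rw [Finset.mem_Ico] at hj
      exact mul_nonneg (sub_nonneg.2 (hm.mono j (by omega))) (fs_nonneg hq (by omega))
    rw [h0]
    linarith only [h1]
  have hXle1 : ∀ l ≤ K + 1, X l ≤ 1 := by
    intro l
    induction l with
    | zero => intro _; exact hX0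
    | succ l ih => intro hl; exact (hXanti l (by omega)).trans (ih (by omega))
  have hXnn : ∀ k ≤ K + 1, 0 ≤ X (K + 1 - k) := by
    intro k
    induction k with
    | zero => intro _; simp [XK]
    | succ k ih =>
      intro hk
      have h1 := ih (by omega)
      have h2 := hXanti (K + 1 - (k + 1)) (by (clear * - hk; omega))
      have h3 : K + 1 - (k + 1) + 1 = K + 1 - k := by (clear * - hk; omega)
      rw [h3] at h2
      exact h1.trans h2
  have hXnn' : ∀ l ≤ K + 1, 0 ≤ X l := by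
    intro l hl
    have := hXnn (K + 1 - l) (by omega)
    rwa [show K + 1 - (K + 1 - l) = l by omega] at this
  have hXn : ∀ l ≤ K, X l - m (l + 1) * (Q (l + 1) - Q l) = X (l + 1) := fun l hl => by
    linarith only [hstep l hl]
  have hLam : ∀ l ≤ K, ∀ s, Q l ≤ s → s ≤ Q (l + 1) →
      Lam K m q s = X l - m (l + 1) * (s - Q l) := by
    intro l hl s hs1 hs2
    rw [Xle l hl, Qle l hl]
    rw [Qle l hl] at hs1
    refine fs_affine hm hq hl hs1 fun j hj1 hj2 => ?_
    rw [Qle (l + 1) (by omega)] at hs2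
    exact hs2.trans (fs_mono hq (l + 1) j hj1 hj2)
  have piece : ∀ l < K + 1,
      IntervalIntegrable (fun s => f' (Lam K m q s)) volume (Q l) (Q (l + 1)) ∧
      ∫ s in (Q l)..(Q (l + 1)), f' (Lam K m q s) = (f (X l) - f (X (l + 1))) / m (l + 1) := by
    intro l hl
    have hl' : l ≤ K := by omega
    obtain ⟨p1, p2⟩ := fs_piece hf hd hi (hQm l hl') (fs_mpos hm l hl') (hXle1 l (by omega))
      (by rw [hXn l hl']; exact hXnn' _ (by omega))
    have hcong : Set.EqOn (fun s => f' (X l - m (l + 1) * (s - Q l)))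
        (fun s => f' (Lam K m q s)) (Set.uIcc (Q l) (Q (l + 1))) := by
      intro s hs
      rw [Set.uIcc_of_le (hQm l hl')] at hs
      show f' _ = f' _
      rw [hLam l hl' s hs.1 hs.2]
    refine ⟨p1.congr (hcong.mono Set.uIoc_subset_uIcc), ?_⟩
    rw [← intervalIntegral.integral_congr hcong, p2, hXn l hl']
  have hQ0 : Q 0 = 0 := by rw [Qle 0 (Nat.zero_le _), h0]
  have hint := IntervalIntegrable.trans_iterate (a := Q) (n := K + 1) (fun k hk => (piece k hk).1)
  have hsum := intervalIntegral.sum_integral_adjacent_intervals (a := Q) (n := K + 1)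
    (fun k hk => (piece k hk).1)
  rw [hQ0, QK] at hint hsum
  refine ⟨hint, ?_⟩
  rw [← hsum, Finset.sum_congr rfl (fun k hk => (piece k (Finset.mem_range.1 hk)).2),
    Finset.sum_range_succ]
  unfold trf
  rw [XK, hf0, hm.mK, Xle K le_rfl, sub_zero, div_one, add_comm]
  congr 1
  refine Finset.sum_congr rfl fun i hi' => ?_
  rw [Finset.mem_range] at hi'
  rw [Xle i (by omega), Xle (i + 1) (by omega)]

theorem Lam_mono {K : ℕ} {m q r : ℕ → ℝ} (hm : Expo K m) (hq : OPath K q) (hr : OPath K r)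
    (h : ∀ j ≤ K, 0 ≤ ∑ l ∈ Ico j (K + 1), (m (l + 1) - m l) * (r l - q l)) (s : ℝ) :
    Lam K m r s ≤ Lam K m q s := by
  unfold Lam
  suffices H : ∑ l ∈ range (K + 1), (m (l + 1) - m l) * max (q l - s) 0
      ≤ ∑ l ∈ range (K + 1), (m (l + 1) - m l) * max (r l - s) 0 by linarith
  have hp : ∀ l ∈ range (K + 1), 0 ≤ m (l + 1) - m l := fun l hl => by
    rw [Finset.mem_range] at hl
    exact sub_nonneg.2 (hm.mono l (by omega))
  by_cases hex : ∃ j, j ≤ K ∧ s < q j
  · classical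
    let j := Nat.find hex
    have hj : j ≤ K ∧ s < q j := Nat.find_spec hex
    have hlt : ∀ i < j, q i ≤ s := by
      intro i hi
      by_contra hc
      exact Nat.find_min hex hi ⟨by omega, not_le.1 hc⟩
    have e1 : ∑ l ∈ range (K + 1), (m (l + 1) - m l) * max (q l - s) 0
        = ∑ l ∈ Ico j (K + 1), (m (l + 1) - m l) * (q l - s) := by
      rw [Finset.range_eq_Ico, ← Finset.sum_Ico_consecutive _ (Nat.zero_le j) (by omega)]
      have z : ∑ l ∈ Ico 0 j, (m (l + 1) - m l) * max (q l - s) 0 = 0 := by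
        refine Finset.sum_eq_zero fun i hi => ?_
        rw [Finset.mem_Ico] at hi
        rw [max_eq_right, mul_zero]
        linarith only [hlt i hi.2]
      rw [z, zero_add]
      refine Finset.sum_congr rfl fun i hi => ?_
      rw [Finset.mem_Ico] at hi
      rw [max_eq_left]
      have := fs_mono hq j i hi.1 (by omega)
      linarith only [hj, this]
    have e2 : ∑ l ∈ Ico j (K + 1), (m (l + 1) - m l) * (q l - s)
        ≤ ∑ l ∈ Ico j (K + 1), (m (l + 1) - m l) * (r l - s) := by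
      have h1 := h j hj.1
      have h2 : ∑ l ∈ Ico j (K + 1), (m (l + 1) - m l) * (r l - q l)
          = ∑ l ∈ Ico j (K + 1), (m (l + 1) - m l) * (r l - s)
            - ∑ l ∈ Ico j (K + 1), (m (l + 1) - m l) * (q l - s) := by
        rw [← Finset.sum_sub_distrib]
        exact Finset.sum_congr rfl fun i _ => by ring
      linarith only [h1, h2]
    have e3 : ∑ l ∈ Ico j (K + 1), (m (l + 1) - m l) * (r l - s)
        ≤ ∑ l ∈ Ico j (K + 1), (m (l + 1) - m l) * max (r l - s) 0 := by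
      refine Finset.sum_le_sum fun i hi => ?_
      rw [Finset.mem_Ico] at hi
      exact mul_le_mul_of_nonneg_left (le_max_left _ _) (hp i (Finset.mem_range.2 hi.2))
    have e4 : ∑ l ∈ Ico j (K + 1), (m (l + 1) - m l) * max (r l - s) 0
        ≤ ∑ l ∈ range (K + 1), (m (l + 1) - m l) * max (r l - s) 0 := by
      refine Finset.sum_le_sum_of_subset_of_nonneg ?_ ?_
      · intro i hi
        rw [Finset.mem_Ico] at hi
        exact Finset.mem_range.2 hi.2
      · intro i hi _
        exact mul_nonneg (hp i hi) (le_max_right _ _)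
    rw [e1]
    exact e2.trans (e3.trans e4)
  · have z : ∑ l ∈ range (K + 1), (m (l + 1) - m l) * max (q l - s) 0 = 0 := by
      refine Finset.sum_eq_zero fun i hi => ?_
      rw [Finset.mem_range] at hi
      have : q i ≤ s := by
        by_contra hc
        exact hex ⟨i, by omega, not_le.1 hc⟩
      rw [max_eq_right (by linarith only [this]), mul_zero]
    rw [z]
    exact Finset.sum_nonneg fun i hi => mul_nonneg (hp i hi) (le_max_right _ _)

theorem Lam_mem {K : ℕ} {m q : ℕ → ℝ} (hm : Expo K m) (hq : OPath K q) (h0 : q 0 = 0) {s : ℝ}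
    (hs : s ∈ Set.Ioo (0 : ℝ) 1) : Lam K m q s ∈ Set.Ioo (0 : ℝ) 1 := by
  have hp : ∀ l ∈ range (K + 1), 0 ≤ m (l + 1) - m l := fun l hl => by
    rw [Finset.mem_range] at hl
    exact sub_nonneg.2 (hm.mono l (by omega))
  have hnn : 0 ≤ ∑ l ∈ range (K + 1), (m (l + 1) - m l) * max (q l - s) 0 :=
    Finset.sum_nonneg fun i hi => mul_nonneg (hp i hi) (le_max_right _ _)
  have hle : ∑ l ∈ range (K + 1), (m (l + 1) - m l) * max (q l - s) 0
      ≤ (1 - m 1) * (1 - s) := by
    rw [Finset.range_eq_Ico, Finset.sum_eq_sum_Ico_succ_bot (Nat.succ_pos K), h0,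
      max_eq_right (by linarith only [hs.1]), mul_zero, zero_add]
    have h1 : (1 - m 1) = ∑ j ∈ Ico (0 + 1) (K + 1), (m (j + 1) - m j) := by
      rw [fs_tele m (by omega), hm.mK]
    rw [h1, Finset.sum_mul]
    refine Finset.sum_le_sum fun i hi => ?_
    rw [Finset.mem_Ico] at hi
    refine mul_le_mul_of_nonneg_left ?_ (hp i (Finset.mem_range.2 hi.2))
    refine max_le ?_ (by linarith only [hs.2])
    linarith only [fs_le_one hq (show i ≤ K by omega)]
  unfold Lam
  constructor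
  · have := mul_pos hm.pos (sub_pos.2 hs.2)
    linarith
  · linarith only [hnn, hs.1]

/-- **Schur inequality**: if `∑_{l ≥ j} p_l (r_l - q_l) ≥ 0` for all `j` and `f'` is monotone, then
`tr f(r) ≤ tr f(q)`. -/
theorem schur {K : ℕ} {m q r : ℕ → ℝ} (hm : Expo K m) (hq : OPath K q) (hr : OPath K r)
    (hq0 : q 0 = 0) (hr0 : r 0 = 0)
    (h : ∀ j ≤ K, 0 ≤ ∑ l ∈ Ico j (K + 1), (m (l + 1) - m l) * (r l - q l))
    {f f' : ℝ → ℝ} (hf : ContinuousOn f (Set.Icc 0 1)) (hf0 : f 0 = 0)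
    (hd : ∀ x ∈ Set.Ioo (0 : ℝ) 1, HasDerivAt f (f' x) x)
    (hmono : MonotoneOn f' (Set.Ioo 0 1)) (hb : ∃ C, ∀ x ∈ Set.Ioo (0 : ℝ) 1, |f' x| ≤ C) :
    trf K m f (eq' K m r) ≤ trf K m f (eq' K m q) := by
  obtain ⟨C, hC⟩ := hb
  have hmeas : AEMeasurable f' (volume.restrict (Set.Ioo (0 : ℝ) 1)) :=
    aemeasurable_restrict_of_monotoneOn measurableSet_Ioo hmono
  have hi : IntegrableOn f' (Set.Ioo (0 : ℝ) 1) := by
    have hfin : IsFiniteMeasure (volume.restrict (Set.Ioo (0 : ℝ) 1)) :=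
      ⟨by rw [Measure.restrict_apply_univ]; simp only [Real.volume_Ioo, sub_zero, ENNReal.ofReal_one, ENNReal.one_lt_top]⟩
    refine Integrable.of_bound hmeas.aestronglyMeasurable C ?_
    refine (ae_restrict_iff' measurableSet_Ioo).2 (Filter.Eventually.of_forall fun x hx => ?_)
    rw [Real.norm_eq_abs]; exact hC x hx
  obtain ⟨i1, e1⟩ := trf_eq_integral hm hq hq0 hf hf0 hd hi
  obtain ⟨i2, e2⟩ := trf_eq_integral hm hr hr0 hf hf0 hd hi
  rw [e1, e2]
  refine intervalIntegral.integral_mono_on_of_le_Ioo zero_le_one i2 i1 fun s hs => ?_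
  exact hmono (Lam_mem hm hr hr0 hs) (Lam_mem hm hq hq0 hs) (Lam_mono hm hq hr h s)

end Vale.Agent.P166.F
end
end

section

section

/-!
Block rotations: an orthogonal matrix, block diagonal for the types `t`, which concentrates the
vector `c` on one reserved index of each type.
-/

open MeasureTheory Matrix

namespace Vale.Agent.P166.L

open Conc

variable {n κ : ℕ}

/-- The mass of the block `k`. -/
noncomputable def om (t : Fin n → Fin κ) (c : Fin n → ℝ) (k : Fin κ) : ℝ :=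
  ∑ j, if t j = k then c j ^ 2 else 0

lemma om_nonneg (t : Fin n → Fin κ) (c : Fin n → ℝ) (k : Fin κ) : 0 ≤ om t c k :=
  Finset.sum_nonneg fun j _ => by split_ifs <;> positivity

lemma sum_om (t : Fin n → Fin κ) (c : Fin n → ℝ) : ∑ k, om t c k = ∑ j, c j ^ 2 := by
  unfold om
  rw [Finset.sum_comm]
  refine Finset.sum_congr rfl fun j _ => ?_
  simp only [Finset.sum_ite_eq, Finset.mem_univ, ↓reduceIte]

/-- The concentrated vector. -/
noncomputable def cv (t : Fin n → Fin κ) (r : Fin κ → Fin n) (c : Fin n → ℝ) : Fin n → ℝ :=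
  fun i => if i = r (t i) then √(om t c (t i)) else 0

/-- The block Householder matrix. -/
noncomputable def bh (t : Fin n → Fin κ) (u : Fin n → ℝ) : Matrix (Fin n) (Fin n) ℝ :=
  Matrix.of fun i j => (if i = j then 1 else 0) -
    if t i = t j then 2 / om t u (t i) * (u i * u j) else 0

lemma bh_block (t : Fin n → Fin κ) (u : Fin n → ℝ) {i j : Fin n} (h : t i ≠ t j) :
    bh t u i j = 0 := by
  have h1 : i ≠ j := fun e => h (by rw [e])
  simp only [bh, of_apply, h1, ↓reduceIte, h, sub_self]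

lemma bh_mulVec (t : Fin n → Fin κ) (u c : Fin n → ℝ) (i : Fin n) :
    (bh t u *ᵥ c) i = c i - 2 / om t u (t i) * u i * ∑ j, if t j = t i then u j * c j else 0 := by
  unfold bh
  rw [Matrix.mulVec, dotProduct]
  simp only [Matrix.of_apply, sub_mul, ite_mul, one_mul, zero_mul]
  rw [Finset.sum_sub_distrib, Finset.sum_ite_eq]
  simp only [Finset.mem_univ, if_true]
  congr 1
  rw [Finset.mul_sum]
  refine Finset.sum_congr rfl fun j _ => ?_
  by_cases h : t i = t j
  · simp only [h, if_true]; ring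
  · have h' : t j ≠ t i := fun e => h e.symm
    simp only [h, ↓reduceIte, h', mul_zero]

lemma bh_mem (t : Fin n → Fin κ) (u : Fin n → ℝ) :
    bh t u ∈ Matrix.orthogonalGroup (Fin n) ℝ := by
  rw [Matrix.mem_orthogonalGroup_iff']
  have hsymm : (bh t u)ᵀ = bh t u := by
    ext i j
    simp only [bh, Matrix.transpose_apply, Matrix.of_apply]
    by_cases h : t i = t j
    · simp only [h, if_true, eq_comm (a := j) (b := i)]
      ring
    · have h' : t j ≠ t i := fun e => h e.symm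
      simp [h, h', eq_comm (a := j) (b := i)]
  rw [hsymm]
  ext i j
  have h1 : (bh t u * bh t u) i j = (bh t u *ᵥ (fun l => bh t u l j)) i := rfl
  rw [h1, bh_mulVec]
  have h2 : (∑ l, if t l = t i then u l * bh t u l j else 0) =
      if t j = t i then u j - 2 / om t u (t i) * u j * om t u (t i) else 0 := by
    have h3 : ∀ l, (if t l = t i then u l * bh t u l j else 0) =
        (if l = j then (if t j = t i then u j else 0) else 0) -
        (if t j = t i then 2 / om t u (t i) * u j else 0) *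
          (if t l = t i then u l ^ 2 else 0) := by
      intro l
      simp only [bh, Matrix.of_apply]
      by_cases h4 : t l = t i
      · by_cases h5 : t j = t i
        · have h6 : t l = t j := h4.trans h5.symm
          by_cases h7 : l = j
          · subst h7; simp only [h4, if_true]; ring
          · simp only [h4, h5, h7, if_true, if_false]; ring
        · have h6 : t l ≠ t j := fun e => h5 (e.symm.trans h4)
          have h7 : l ≠ j := fun e => h6 (by rw [e])
          have h8 : ¬ t i = t j := fun e => h5 e.symm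
          simp only [h4, ↓reduceIte, h7, h8, sub_self, mul_zero, h5, zero_mul]
      · by_cases h5 : t j = t i
        · have h7 : l ≠ j := fun e => h4 (by rw [e]; exact h5)
          simp only [h4, ↓reduceIte, h7, h5, mul_zero, sub_self]
        · simp [h4, h5]
    simp_rw [h3]
    rw [Finset.sum_sub_distrib, Finset.sum_ite_eq', ← Finset.mul_sum]
    simp only [Finset.mem_univ, if_true]
    by_cases h5 : t j = t i
    · simp only [h5, if_true]; rfl
    · simp only [h5, ↓reduceIte, zero_mul, sub_self]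
  rw [h2]
  by_cases h5 : t j = t i
  · simp only [h5, if_true]
    have h6 : t i = t j := h5.symm
    simp only [bh, Matrix.of_apply, h6, if_true, Matrix.one_apply]
    rcases eq_or_ne (om t u (t j)) 0 with h0 | h0
    · simp [h0]
    · field_simp
      ring
  · have h6 : t i ≠ t j := fun e => h5 e.symm
    have h7 : i ≠ j := fun e => h6 (by rw [e])
    simp only [bh, of_apply, h7, ↓reduceIte, h6, sub_self, h5, mul_zero, ne_eq, not_false_eq_true, one_apply_ne]

lemma om_cv (t : Fin n → Fin κ) (r : Fin κ → Fin n) (hr : ∀ k, t (r k) = k) (c : Fin n → ℝ)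
    (k : Fin κ) : om t (cv t r c) k = om t c k := by
  have h1 : ∀ j, (if t j = k then cv t r c j ^ 2 else 0) = if j = r k then om t c k else 0 := by
    intro j
    unfold cv
    by_cases h : t j = k
    · by_cases h2 : j = r k
      · subst h2
        simp only [hr, if_true, Real.sq_sqrt (om_nonneg t c k)]
      · simp only [h, ↓reduceIte, h2, ne_eq, OfNat.ofNat_ne_zero, not_false_eq_true, zero_pow]
    · have h2 : j ≠ r k := fun e => h (by rw [e, hr])
      simp [h, h2]
  change ∑ j, (if t j = k then cv t r c j ^ 2 else 0) = _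
  simp_rw [h1]
  simp only [Finset.sum_ite_eq', Finset.mem_univ, ↓reduceIte]

/-- **Concentration of a vector by a block rotation.** -/
theorem exists_block (t : Fin n → Fin κ) (r : Fin κ → Fin n) (hr : ∀ k, t (r k) = k)
    (c : Fin n → ℝ) : ∃ A : OG n, (∀ i j, t i ≠ t j → A.1 i j = 0) ∧ A.1 *ᵥ c = cv t r c := by
  refine ⟨⟨bh t (c - cv t r c), bh_mem t _⟩, fun i j h => bh_block t _ h, ?_⟩
  funext i
  change (bh t (c - cv t r c) *ᵥ c) i = _
  rw [bh_mulVec]
  set u := c - cv t r c with hu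
  have hS : om t u (t i) = 2 * ∑ j, if t j = t i then u j * c j else 0 := by
    have h1 : om t u (t i) = 2 * (∑ j, if t j = t i then u j * c j else 0) - om t c (t i)
        + om t (cv t r c) (t i) := by
      unfold om
      rw [Finset.mul_sum, ← Finset.sum_sub_distrib, ← Finset.sum_add_distrib]
      refine Finset.sum_congr rfl fun j _ => ?_
      by_cases h : t j = t i
      · simp only [h, if_true, hu, Pi.sub_apply]; ring
      · simp [h]
    rw [h1, om_cv t r hr]
    ring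
  rcases eq_or_ne (om t u (t i)) 0 with h0 | h0
  · have h1 : u i = 0 := by
      have h2 := (Finset.sum_eq_zero_iff_of_nonneg
        (fun j _ => by split_ifs <;> positivity)).1 h0 i (Finset.mem_univ i)
      simpa using h2
    have h2 : c i = cv t r c i := by
      have : c i - cv t r c i = 0 := h1
      linarith
    rw [h1]
    simp only [h2, mul_zero, zero_mul, sub_zero]
  · have h1 : 2 / om t u (t i) * u i * ∑ j, (if t j = t i then u j * c j else 0) = u i := by
      rw [hS] at h0 ⊢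
      have h3 : (∑ j, if t j = t i then u j * c j else 0) ≠ 0 := fun e => h0 (by rw [e, mul_zero])
      field_simp
    rw [h1, hu]
    simp

end Vale.Agent.P166.L
end
end

section

section

/-!
P166, lower bound: orthogonal matrices with a prescribed column, close to a given one; the gap of
the compression of the potentials.
-/

set_option linter.all false

open MeasureTheory Matrix

namespace Vale.Agent.P166.L

open Conc

variable {κ : ℕ}

lemma lr_entry {A : Matrix (Fin κ) (Fin κ) ℝ} (hA : A ∈ orthogonalGroup (Fin κ) ℝ)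
    (i j : Fin κ) : |A i j| ≤ 1 := by
  have h := congrFun (congrFun ((Matrix.mem_orthogonalGroup_iff' (Fin κ) ℝ).1 hA) j) j
  rw [Matrix.mul_apply, Matrix.one_apply_eq] at h
  have h1 : A i j ^ 2 ≤ 1 := by
    rw [← h]
    refine le_trans (le_of_eq ?_) (Finset.single_le_sum
      (f := fun i => (star A) j i * A i j) (fun i _ => ?_) (Finset.mem_univ i))
    · simp only [Matrix.star_apply, star_trivial]
      ring
    · simp only [Matrix.star_apply, star_trivial]
      exact mul_self_nonneg _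
  exact (sq_le_one_iff_abs_le_one _).1 h1

/-- Difference of the two reflections. -/
lemma lr_refl {a w : Fin κ → ℝ} (ha0 : ∀ k, 0 ≤ a k) (hw0 : ∀ k, 0 ≤ w k)
    (ha : ∑ k, a k ^ 2 = 1) (hw : ∑ k, w k ^ 2 = 1) (i j : Fin κ) :
    |rfl' (a + w) i j - rfl' a i j| ≤ 6 * ∑ k, |w k - a k| := by
  have ha1 : ∀ k, a k ≤ 1 := fun k => by
    have h : a k ^ 2 ≤ 1 := by
      rw [← ha]
      exact Finset.single_le_sum (f := fun k => a k ^ 2) (fun k _ => sq_nonneg _)
        (Finset.mem_univ k)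
    nlinarith only [h]
  have hw1 : ∀ k, w k ≤ 1 := fun k => by
    have h : w k ^ 2 ≤ 1 := by
      rw [← hw]
      exact Finset.single_le_sum (f := fun k => w k ^ 2) (fun k _ => sq_nonneg _)
        (Finset.mem_univ k)
    nlinarith only [h]
  set D : ℝ := ∑ k, |w k - a k| with hD
  have hDk : ∀ k, |w k - a k| ≤ D := fun k =>
    Finset.single_le_sum (f := fun k => |w k - a k|) (fun k _ => abs_nonneg _)
      (Finset.mem_univ k)
  have hd1 : ∀ k, |w k - a k| ≤ 1 := fun k => by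
    rw [abs_le]
    constructor <;> linarith only [hw0 k, ha1 k, ha0 k, hw1 k]
  set q : ℝ := ∑ k, (w k - a k) ^ 2 with hq
  have hqD : q ≤ D := by
    refine Finset.sum_le_sum fun k _ => ?_
    rw [← sq_abs]
    nlinarith only [hd1 k, abs_nonneg (w k - a k)]
  have hq0 : 0 ≤ q := Finset.sum_nonneg fun k _ => sq_nonneg _
  have haw : ∑ k, a k * w k = 1 - q / 2 := by
    have : q = ∑ k, w k ^ 2 - 2 * ∑ k, a k * w k + ∑ k, a k ^ 2 := by
      rw [hq, Finset.mul_sum, ← Finset.sum_sub_distrib, ← Finset.sum_add_distrib]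
      exact Finset.sum_congr rfl fun k _ => by ring
    rw [ha, hw] at this
    linarith only [this]
  have haw0 : 0 ≤ ∑ k, a k * w k :=
    Finset.sum_nonneg fun k _ => mul_nonneg (ha0 k) (hw0 k)
  have huu : (a + w) ⬝ᵥ (a + w) = 2 * (2 - q / 2) := by
    have : (a + w) ⬝ᵥ (a + w) = ∑ k, a k ^ 2 + 2 * ∑ k, a k * w k + ∑ k, w k ^ 2 := by
      rw [dotProduct, Finset.mul_sum, ← Finset.sum_add_distrib, ← Finset.sum_add_distrib]
      exact Finset.sum_congr rfl fun k _ => by simp only [Pi.add_apply]; ring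
    rw [this, ha, hw, haw]
    ring
  have haa : a ⬝ᵥ a = 1 := by
    rw [← ha]
    exact Finset.sum_congr rfl fun k _ => by ring
  set s : ℝ := 2 - q / 2 with hs
  have hs1 : 1 ≤ s := by linarith only [haw, haw0, hs]
  have e1 : rfl' (a + w) i j - rfl' a i j =
      (-(q * (a i * a j)) - 2 * a i * (w j - a j) - 2 * (w i - a i) * a j -
        (w i - a i) * (w j - a j)) / s := by
    unfold rfl'
    rw [huu, haa]
    simp only [Matrix.sub_apply, Matrix.smul_apply, Matrix.vecMulVec_apply, smul_eq_mul,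
      Pi.add_apply]
    have hs0 : s ≠ 0 := by linarith
    have hq' : q = 4 - 2 * s := by linarith only [hs]
    rw [hq']
    field_simp
    ring
  rw [e1, abs_div, abs_of_pos (by linarith only [haw, haw0, hs] : 0 < s), div_le_iff₀ (by linarith only [haw, haw0, hs])]
  have b1 : |q * (a i * a j)| ≤ D := by
    rw [abs_mul, abs_mul, abs_of_nonneg hq0, abs_of_nonneg (ha0 i), abs_of_nonneg (ha0 j)]
    have h1 : a i * a j ≤ 1 := mul_le_one₀ (ha1 i) (ha0 j) (ha1 j)
    calc q * (a i * a j) ≤ q * 1 := mul_le_mul_of_nonneg_left h1 hq0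
      _ ≤ D := by rw [mul_one]; exact hqD
  have b2 : |2 * a i * (w j - a j)| ≤ 2 * D := by
    rw [abs_mul, abs_mul, abs_of_nonneg (ha0 i), abs_two]
    have := mul_le_mul (ha1 i) (hDk j) (abs_nonneg _) zero_le_one
    linarith only [this]
  have b3 : |2 * (w i - a i) * a j| ≤ 2 * D := by
    rw [abs_mul, abs_mul, abs_of_nonneg (ha0 j), abs_two]
    have := mul_le_mul (hDk i) (ha1 j) (ha0 j) ((abs_nonneg _).trans (hDk i))
    linarith only [this]
  have b4 : |(w i - a i) * (w j - a j)| ≤ D := by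
    rw [abs_mul]
    have := mul_le_mul (hd1 i) (hDk j) (abs_nonneg _) zero_le_one
    linarith only [this]
  have hD0 : 0 ≤ D := (abs_nonneg _).trans (hDk i)
  have b5 : |-(q * (a i * a j)) - 2 * a i * (w j - a j) - 2 * (w i - a i) * a j -
        (w i - a i) * (w j - a j)| ≤ 6 * D := by
    rw [abs_le] at b1 b2 b3 b4 ⊢
    constructor <;> linarith only [b1.2, b2.2, b3.2, b4.2, b1.1, b2.1, b3.1, b4.1]
  nlinarith only [b5, hqD, haw, haw0, hs, hq0]

/-- `A = Rot * Q`, `Rot = s_{√α + √ω} ∘ s_{√α}` (product of two reflections) maps `√α` to `√ω`. -/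
theorem exists_rot {α : Fin κ → ℝ} (hα : ∀ k, 0 < α k) (hα1 : ∑ k, α k = 1) :
    ∃ C : ℝ, 0 ≤ C ∧ ∀ (ω : Fin κ → ℝ), (∀ k, 0 ≤ ω k) → ∑ k, ω k = 1 →
      ∀ (Q : Matrix (Fin κ) (Fin κ) ℝ) (k0 : Fin κ), Q ∈ orthogonalGroup (Fin κ) ℝ →
      (∀ k, Q k k0 = √(α k)) → ∃ A ∈ orthogonalGroup (Fin κ) ℝ, (∀ k, A k k0 = √(ω k)) ∧
        ∀ i j, |A i j - Q i j| ≤ C * ∑ k, |ω k - α k| := by
  set c : ℝ := ∑ k, (√(α k))⁻¹ with hc
  have hc0 : 0 ≤ c := Finset.sum_nonneg fun k _ => by positivity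
  refine ⟨(κ : ℝ) * κ * (6 * c), by positivity, ?_⟩
  intro ω hω0 hω1 Q k0 hQ hQc
  set a : Fin κ → ℝ := fun k => √(α k) with ha
  set w : Fin κ → ℝ := fun k => √(ω k) with hw
  have ha0 : ∀ k, 0 ≤ a k := fun k => Real.sqrt_nonneg _
  have hw0 : ∀ k, 0 ≤ w k := fun k => Real.sqrt_nonneg _
  have ha2 : ∑ k, a k ^ 2 = 1 := by
    rw [← hα1]
    exact Finset.sum_congr rfl fun k _ => Real.sq_sqrt (hα k).le
  have hw2 : ∑ k, w k ^ 2 = 1 := by
    rw [← hω1]
    exact Finset.sum_congr rfl fun k _ => Real.sq_sqrt (hω0 k)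
  have hcol : Q *ᵥ Pi.single k0 1 = a := by
    rw [Matrix.mulVec_single_one]
    funext k
    exact hQc k
  have haa : a ⬝ᵥ a = 1 := by
    rw [← ha2]
    exact Finset.sum_congr rfl fun k _ => by ring
  have hww : w ⬝ᵥ w = 1 := by
    rw [← hw2]
    exact Finset.sum_congr rfl fun k _ => by ring
  have haw0 : 0 ≤ a ⬝ᵥ w := Finset.sum_nonneg fun k _ => mul_nonneg (ha0 k) (hw0 k)
  refine ⟨rfl' (a + w) * (rfl' a * Q), ?_, ?_, ?_⟩
  · exact mul_mem (rfl'_mem _) (mul_mem (rfl'_mem _) hQ)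
  · intro k
    have h1 : (rfl' (a + w) * (rfl' a * Q)) *ᵥ Pi.single k0 1 = w := by
      rw [← Matrix.mulVec_mulVec, ← Matrix.mulVec_mulVec, hcol]
      have h2 : rfl' a *ᵥ a = -a := by
        rw [rfl'_mulVec, haa]
        funext i
        simp only [Pi.sub_apply, Pi.smul_apply, Pi.neg_apply, smul_eq_mul]
        ring
      rw [h2, Matrix.mulVec_neg, rfl'_mulVec]
      have h3 : (a + w) ⬝ᵥ (a + w) = 2 * (1 + a ⬝ᵥ w) := by
        rw [add_dotProduct, dotProduct_add, dotProduct_add, haa, hww, dotProduct_comm w a]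
        ring
      have h4 : (a + w) ⬝ᵥ a = 1 + a ⬝ᵥ w := by
        rw [add_dotProduct, haa, dotProduct_comm w a]
      rw [h3, h4]
      have h5 : 2 / (2 * (1 + a ⬝ᵥ w)) * (1 + a ⬝ᵥ w) = 1 := by
        have : 1 + a ⬝ᵥ w ≠ 0 := by linarith only [haw0]
        field_simp
      rw [h5, one_smul]
      abel
    have h2 := congrFun h1 k
    rw [Matrix.mulVec_single_one] at h2
    exact h2
  · intro i j
    have hD : ∑ k, |w k - a k| ≤ c * ∑ k, |ω k - α k| := by
      rw [Finset.mul_sum]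
      refine Finset.sum_le_sum fun k _ => ?_
      have hak : 0 < a k := Real.sqrt_pos.2 (hα k)
      have h1 : |ω k - α k| = |w k - a k| * (w k + a k) := by
        have : ω k - α k = (w k - a k) * (w k + a k) := by
          have e1 : w k ^ 2 = ω k := Real.sq_sqrt (hω0 k)
          have e2 : a k ^ 2 = α k := Real.sq_sqrt (hα k).le
          rw [← e1, ← e2]
          ring
        rw [this, abs_mul, abs_of_nonneg (add_nonneg (hw0 k) (ha0 k))]
      have h2 : (a k)⁻¹ ≤ c :=
        Finset.single_le_sum (f := fun k => (√(α k))⁻¹) (fun k _ => by positivity)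
          (Finset.mem_univ k)
      calc |w k - a k| = (a k)⁻¹ * (|w k - a k| * a k) := by field_simp
        _ ≤ (a k)⁻¹ * (|w k - a k| * (w k + a k)) := by
            refine mul_le_mul_of_nonneg_left ?_ (inv_pos.2 hak).le
            exact mul_le_mul_of_nonneg_left (by linarith only [hw0 k]) (abs_nonneg _)
        _ = (a k)⁻¹ * |ω k - α k| := by rw [h1]
        _ ≤ c * |ω k - α k| := mul_le_mul_of_nonneg_right h2 (abs_nonneg _)
    have hD' : 6 * ∑ k, |w k - a k| ≤ 6 * (c * ∑ k, |ω k - α k|) := by linarith only [hD]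
    have h1 : rfl' (a + w) * (rfl' a * Q) - Q = (rfl' (a + w) - rfl' a) * (rfl' a * Q) := by
      rw [Matrix.sub_mul, ← Matrix.mul_assoc (rfl' a) (rfl' a) Q, rfl'_mul_self, Matrix.one_mul]
    have h2 : (rfl' (a + w) * (rfl' a * Q)) i j - Q i j =
        ∑ k, (rfl' (a + w) i k - rfl' a i k) * (rfl' a * Q) k j := by
      have := congrFun (congrFun h1 i) j
      rw [Matrix.mul_apply] at this
      exact this
    rw [h2]
    have hR : rfl' a * Q ∈ orthogonalGroup (Fin κ) ℝ := mul_mem (rfl'_mem _) hQ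
    have hS0 : 0 ≤ ∑ k, |w k - a k| := Finset.sum_nonneg fun k _ => abs_nonneg _
    have h3 : |∑ k, (rfl' (a + w) i k - rfl' a i k) * (rfl' a * Q) k j| ≤
        ∑ k : Fin κ, 6 * ∑ k, |w k - a k| := by
      refine (Finset.abs_sum_le_sum_abs _ _).trans (Finset.sum_le_sum fun k _ => ?_)
      rw [abs_mul]
      calc _ ≤ (6 * ∑ k, |w k - a k|) * 1 :=
            mul_le_mul (lr_refl ha0 hw0 ha2 hw2 i k) (lr_entry hR k j) (abs_nonneg _)
              (by positivity)
        _ = _ := mul_one _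
    refine h3.trans ?_
    rw [Finset.sum_const, Finset.card_univ, Fintype.card_fin, nsmul_eq_mul]
    have hκ : (1 : ℝ) ≤ κ := by
      have : 1 ≤ κ := Nat.one_le_iff_ne_zero.2 fun h => by
        subst h
        exact i.elim0
      exact_mod_cast this
    have hT : 0 ≤ 6 * (c * ∑ k, |ω k - α k|) :=
      mul_nonneg (by norm_num) (mul_nonneg hc0 (Finset.sum_nonneg fun k _ => abs_nonneg _))
    calc (κ : ℝ) * (6 * ∑ k, |w k - a k|) ≤ κ * (6 * (c * ∑ k, |ω k - α k|)) :=
          mul_le_mul_of_nonneg_left hD' (by positivity)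
      _ = (κ * 1) * (6 * (c * ∑ k, |ω k - α k|)) := by ring
      _ ≤ (κ * κ) * (6 * (c * ∑ k, |ω k - α k|)) :=
          mul_le_mul_of_nonneg_right (mul_le_mul_of_nonneg_left hκ (by positivity)) hT
      _ = _ := by ring

lemma lr_conj (A : Matrix (Fin κ) (Fin κ) ℝ) (b : Fin κ → ℝ) (i j : Fin κ) :
    (Aᵀ * diagonal b * A) i j = ∑ k, A k i * b k * A k j := by
  rw [Matrix.mul_apply]
  refine Finset.sum_congr rfl fun k _ => ?_
  rw [Matrix.mul_diagonal, Matrix.transpose_apply]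

/-- The same with the potentials. -/
theorem exists_rot_pot {α : Fin κ → ℝ} (hα : ∀ k, 0 < α k) (hα1 : ∑ k, α k = 1)
    (b : Fin κ → ℝ) :
    ∃ C : ℝ, 0 ≤ C ∧ ∀ (ω : Fin κ → ℝ), (∀ k, 0 ≤ ω k) → ∑ k, ω k = 1 →
      ∀ (Q : Matrix (Fin κ) (Fin κ) ℝ) (k0 : Fin κ), Q ∈ orthogonalGroup (Fin κ) ℝ →
      (∀ k, Q k k0 = √(α k)) → ∃ A ∈ orthogonalGroup (Fin κ) ℝ, (∀ k, A k k0 = √(ω k)) ∧
        ∀ (b' : Fin κ → ℝ) (dl : ℝ), (∀ k, |b' k - b k| ≤ dl) → dl ≤ 1 → ∀ i j,
          |(Aᵀ * diagonal b' * A) i j - (Qᵀ * diagonal b * Q) i j| ≤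
            C * (∑ k, |ω k - α k| + dl) := by
  obtain ⟨C, hC, h⟩ := exists_rot hα hα1
  set B : ℝ := ∑ k, |b k| with hB
  have hB0 : 0 ≤ B := Finset.sum_nonneg fun k _ => abs_nonneg _
  refine ⟨κ * (C * (2 * B + 1) + 1), by positivity, ?_⟩
  intro ω hω0 hω1 Q k0 hQ hQc
  obtain ⟨A, hA, hAc, hAQ⟩ := h ω hω0 hω1 Q k0 hQ hQc
  refine ⟨A, hA, hAc, ?_⟩
  intro b' dl hdl hdl1 i j
  set S : ℝ := ∑ k, |ω k - α k| with hS
  have hS0 : 0 ≤ S := Finset.sum_nonneg fun k _ => abs_nonneg _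
  have hdl0 : 0 ≤ dl := (abs_nonneg _).trans (hdl i)
  have hbk : ∀ k, |b k| ≤ B := fun k =>
    Finset.single_le_sum (f := fun k => |b k|) (fun k _ => abs_nonneg _) (Finset.mem_univ k)
  have hbk' : ∀ k, |b' k| ≤ B + 1 := fun k => by
    have : b' k = b k + (b' k - b k) := by ring
    rw [this]
    refine (abs_add_le _ _).trans ?_
    linarith only [hdl1, hbk k, hdl k]
  rw [lr_conj, lr_conj, ← Finset.sum_sub_distrib]
  have hterm : ∀ k, |A k i * b' k * A k j - Q k i * b k * Q k j| ≤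
      C * S * (B + 1) + dl + C * S * B := by
    intro k
    have e : A k i * b' k * A k j - Q k i * b k * Q k j =
        (A k i - Q k i) * b' k * A k j + Q k i * (b' k - b k) * A k j +
          Q k i * b k * (A k j - Q k j) := by ring
    rw [e]
    have t1 : |(A k i - Q k i) * b' k * A k j| ≤ C * S * (B + 1) := by
      rw [abs_mul, abs_mul]
      calc _ ≤ (C * S) * (B + 1) * 1 :=
            mul_le_mul (mul_le_mul (hAQ k i) (hbk' k) (abs_nonneg _) (by positivity))
              (lr_entry hA k j) (abs_nonneg _) (by positivity)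
        _ = _ := mul_one _
    have t2 : |Q k i * (b' k - b k) * A k j| ≤ dl := by
      rw [abs_mul, abs_mul]
      calc _ ≤ 1 * dl * 1 :=
            mul_le_mul (mul_le_mul (lr_entry hQ k i) (hdl k) (abs_nonneg _) zero_le_one)
              (lr_entry hA k j) (abs_nonneg _) (by positivity)
        _ = _ := by ring
    have t3 : |Q k i * b k * (A k j - Q k j)| ≤ C * S * B := by
      rw [abs_mul, abs_mul]
      calc _ ≤ 1 * B * (C * S) :=
            mul_le_mul (mul_le_mul (lr_entry hQ k i) (hbk k) (abs_nonneg _) zero_le_one)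
              (hAQ k j) (abs_nonneg _) (by positivity)
        _ = _ := by ring
    calc _ ≤ |(A k i - Q k i) * b' k * A k j| + |Q k i * (b' k - b k) * A k j| +
          |Q k i * b k * (A k j - Q k j)| :=
        (abs_add_le _ _).trans (add_le_add (abs_add_le _ _) le_rfl)
      _ ≤ _ := add_le_add (add_le_add t1 t2) t3
  refine (Finset.abs_sum_le_sum_abs _ _).trans ((Finset.sum_le_sum fun k _ => hterm k).trans ?_)
  rw [Finset.sum_const, Finset.card_univ, Fintype.card_fin, nsmul_eq_mul]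
  have hκ : (0 : ℝ) ≤ κ := Nat.cast_nonneg _
  rw [mul_assoc (κ : ℝ)]
  refine mul_le_mul_of_nonneg_left ?_ hκ
  have h1 : 0 ≤ C * (2 * B + 1) * dl := by positivity
  have h2 : (C * (2 * B + 1) + 1) * (S + dl) = C * S * (B + 1) + dl + C * S * B + S +
      C * (2 * B + 1) * dl := by ring
  linarith only [hS0, h1]

/-- The gap of the compression of `diag b` to the orthogonal complement of `√ω`. -/
theorem compression_gap {n : ℕ} {b ω : Fin (n + 1) → ℝ} {h : ℝ} (h0 : 0 ≤ h)
    (hb : ∀ k, k ≠ Fin.last n → b k ≤ b (Fin.last n) - h) (hω : ∀ k, 0 ≤ ω k)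
    (hω1 : ∑ k, ω k = 1) {A : Matrix (Fin (n + 1)) (Fin (n + 1)) ℝ} {k0 : Fin (n + 1)}
    (hA : A ∈ orthogonalGroup (Fin (n + 1)) ℝ) (hc : ∀ k, A k k0 = √(ω k)) (v : Fin n → ℝ) :
    ∑ i, ∑ j, (Aᵀ * diagonal b * A) (k0.succAbove i) (k0.succAbove j) * (v i * v j) ≤
      (b (Fin.last n) - h * ω (Fin.last n)) * ∑ j, v j ^ 2 := by
  have hort : ∀ i j, ∑ k, A k i * A k j = if i = j then 1 else 0 := by
    intro i j
    have := congrFun (congrFun ((Matrix.mem_orthogonalGroup_iff' (Fin (n + 1)) ℝ).1 hA) i) j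
    rw [Matrix.mul_apply, Matrix.one_apply] at this
    rw [← this]
    rfl
  set x : Fin (n + 1) → ℝ := fun k => ∑ i, A k (k0.succAbove i) * v i with hx
  have hsum : ∀ c : Fin (n + 1) → ℝ,
      ∑ i, ∑ j, (∑ k, A k (k0.succAbove i) * c k * A k (k0.succAbove j)) * (v i * v j) =
      ∑ k, c k * x k ^ 2 := by
    intro c
    have h1 : ∀ k, c k * x k ^ 2 = ∑ i, ∑ j, A k (k0.succAbove i) * c k *
        A k (k0.succAbove j) * (v i * v j) := by
      intro k
      rw [hx, sq, Finset.sum_mul_sum, Finset.mul_sum]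
      refine Finset.sum_congr rfl fun i _ => ?_
      rw [Finset.mul_sum]
      exact Finset.sum_congr rfl fun j _ => by ring
    simp_rw [h1, Finset.sum_mul]
    rw [Finset.sum_comm]
    calc _ = ∑ i, ∑ k, ∑ j, A k (k0.succAbove i) * c k *
          A k (k0.succAbove j) * (v i * v j) := by
          rw [Finset.sum_comm]
          exact Finset.sum_congr rfl fun i _ => Finset.sum_comm
      _ = _ := Finset.sum_comm
  have hn : ∑ k, x k ^ 2 = ∑ j, v j ^ 2 := by
    have h1 := hsum fun _ => 1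
    simp only [mul_one, one_mul, hort] at h1
    rw [← h1]
    refine Finset.sum_congr rfl fun i _ => ?_
    rw [Finset.sum_eq_single i]
    · rw [if_pos rfl]
      ring
    · intro j _ hj
      rw [if_neg, zero_mul]
      exact fun e => hj (Fin.succAbove_right_injective e).symm
    · intro h
      exact absurd (Finset.mem_univ i) h
  have hperp : ∑ k, √(ω k) * x k = 0 := by
    have h1 : ∑ k, √(ω k) * x k = ∑ i, (∑ k, A k k0 * A k (k0.succAbove i)) * v i := by
      simp_rw [hx, Finset.mul_sum, Finset.sum_mul]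
      rw [Finset.sum_comm]
      refine Finset.sum_congr rfl fun i _ => Finset.sum_congr rfl fun k _ => ?_
      rw [hc k]
      ring
    rw [h1]
    refine Finset.sum_eq_zero fun i _ => ?_
    rw [hort, if_neg (Fin.succAbove_ne k0 i).symm, zero_mul]
  simp_rw [lr_conj]
  rw [hsum b, ← hn]
  clear_value x
  set L := Fin.last n with hL
  have hlast : x L ^ 2 ≤ (1 - ω L) * ∑ k, x k ^ 2 := by
    have e1 : √(ω L) * x L = -∑ k ∈ Finset.univ.erase L, √(ω k) * x k := by
      have := Finset.add_sum_erase Finset.univ (fun k => √(ω k) * x k) (Finset.mem_univ L)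
      linarith
    have e2 : (∑ k ∈ Finset.univ.erase L, √(ω k) * x k) ^ 2 ≤
        (∑ k ∈ Finset.univ.erase L, √(ω k) ^ 2) * ∑ k ∈ Finset.univ.erase L, x k ^ 2 :=
      Finset.sum_mul_sq_le_sq_mul_sq _ _ _
    have e3 : ∑ k ∈ Finset.univ.erase L, √(ω k) ^ 2 = 1 - ω L := by
      have := Finset.add_sum_erase Finset.univ (fun k => ω k) (Finset.mem_univ L)
      rw [hω1] at this
      rw [Finset.sum_congr rfl fun k _ => Real.sq_sqrt (hω k)]
      linarith only [this]
    have e4 : ∑ k ∈ Finset.univ.erase L, x k ^ 2 = ∑ k, x k ^ 2 - x L ^ 2 := by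
      have := Finset.add_sum_erase Finset.univ (fun k => x k ^ 2) (Finset.mem_univ L)
      linarith only [this]
    rw [e3, e4] at e2
    have e5 : (√(ω L) * x L) ^ 2 = ω L * x L ^ 2 := by
      rw [mul_pow, Real.sq_sqrt (hω L)]
    have e6 : (√(ω L) * x L) ^ 2 = (∑ k ∈ Finset.univ.erase L, √(ω k) * x k) ^ 2 := by
      rw [e1, neg_sq]
    linarith only [e2, e5, e6]
  have hmain : ∑ k, b k * x k ^ 2 ≤ (b L - h) * ∑ k, x k ^ 2 + h * x L ^ 2 := by
    have h1 : ∀ k ∈ Finset.univ, b k * x k ^ 2 ≤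
        (b L - h) * x k ^ 2 + if k = L then h * x k ^ 2 else 0 := by
      intro k _
      by_cases hk : k = L
      · rw [if_pos hk, hk]
        linarith only []
      · rw [if_neg hk, add_zero]
        exact mul_le_mul_of_nonneg_right (hb k hk) (sq_nonneg _)
    refine (Finset.sum_le_sum h1).trans ?_
    rw [Finset.sum_add_distrib, ← Finset.mul_sum, Finset.sum_ite_eq' Finset.univ L,
      if_pos (Finset.mem_univ L)]
  refine hmain.trans ?_
  have := mul_le_mul_of_nonneg_left hlast h0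
  linarith only [this]

end Vale.Agent.P166.L
end
end

section

section

/-!
Definitions for the upper bound for general potentials (module U-ALL): a finite system with
standard Gaussian coordinates `z : ι → ℝ` organized in levels, the exponents `m`, the tilted
conditional averages `T l` and the tilted average `Ex`.
-/

open MeasureTheory ProbabilityTheory

namespace Vale.Agent.P157.Lv

/-- The standard Gaussian measure on `ι → ℝ`. -/
noncomputable abbrev gI (ι : Type) [Fintype ι] : Measure (ι → ℝ) :=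
  Measure.pi fun _ => gaussianReal 0 1

variable {ι X : Type}

/-- The coordinates of level at most `l` are taken from `z`, the others from `w`. -/
def mix (lev : ι → ℕ) (l : ℕ) (z w : ι → ℝ) : ι → ℝ := fun e => if lev e ≤ l then z e else w e

/-- The average over the coordinates of level larger than `l`. -/
noncomputable def J [Fintype ι] (lev : ι → ℕ) (l : ℕ) (h : (ι → ℝ) → ℝ) : (ι → ℝ) → ℝ :=
  fun z => ∫ w, h (mix lev l z w) ∂(gI ι)

/-- `h` depends only on the coordinates of level at most `l`. -/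
def Dep (lev : ι → ℕ) (l : ℕ) (h : (ι → ℝ) → ℝ) : Prop := ∀ z w, h (mix lev l z w) = h z

/-- Measurable functions of at most exponential growth. -/
structure EG [Fintype ι] (h : (ι → ℝ) → ℝ) : Prop where
  meas : Measurable h
  bdd : ∃ C a : ℝ, 0 ≤ C ∧ 0 ≤ a ∧ ∀ y, |h y| ≤ C * Real.exp (a * ‖y‖)

/-- Lipschitz functions. -/
def Lip [Fintype ι] (G : (ι → ℝ) → ℝ) : Prop :=
  ∃ L : ℝ, 0 ≤ L ∧ ∀ y y', |G y - G y'| ≤ L * ‖y - y'‖

/-- `H'` is the partial derivative of `H` in the coordinate `e`. -/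
def PD [DecidableEq ι] (e : ι) (H H' : (ι → ℝ) → ℝ) : Prop :=
  ∀ (y : ι → ℝ) (x : ℝ), HasDerivAt (fun t => H (Function.update y e t))
    (H' (Function.update y e x)) x

/-- A system: the levels of the Gaussian coordinates, the number of levels (they are
`0, …, K`), the exponents and the energy. -/
structure Sy (ι X : Type) where
  lev : ι → ℕ
  K : ℕ
  m : ℕ → ℝ
  H : (ι → ℝ) → X → ℝ

namespace Sy

variable [Fintype ι] [Fintype X] (S : Sy ι X)

/-- The log-partition function. -/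
noncomputable def top (z : ι → ℝ) : ℝ := Real.log (∑ x, Real.exp (S.H z x))

/-- One step of the recursion, from the level `l + 1` to the level `l`. -/
noncomputable def stp (l : ℕ) (F : (ι → ℝ) → ℝ) : (ι → ℝ) → ℝ := fun z =>
  1 / S.m (l + 1) * Real.log (J S.lev l (fun z => Real.exp (S.m (l + 1) * F z)) z)

/-- The value at the level `l` of the recursion started at the level `l + d`. -/
noncomputable def rec' : ℕ → ℕ → (ι → ℝ) → ℝ
  | _, 0 => S.top
  | l, d + 1 => S.stp l (rec' (l + 1) d)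

/-- The log-weight at the level `l`. -/
noncomputable def lg (l : ℕ) : (ι → ℝ) → ℝ := S.rec' l (S.K - l)

/-- The free energy. -/
noncomputable def fe : ℝ := ∫ z, S.lg 0 z ∂(gI ι)

/-- The density of the tilted law of the levels larger than `l`. -/
noncomputable def dn (l : ℕ) (z : ι → ℝ) : ℝ :=
  Real.exp (∑ i ∈ Finset.Ico l S.K, S.m (i + 1) * (S.lg (i + 1) z - S.lg i z))

/-- The Gibbs weights. -/
noncomputable def gb (z : ι → ℝ) (x : X) : ℝ := Real.exp (S.H z x) / ∑ x', Real.exp (S.H z x')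

/-- The Gibbs average. -/
noncomputable def av (h : (ι → ℝ) → X → ℝ) : (ι → ℝ) → ℝ := fun z => ∑ x, S.gb z x * h z x

/-- The tilted conditional average given the levels at most `l`. -/
noncomputable def T (l : ℕ) (h : (ι → ℝ) → X → ℝ) : (ι → ℝ) → ℝ :=
  J S.lev l (fun z => S.dn l z * S.av h z)

/-- The tilted average. -/
noncomputable def Ex (h : (ι → ℝ) → X → ℝ) : ℝ := ∫ z, S.dn 0 z * S.av h z ∂(gI ι)

/-- The weights of the levels. -/
def p (l : ℕ) : ℝ := S.m (l + 1) - S.m l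

/-- Regularity of a system. -/
structure Reg : Prop where
  m0 : S.m 0 = 0
  mK : S.m (S.K + 1) = 1
  mono : ∀ l ≤ S.K, S.m l ≤ S.m (l + 1)
  pos : 0 < S.m 1
  lev : ∀ e, S.lev e ≤ S.K
  lip : ∀ x, Lip fun z => S.H z x

/-- Regularity of a system with the partial derivatives `D e` of the energy. -/
structure RegD [DecidableEq ι] (D : ι → (ι → ℝ) → X → ℝ) : Prop extends S.Reg where
  pd : ∀ e x, PD e (fun z => S.H z x) (fun z => D e z x)
  md : ∀ e x, Measurable fun z => D e z x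
  bd : ∃ C : ℝ, ∀ e z x, |D e z x| ≤ C

end Sy

/-- The system with another energy. -/
def Sy.wH (S : Sy ι X) (H' : (ι → ℝ) → X → ℝ) : Sy ι X := { S with H := H' }

/-- Observables of exponential growth. -/
def Nh [Fintype ι] (h : (ι → ℝ) → X → ℝ) : Prop := ∀ x, EG fun z => h z x

end Vale.Agent.P157.Lv
end
end

section

section

open MeasureTheory ProbabilityTheory

namespace Vale.Agent.P367.GT

/-- One-dimensional Gaussian integration by parts. -/
lemma stein_one (g g' : ℝ → ℝ) (C : ℝ) (hd : ∀ x, HasDerivAt g (g' x) x)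
    (hg : ∀ x, |g x| ≤ C) (hg' : ∀ x, |g' x| ≤ C) :
    ∫ x, x * g x ∂(gaussianReal 0 1) = ∫ x, g' x ∂(gaussianReal 0 1) := by
  have hgm : Measurable g := (continuous_iff_continuousAt.mpr fun x => (hd x).continuousAt).measurable
  have hg'e : g' = deriv g := by funext x; exact (hd x).deriv.symm
  have hg'm : Measurable g' := by rw [hg'e]; exact measurable_deriv g
  have hC : 0 ≤ C := (abs_nonneg _).trans (hg 0)
  set φ : ℝ → ℝ := gaussianPDFReal 0 1 with hφ
  have hφd : ∀ x, HasDerivAt φ (-(x * φ x)) x := by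
    intro x
    have h1 : HasDerivAt (fun y : ℝ => -(y - 0) ^ 2 / (2 * ((1 : NNReal) : ℝ))) (-x) x := by
      have h2 : HasDerivAt (fun y : ℝ => -(y ^ 2) / 2) (-(2 * x) / 2) x := by
        have h0 := ((hasDerivAt_pow 2 x).neg).div_const (2 : ℝ)
        simpa using h0
      have h2' : (fun y : ℝ => -(y - 0) ^ 2 / (2 * ((1 : NNReal) : ℝ))) = fun y => -(y ^ 2) / 2 := by
        funext y
        simp
      rw [h2']
      have h2'' : -x = -(2 * x) / 2 := by ring
      rw [h2'']
      exact h2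
    have h3 := (h1.exp).const_mul ((Real.sqrt (2 * Real.pi * ((1 : NNReal) : ℝ)))⁻¹)
    have h4 : φ = fun y => (Real.sqrt (2 * Real.pi * ((1 : NNReal) : ℝ)))⁻¹
        * Real.exp (-(y - 0) ^ 2 / (2 * ((1 : NNReal) : ℝ))) := by
      funext y
      rw [hφ, gaussianPDFReal_def]
    have h5 : -(x * φ x) = (Real.sqrt (2 * Real.pi * ((1 : NNReal) : ℝ)))⁻¹
        * (Real.exp (-(x - 0) ^ 2 / (2 * ((1 : NNReal) : ℝ))) * -x) := by
      rw [h4]
      ring
    rw [h5, h4]
    exact h3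
  have hφi : Integrable φ := integrable_gaussianPDFReal 0 1
  have hxφ : Integrable (fun x => x * φ x) := by
    have h1 : Integrable (fun x : ℝ => x) (gaussianReal 0 1) :=
      (memLp_id_gaussianReal 1).integrable le_rfl
    rw [gaussianReal_of_var_ne_zero _ one_ne_zero] at h1
    have h2 := (integrable_withDensity_iff_integrable_smul'
      (measurable_gaussianPDF 0 1) (by
        refine Filter.Eventually.of_forall fun x => ?_
        exact gaussianPDF_lt_top)).mp h1
    refine h2.congr (Filter.Eventually.of_forall fun x => ?_)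
    simp only [smul_eq_mul, gaussianPDF, ENNReal.toReal_ofReal (gaussianPDFReal_nonneg 0 1 x)]
    ring
  have e1 : ∫ x, x * g x ∂(gaussianReal 0 1) = ∫ x, φ x * (x * g x) := by
    rw [integral_gaussianReal_eq_integral_smul one_ne_zero]
    rfl
  have e2 : ∫ x, g' x ∂(gaussianReal 0 1) = ∫ x, φ x * g' x := by
    rw [integral_gaussianReal_eq_integral_smul one_ne_zero]
    rfl
  have hmul : ∀ (u v : ℝ → ℝ), Integrable v → Measurable u → (∀ x, |u x| ≤ C) →
      Integrable (fun x => u x * v x) := by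
    intro u v hv hu hb
    refine hv.bdd_mul (c := C) hu.aestronglyMeasurable ?_
    exact Filter.Eventually.of_forall fun x => by
      rw [Real.norm_eq_abs]; exact hb x
  have key := integral_mul_deriv_eq_deriv_mul_of_integrable (u := g) (v := φ) (u' := g')
    (v' := fun x => -(x * φ x)) (fun x _ => hd x) (fun x _ => hφd x)
    (hmul g _ hxφ.neg hgm hg) (hmul g' _ hφi hg'm hg') (hmul g _ hφi hgm hg)
  rw [e1, e2]
  have h5 : ∫ x, φ x * (x * g x) = - ∫ x, g x * -(x * φ x) := by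
    rw [← integral_neg]
    congr 1
    funext x
    ring
  rw [h5, key, neg_neg]
  congr 1
  funext x
  ring

/-- The standard Gaussian measure. -/
noncomputable abbrev gM (ι : Type*) [Fintype ι] : Measure (ι → ℝ) :=
  Measure.pi fun _ : ι => gaussianReal 0 1

variable {ι : Type*} [DecidableEq ι]

lemma measurable_upd (e : ι) :
    Measurable (fun q : (ι → ℝ) × ℝ => Function.update q.1 e q.2) := by
  rw [measurable_pi_iff]
  intro i
  by_cases h : i = e
  · subst h
    simp only [Function.update_self]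
    exact measurable_snd
  · simp only [Function.update_of_ne h]
    exact (measurable_pi_apply i).comp measurable_fst

variable [Fintype ι]

/-- Resampling one coordinate. -/
lemma map_update (e : ι) :
    ((gM ι).prod (gaussianReal 0 1)).map (fun q : (ι → ℝ) × ℝ => Function.update q.1 e q.2)
      = gM ι := by
  symm
  apply Measure.pi_eq
  intro s hs
  rw [Measure.map_apply (measurable_upd e) (MeasurableSet.univ_pi hs)]
  have h1 : (fun q : (ι → ℝ) × ℝ => Function.update q.1 e q.2) ⁻¹' (Set.univ.pi s)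
      = (Set.univ.pi (Function.update s e Set.univ)) ×ˢ (s e) := by
    ext ⟨J, x⟩
    simp only [Set.mem_preimage, Set.mem_pi, Set.mem_univ, forall_true_left, Set.mem_prod]
    constructor
    · intro h
      refine ⟨fun i => ?_, ?_⟩
      · by_cases hi : i = e
        · subst hi; simp
        · have := h i
          simpa [Function.update_of_ne hi] using this
      · simpa using h e
    · rintro ⟨h, h'⟩ i
      by_cases hi : i = e
      · subst hi; simpa using h'
      · have := h i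
        simpa [Function.update_of_ne hi] using this
  rw [h1, Measure.prod_prod, Measure.pi_pi]
  rw [← Finset.prod_erase_mul _ _ (Finset.mem_univ e),
    ← Finset.prod_erase_mul (s := Finset.univ) (a := e) _ (Finset.mem_univ e)]
  simp only [Function.update_self, measure_univ, mul_one]
  congr 1
  apply Finset.prod_congr rfl
  intro i hi
  rw [Function.update_of_ne (Finset.ne_of_mem_erase hi)]

/-- Gaussian integration by parts in the coordinate `e`. -/
lemma stein_pi (e : ι) (G G' : (ι → ℝ) → ℝ) (C : ℝ) (hGm : Measurable G) (hG'm : Measurable G')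
    (hd : ∀ J x, HasDerivAt (fun y => G (Function.update J e y)) (G' (Function.update J e x)) x)
    (hG : ∀ J, |G J| ≤ C) (hG' : ∀ J, |G' J| ≤ C) :
    ∫ J, J e * G J ∂(gM ι) = ∫ J, G' J ∂(gM ι) := by
  have hJi : Integrable (fun J : ι → ℝ => J e) (gM ι) :=
    integrable_comp_eval (μ := fun _ : ι => gaussianReal 0 1) (i := e) (f := fun x => x)
      ((memLp_id_gaussianReal 1).integrable le_rfl)
  have hi1 : Integrable (fun J : ι → ℝ => J e * G J) (gM ι) := by
    have := hJi.bdd_mul (c := C) (f := G) hGm.aestronglyMeasurable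
      (Filter.Eventually.of_forall fun J => by rw [Real.norm_eq_abs]; exact hG J)
    refine this.congr (Filter.Eventually.of_forall fun J => ?_)
    simp only [mul_comm]
  have hi2 : Integrable G' (gM ι) := by
    refine Integrable.mono' (integrable_const C) hG'm.aestronglyMeasurable
      (Filter.Eventually.of_forall fun J => by rw [Real.norm_eq_abs]; exact hG' J)
  have hres : ∀ F : (ι → ℝ) → ℝ, Integrable F (gM ι) →
      ∫ J, F J ∂(gM ι) = ∫ J, ∫ x, F (Function.update J e x) ∂(gaussianReal 0 1) ∂(gM ι) := by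
    intro F hF
    have hF' : Integrable F (((gM ι).prod (gaussianReal 0 1)).map
        (fun q : (ι → ℝ) × ℝ => Function.update q.1 e q.2)) := by
      rw [map_update]; exact hF
    conv_lhs => rw [← map_update (ι := ι) e]
    rw [integral_map (measurable_upd e).aemeasurable hF'.aestronglyMeasurable]
    rw [integral_prod]
    exact (integrable_map_measure hF'.aestronglyMeasurable
      (measurable_upd e).aemeasurable).mp hF'
  rw [hres _ hi1, hres _ hi2]
  congr 1
  funext J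
  have := stein_one (fun x => G (Function.update J e x)) (fun x => G' (Function.update J e x)) C
    (hd J) (fun x => hG _) (fun x => hG' _)
  simpa only [Function.update_self] using this

end Vale.Agent.P367.GT
end
end

section

section

/-!
Functions of exponential growth on `ℝ^ι`, averages over the higher levels, partial derivatives.
-/

open MeasureTheory ProbabilityTheory Filter Topology

namespace Vale.Agent.P157.Lv

variable {ι : Type} [Fintype ι]

section eg

lemma Lip.continuous {G : (ι → ℝ) → ℝ} (h : Lip G) : Continuous G := by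
  obtain ⟨L, hL, h⟩ := h
  refine (LipschitzWith.of_dist_le_mul (K := ⟨L, hL⟩) fun y y' => ?_).continuous
  rw [Real.dist_eq, dist_eq_norm]; exact h y y'

lemma Lip.measurable {G : (ι → ℝ) → ℝ} (h : Lip G) : Measurable G := h.continuous.measurable

lemma EG.of_bdd {h : (ι → ℝ) → ℝ} (hm : Measurable h) {C : ℝ} (hC : ∀ y, |h y| ≤ C) : EG h :=
  ⟨hm, |C|, 0, abs_nonneg _, le_rfl, fun y => by simpa using (hC y).trans (le_abs_self C)⟩

lemma EG.const (c : ℝ) : EG (fun _ : ι → ℝ => c) := EG.of_bdd measurable_const fun _ => le_rfl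

lemma EG.add {f g : (ι → ℝ) → ℝ} (hf : EG f) (hg : EG g) : EG (fun y => f y + g y) := by
  obtain ⟨C, a, hC, ha, h1⟩ := hf.bdd
  obtain ⟨D, b, hD, hb, h2⟩ := hg.bdd
  refine ⟨hf.meas.add hg.meas, C + D, max a b, by positivity, by positivity, fun y => ?_⟩
  have e1 : Real.exp (a * ‖y‖) ≤ Real.exp (max a b * ‖y‖) :=
    Real.exp_le_exp.2 (mul_le_mul_of_nonneg_right (le_max_left _ _) (norm_nonneg _))
  have e2 : Real.exp (b * ‖y‖) ≤ Real.exp (max a b * ‖y‖) :=
    Real.exp_le_exp.2 (mul_le_mul_of_nonneg_right (le_max_right _ _) (norm_nonneg _))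
  calc |f y + g y| ≤ |f y| + |g y| := abs_add_le _ _
    _ ≤ C * Real.exp (a * ‖y‖) + D * Real.exp (b * ‖y‖) := add_le_add (h1 y) (h2 y)
    _ ≤ C * Real.exp (max a b * ‖y‖) + D * Real.exp (max a b * ‖y‖) := by gcongr
    _ = _ := by ring

lemma EG.mul {f g : (ι → ℝ) → ℝ} (hf : EG f) (hg : EG g) : EG (fun y => f y * g y) := by
  obtain ⟨C, a, hC, ha, h1⟩ := hf.bdd
  obtain ⟨D, b, hD, hb, h2⟩ := hg.bdd
  refine ⟨hf.meas.mul hg.meas, C * D, a + b, by positivity, by positivity, fun y => ?_⟩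
  calc |f y * g y| = |f y| * |g y| := abs_mul _ _
    _ ≤ (C * Real.exp (a * ‖y‖)) * (D * Real.exp (b * ‖y‖)) := by
        gcongr
        · exact h1 y
        · exact h2 y
    _ = C * D * Real.exp ((a + b) * ‖y‖) := by rw [add_mul, Real.exp_add]; ring

lemma EG.const_mul {f : (ι → ℝ) → ℝ} (c : ℝ) (hf : EG f) : EG (fun y => c * f y) :=
  (EG.const c).mul hf

lemma EG.neg {f : (ι → ℝ) → ℝ} (hf : EG f) : EG (fun y => -f y) := by
  simpa using hf.const_mul (-1)

lemma EG.sub {f g : (ι → ℝ) → ℝ} (hf : EG f) (hg : EG g) : EG (fun y => f y - g y) := by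
  simpa [sub_eq_add_neg] using hf.add hg.neg

lemma EG.sum {κ : Type*} (s : Finset κ) {f : κ → (ι → ℝ) → ℝ} (hf : ∀ i ∈ s, EG (f i)) :
    EG (fun y => ∑ i ∈ s, f i y) := by
  classical
  induction s using Finset.induction_on with
  | empty => simpa using EG.const 0
  | insert a s ha ih =>
    simp only [Finset.sum_insert ha]
    exact (hf a (Finset.mem_insert_self a s)).add
      (ih fun i hi => hf i (Finset.mem_insert_of_mem hi))

lemma EG.pow {f : (ι → ℝ) → ℝ} (hf : EG f) (n : ℕ) : EG (fun y => f y ^ n) := by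
  induction n with
  | zero => simpa using EG.const 1
  | succ n ih => simpa [pow_succ] using ih.mul hf

lemma EG.mono {f g : (ι → ℝ) → ℝ} (hg : EG g) (hf : Measurable f) (h : ∀ y, |f y| ≤ |g y|) :
    EG f := by
  obtain ⟨C, a, hC, ha, h1⟩ := hg.bdd
  exact ⟨hf, C, a, hC, ha, fun y => (h y).trans (h1 y)⟩

lemma EG.abs {f : (ι → ℝ) → ℝ} (hf : EG f) : EG (fun y => |f y|) :=
  hf.mono hf.meas.abs fun y => by simp

lemma EG.coord (i : ι) : EG (fun y : ι → ℝ => y i) := by
  refine ⟨measurable_pi_apply i, 1, 1, zero_le_one, zero_le_one, fun y => ?_⟩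
  rw [one_mul, one_mul, ← Real.norm_eq_abs]
  exact (norm_le_pi_norm y i).trans ((Real.add_one_le_exp ‖y‖).trans' (by linarith))

lemma Lip.eg {G : (ι → ℝ) → ℝ} (h : Lip G) : EG G := by
  obtain ⟨L, hL, h'⟩ := id h
  refine ⟨h.measurable, |G 0| + L, 1, by positivity, zero_le_one, fun y => ?_⟩
  have h1 : |G y| ≤ |G 0| + L * ‖y‖ := by
    have := h' y 0
    rw [sub_zero] at this
    calc |G y| = |(G y - G 0) + G 0| := by ring_nf
      _ ≤ |G y - G 0| + |G 0| := abs_add_le _ _
      _ ≤ _ := by linarith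
  have h2 : ‖y‖ ≤ Real.exp ‖y‖ := (Real.add_one_le_exp ‖y‖).trans' (by linarith)
  have h3 : 1 ≤ Real.exp ‖y‖ := Real.one_le_exp (norm_nonneg _)
  rw [one_mul]
  calc |G y| ≤ |G 0| + L * ‖y‖ := h1
    _ ≤ |G 0| * Real.exp ‖y‖ + L * Real.exp ‖y‖ := by
        refine add_le_add (le_mul_of_one_le_right (abs_nonneg _) h3) (by gcongr)
    _ = _ := by ring

lemma Lip.exp_eg {G : (ι → ℝ) → ℝ} (h : Lip G) (m : ℝ) : EG (fun y => Real.exp (m * G y)) := by
  obtain ⟨L, hL, h'⟩ := id h
  refine ⟨Real.measurable_exp.comp (h.measurable.const_mul m), Real.exp (|m| * |G 0|), |m| * L,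
    (Real.exp_pos _).le, by positivity, fun y => ?_⟩
  rw [abs_of_pos (Real.exp_pos _), ← Real.exp_add, Real.exp_le_exp]
  have h1 : |G y| ≤ |G 0| + L * ‖y‖ := by
    have := h' y 0
    rw [sub_zero] at this
    calc |G y| = |(G y - G 0) + G 0| := by ring_nf
      _ ≤ |G y - G 0| + |G 0| := abs_add_le _ _
      _ ≤ _ := by linarith
  calc m * G y ≤ |m * G y| := le_abs_self _
    _ = |m| * |G y| := abs_mul _ _
    _ ≤ |m| * (|G 0| + L * ‖y‖) := by gcongr
    _ = _ := by ring

lemma Lip.add {F G : (ι → ℝ) → ℝ} (hF : Lip F) (hG : Lip G) : Lip (fun y => F y + G y) := by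
  obtain ⟨L, hL, h1⟩ := hF
  obtain ⟨M, hM, h2⟩ := hG
  refine ⟨L + M, add_nonneg hL hM, fun y y' => ?_⟩
  calc |F y + G y - (F y' + G y')| = |(F y - F y') + (G y - G y')| := by ring_nf
    _ ≤ |F y - F y'| + |G y - G y'| := abs_add_le _ _
    _ ≤ L * ‖y - y'‖ + M * ‖y - y'‖ := add_le_add (h1 y y') (h2 y y')
    _ = _ := by ring

lemma Lip.const_mul {F : (ι → ℝ) → ℝ} (hF : Lip F) (c : ℝ) : Lip (fun y => c * F y) := by
  obtain ⟨L, hL, h1⟩ := hF
  refine ⟨|c| * L, mul_nonneg (abs_nonneg _) hL, fun y y' => ?_⟩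
  rw [← mul_sub, abs_mul, mul_assoc]
  exact mul_le_mul_of_nonneg_left (h1 y y') (abs_nonneg _)

lemma Lip.const (c : ℝ) : Lip (fun _ : ι → ℝ => c) :=
  ⟨0, le_rfl, fun y y' => by simp⟩

lemma Lip.coord (i : ι) : Lip (fun y : ι → ℝ => y i) := by
  refine ⟨1, zero_le_one, fun y y' => ?_⟩
  rw [one_mul, ← Real.norm_eq_abs]
  exact norm_le_pi_norm (y - y') i

lemma Lip.sum {κ : Type*} (s : Finset κ) {f : κ → (ι → ℝ) → ℝ} (hf : ∀ i ∈ s, Lip (f i)) :
    Lip (fun y => ∑ i ∈ s, f i y) := by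
  classical
  induction s using Finset.induction_on with
  | empty => simpa using Lip.const 0
  | insert a s ha ih =>
    simp only [Finset.sum_insert ha]
    exact (hf a (Finset.mem_insert_self a s)).add
      (ih fun i hi => hf i (Finset.mem_insert_of_mem hi))

/-- Composition with a Lipschitz function of one variable. -/
lemma Lip.comp {F : (ι → ℝ) → ℝ} (hF : Lip F) {g : ℝ → ℝ} {L : ℝ} (hL : 0 ≤ L)
    (hg : ∀ x y, |g x - g y| ≤ L * |x - y|) : Lip (fun y => g (F y)) := by
  obtain ⟨M, hM, h1⟩ := hF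
  refine ⟨L * M, mul_nonneg hL hM, fun y y' => (hg _ _).trans ?_⟩
  rw [mul_assoc]
  exact mul_le_mul_of_nonneg_left (h1 y y') hL

lemma integrable_exp_norm (a : ℝ) :
    Integrable (fun z : ι → ℝ => Real.exp (a * ‖z‖)) (gI ι) := by
  have h1 : Integrable (fun x : ℝ => Real.exp (|a| * |x|)) (gaussianReal 0 1) :=
    ProbabilityTheory.integrable_exp_mul_abs (X := fun x => x) (t := |a|)
      (by simpa using integrable_exp_mul_gaussianReal (μ := 0) (v := 1) (|a|))
      (by simpa using integrable_exp_mul_gaussianReal (μ := 0) (v := 1) (-|a|))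
  have h2 : Integrable (fun z : ι → ℝ => ∏ i, Real.exp (|a| * |z i|)) (gI ι) :=
    Integrable.fintype_prod (f := fun _ x => Real.exp (|a| * |x|)) fun _ => h1
  refine h2.mono' ?_ (Filter.Eventually.of_forall fun z => ?_)
  · exact (by fun_prop : Continuous fun z : ι → ℝ => Real.exp (a * ‖z‖)).aestronglyMeasurable
  · rw [Real.norm_eq_abs, abs_of_pos (Real.exp_pos _), ← Real.exp_sum, Real.exp_le_exp,
      ← Finset.mul_sum]
    have hn : ‖z‖ ≤ ∑ i, |z i| := by
      refine (pi_norm_le_iff_of_nonneg (Finset.sum_nonneg fun i _ => abs_nonneg _)).2 fun i => ?_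
      rw [Real.norm_eq_abs]
      exact Finset.single_le_sum (f := fun i => |z i|) (fun i _ => abs_nonneg _)
        (Finset.mem_univ i)
    calc a * ‖z‖ ≤ |a| * ‖z‖ := mul_le_mul_of_nonneg_right (le_abs_self a) (norm_nonneg _)
      _ ≤ |a| * ∑ i, |z i| := by gcongr

lemma EG.integrable {h : (ι → ℝ) → ℝ} (hh : EG h) : Integrable h (gI ι) := by
  obtain ⟨C, a, hC, ha, hb⟩ := hh.bdd
  refine ((integrable_exp_norm a).const_mul C).mono' hh.meas.aestronglyMeasurable
    (Filter.Eventually.of_forall fun z => ?_)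
  rw [Real.norm_eq_abs]
  exact hb z

end eg

section J

variable {lev : ι → ℕ} {l : ℕ}

omit [Fintype ι] in
lemma mix_mix_left (l : ℕ) (z w w' : ι → ℝ) :
    mix lev l (mix lev l z w) w' = mix lev l z w' := by
  funext e
  unfold mix
  split_ifs <;> rfl

omit [Fintype ι] in
lemma mix_le {l l' : ℕ} (hl : l ≤ l') (z w w' : ι → ℝ) :
    mix lev l (mix lev l' z w) w' = mix lev l z w' := by
  funext e
  unfold mix
  by_cases h : lev e ≤ l
  · rw [if_pos h, if_pos (h.trans hl), if_pos h]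
  · rw [if_neg h, if_neg h]

omit [Fintype ι] in
lemma mix_self (l : ℕ) (z : ι → ℝ) : mix lev l z z = z := by
  funext e
  unfold mix
  split_ifs <;> rfl

omit [Fintype ι] in
lemma mix_top {K : ℕ} (hK : ∀ e, lev e ≤ K) (z w : ι → ℝ) : mix lev K z w = z := by
  funext e
  unfold mix
  rw [if_pos (hK e)]

omit [Fintype ι] in
/-- Mixing at a higher level after mixing at a lower level. -/
lemma mix_assoc {l l' : ℕ} (hl : l ≤ l') (z w w' : ι → ℝ) :
    mix lev l' (mix lev l z w) w' = mix lev l z (mix lev l' w w') := by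
  funext e
  unfold mix
  by_cases h : lev e ≤ l
  · rw [if_pos h, if_pos (h.trans hl), if_pos h]
  · rw [if_neg h, if_neg h]

lemma norm_mix_le (z w : ι → ℝ) : ‖mix lev l z w‖ ≤ ‖z‖ + ‖w‖ := by
  rw [pi_norm_le_iff_of_nonneg (by positivity)]
  intro e
  unfold mix
  split_ifs
  · linarith [norm_le_pi_norm z e, norm_nonneg w]
  · linarith [norm_le_pi_norm w e, norm_nonneg z]

omit [Fintype ι] in
lemma measurable_mix (lev : ι → ℕ) (l : ℕ) :
    Measurable (fun q : (ι → ℝ) × (ι → ℝ) => mix lev l q.1 q.2) := by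
  rw [measurable_pi_iff]
  intro e
  unfold mix
  split_ifs
  · exact (measurable_pi_apply e).comp measurable_fst
  · exact (measurable_pi_apply e).comp measurable_snd

omit [Fintype ι] in
lemma measurable_mix_right (lev : ι → ℕ) (l : ℕ) (z : ι → ℝ) :
    Measurable (fun w : ι → ℝ => mix lev l z w) :=
  (measurable_mix lev l).comp measurable_prodMk_left

/-- Resampling the coordinates of the higher levels. -/
lemma map_mix (lev : ι → ℕ) (l : ℕ) :
    ((gI ι).prod (gI ι)).map (fun q : (ι → ℝ) × (ι → ℝ) => mix lev l q.1 q.2) = gI ι := by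
  symm
  apply Measure.pi_eq
  intro s hs
  rw [Measure.map_apply (measurable_mix lev l) (MeasurableSet.univ_pi hs)]
  have h1 : (fun q : (ι → ℝ) × (ι → ℝ) => mix lev l q.1 q.2) ⁻¹' (Set.univ.pi s)
      = (Set.univ.pi fun e => if lev e ≤ l then s e else Set.univ) ×ˢ
        (Set.univ.pi fun e => if lev e ≤ l then Set.univ else s e) := by
    ext ⟨z, w⟩
    simp only [Set.mem_preimage, Set.mem_pi, Set.mem_univ, forall_true_left, Set.mem_prod, mix]
    constructor
    · intro h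
      refine ⟨fun e => ?_, fun e => ?_⟩
      · have := h e
        by_cases he : lev e ≤ l
        · rw [if_pos he]; rwa [if_pos he] at this
        · rw [if_neg he]; exact Set.mem_univ _
      · have := h e
        by_cases he : lev e ≤ l
        · rw [if_pos he]; exact Set.mem_univ _
        · rw [if_neg he]; rwa [if_neg he] at this
    · rintro ⟨h, h'⟩ e
      by_cases he : lev e ≤ l
      · have := h e
        rw [if_pos he] at this ⊢; exact this
      · have := h' e
        rw [if_neg he] at this ⊢; exact this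
  rw [h1, Measure.prod_prod, Measure.pi_pi, Measure.pi_pi, ← Finset.prod_mul_distrib]
  refine Finset.prod_congr rfl fun e _ => ?_
  by_cases he : lev e ≤ l
  · rw [if_pos he, if_pos he, measure_univ, mul_one]
  · rw [if_neg he, if_neg he, measure_univ, one_mul]

lemma integral_mix {h : (ι → ℝ) → ℝ} (hh : EG h) (lev : ι → ℕ) (l : ℕ) :
    ∫ z, ∫ w, h (mix lev l z w) ∂(gI ι) ∂(gI ι) = ∫ z, h z ∂(gI ι) := by
  have hF : Integrable h (((gI ι).prod (gI ι)).map
      (fun q : (ι → ℝ) × (ι → ℝ) => mix lev l q.1 q.2)) := by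
    rw [map_mix]; exact hh.integrable
  have hi : Integrable (fun q : (ι → ℝ) × (ι → ℝ) => h (mix lev l q.1 q.2))
      ((gI ι).prod (gI ι)) :=
    (integrable_map_measure hF.aestronglyMeasurable (measurable_mix lev l).aemeasurable).mp hF
  conv_rhs => rw [← map_mix lev l]
  rw [integral_map (measurable_mix lev l).aemeasurable hF.aestronglyMeasurable, integral_prod _ hi]

lemma EG.mix {h : (ι → ℝ) → ℝ} (hh : EG h) (z : ι → ℝ) :
    Integrable (fun w => h (Lv.mix lev l z w)) (gI ι) := by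
  obtain ⟨C, a, hC, ha, hb⟩ := hh.bdd
  refine ((integrable_exp_norm (ι := ι) a).const_mul (C * Real.exp (a * ‖z‖))).mono'
    (hh.meas.comp (measurable_mix_right lev l z)).aestronglyMeasurable
    (Filter.Eventually.of_forall fun w => ?_)
  rw [Real.norm_eq_abs]
  refine (hb _).trans ?_
  rw [mul_assoc, ← Real.exp_add, ← mul_add]
  gcongr
  exact norm_mix_le z w

lemma EG.J {h : (ι → ℝ) → ℝ} (hh : EG h) (lev : ι → ℕ) (l : ℕ) : EG (Lv.J lev l h) := by
  obtain ⟨C, a, hC, ha, hb⟩ := hh.bdd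
  have hA0 : 0 ≤ ∫ w : ι → ℝ, Real.exp (a * ‖w‖) ∂(gI ι) :=
    integral_nonneg fun w => (Real.exp_pos _).le
  refine ⟨?_, C * ∫ w : ι → ℝ, Real.exp (a * ‖w‖) ∂(gI ι), a, mul_nonneg hC hA0, ha, fun z => ?_⟩
  · have : StronglyMeasurable (Function.uncurry fun (z w : ι → ℝ) => h (Lv.mix lev l z w)) :=
      (hh.meas.comp (measurable_mix lev l)).stronglyMeasurable
    exact this.integral_prod_right.measurable
  · have h1 : |Lv.J lev l h z| ≤ ∫ w, |h (Lv.mix lev l z w)| ∂(gI ι) := by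
      rw [← Real.norm_eq_abs]
      exact (norm_integral_le_integral_norm _)
    refine h1.trans ?_
    have h2 : ∫ w, |h (Lv.mix lev l z w)| ∂(gI ι) ≤
        ∫ w, C * Real.exp (a * ‖z‖) * Real.exp (a * ‖w‖) ∂(gI ι) := by
      refine integral_mono (hh.abs.mix z) ((integrable_exp_norm _).const_mul _) fun w => ?_
      refine (hb _).trans ?_
      rw [mul_assoc, ← Real.exp_add, ← mul_add]
      gcongr
      exact norm_mix_le z w
    refine h2.trans (le_of_eq ?_)
    rw [integral_const_mul]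
    ring

lemma J_add {f g : (ι → ℝ) → ℝ} (hf : EG f) (hg : EG g) (z : ι → ℝ) :
    J lev l (fun z => f z + g z) z = J lev l f z + J lev l g z :=
  integral_add (hf.mix z) (hg.mix z)

lemma J_sub {f g : (ι → ℝ) → ℝ} (hf : EG f) (hg : EG g) (z : ι → ℝ) :
    J lev l (fun z => f z - g z) z = J lev l f z - J lev l g z :=
  integral_sub (hf.mix z) (hg.mix z)

lemma J_const_mul (c : ℝ) (f : (ι → ℝ) → ℝ) (z : ι → ℝ) :
    J lev l (fun z => c * f z) z = c * J lev l f z :=
  integral_const_mul _ _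

lemma J_const (c : ℝ) (z : ι → ℝ) : J lev l (fun _ => c) z = c := by
  unfold J
  simp

lemma J_sum {κ : Type*} (s : Finset κ) {f : κ → (ι → ℝ) → ℝ} (hf : ∀ i ∈ s, EG (f i))
    (z : ι → ℝ) : J lev l (fun z => ∑ i ∈ s, f i z) z = ∑ i ∈ s, J lev l (f i) z :=
  integral_finsetSum _ fun i hi => (hf i hi).mix z

lemma J_mono {f g : (ι → ℝ) → ℝ} (hf : EG f) (hg : EG g) (h : ∀ z, f z ≤ g z) (z : ι → ℝ) :
    J lev l f z ≤ J lev l g z :=
  integral_mono (hf.mix z) (hg.mix z) fun _ => h _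

lemma J_pos {f : (ι → ℝ) → ℝ} (hf : EG f) (h : ∀ z, 0 < f z) (z : ι → ℝ) :
    0 < J lev l f z := by
  unfold J
  rw [integral_pos_iff_support_of_nonneg (fun w => (h _).le) (hf.mix z)]
  have : (Function.support fun w => f (mix lev l z w)) = Set.univ :=
    Set.eq_univ_of_forall fun w => (h _).ne'
  rw [this, measure_univ]
  exact one_pos

/-- Functions of the lower levels can be taken out. -/
lemma Dep.J_mul {φ : (ι → ℝ) → ℝ} (hφ : Dep lev l φ) (h : (ι → ℝ) → ℝ) (z : ι → ℝ) :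
    J lev l (fun z => φ z * h z) z = φ z * J lev l h z := by
  unfold J
  rw [← integral_const_mul]
  refine integral_congr_ae (Filter.Eventually.of_forall fun w => ?_)
  dsimp only
  rw [hφ z w]

lemma dep_J (lev : ι → ℕ) (l : ℕ) (h : (ι → ℝ) → ℝ) : Dep lev l (J lev l h) := by
  intro z w
  unfold J
  simp only [mix_mix_left]

lemma Dep.J_eq {h : (ι → ℝ) → ℝ} (hh : Dep lev l h) (z : ι → ℝ) : J lev l h z = h z := by
  unfold J
  simp only [hh z, integral_const, probReal_univ, one_smul]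

omit [Fintype ι] in
lemma Dep.mono {l' : ℕ} (hl : l ≤ l') {h : (ι → ℝ) → ℝ} (hh : Dep lev l h) : Dep lev l' h := by
  intro z w
  rw [← hh (mix lev l' z w) z, mix_le hl, mix_self]

/-- The tower property. -/
lemma J_J {l' : ℕ} (hl : l ≤ l') {h : (ι → ℝ) → ℝ} (hh : EG h) (z : ι → ℝ) :
    J lev l (J lev l' h) z = J lev l h z := by
  unfold J
  simp only [mix_assoc hl]
  obtain ⟨C, a, hC, ha, hb⟩ := hh.bdd
  refine integral_mix (h := fun w => h (mix lev l z w)) ⟨hh.meas.comp
    (measurable_mix_right lev l z), C * Real.exp (a * ‖z‖), a, by positivity, ha, fun w => ?_⟩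
    lev l'
  refine (hb _).trans ?_
  rw [mul_assoc, ← Real.exp_add, ← mul_add]
  gcongr
  exact norm_mix_le z w

lemma integral_J {h : (ι → ℝ) → ℝ} (hh : EG h) : ∫ z, J lev l h z ∂(gI ι) = ∫ z, h z ∂(gI ι) :=
  integral_mix hh lev l

end J

section stein

theorem integrable_gaussianReal_iff (g : ℝ → ℝ) :
    Integrable g (gaussianReal 0 1) ↔ Integrable (fun x => gaussianPDFReal 0 1 x * g x) := by
  rw [gaussianReal_of_var_ne_zero _ one_ne_zero,
    integrable_withDensity_iff_integrable_smul' (measurable_gaussianPDF 0 1)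
      (Filter.Eventually.of_forall fun x => gaussianPDF_lt_top)]
  simp only [smul_eq_mul, gaussianPDF, ENNReal.toReal_ofReal (gaussianPDFReal_nonneg 0 1 _)]

/-- One-dimensional Gaussian integration by parts. -/
theorem stein_one_int (g g' : ℝ → ℝ) (hd : ∀ x, HasDerivAt g (g' x) x)
    (h0 : Integrable g (gaussianReal 0 1)) (h1 : Integrable (fun x => x * g x) (gaussianReal 0 1))
    (h2 : Integrable g' (gaussianReal 0 1)) :
    ∫ x, x * g x ∂(gaussianReal 0 1) = ∫ x, g' x ∂(gaussianReal 0 1) := by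
  set φ : ℝ → ℝ := gaussianPDFReal 0 1 with hφ
  have hφd : ∀ x, HasDerivAt φ (-(x * φ x)) x := by
    intro x
    have h1 : HasDerivAt (fun y : ℝ => -(y - 0) ^ 2 / (2 * ((1 : NNReal) : ℝ))) (-x) x := by
      have h2 : HasDerivAt (fun y : ℝ => -(y ^ 2) / 2) (-(2 * x) / 2) x := by
        have h0 := ((hasDerivAt_pow 2 x).neg).div_const (2 : ℝ)
        simpa using h0
      have h2' : (fun y : ℝ => -(y - 0) ^ 2 / (2 * ((1 : NNReal) : ℝ))) = fun y => -(y ^ 2) / 2 := by
        funext y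
        simp
      rw [h2']
      have h2'' : -x = -(2 * x) / 2 := by ring
      rw [h2'']
      exact h2
    have h3 := (h1.exp).const_mul ((Real.sqrt (2 * Real.pi * ((1 : NNReal) : ℝ)))⁻¹)
    have h4 : φ = fun y => (Real.sqrt (2 * Real.pi * ((1 : NNReal) : ℝ)))⁻¹
        * Real.exp (-(y - 0) ^ 2 / (2 * ((1 : NNReal) : ℝ))) := by
      funext y
      rw [hφ, gaussianPDFReal_def]
    have h5 : -(x * φ x) = (Real.sqrt (2 * Real.pi * ((1 : NNReal) : ℝ)))⁻¹
        * (Real.exp (-(x - 0) ^ 2 / (2 * ((1 : NNReal) : ℝ))) * -x) := by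
      rw [h4]
      ring
    rw [h5, h4]
    exact h3
  have e1 : ∫ x, x * g x ∂(gaussianReal 0 1) = ∫ x, φ x * (x * g x) := by
    rw [integral_gaussianReal_eq_integral_smul one_ne_zero]
    rfl
  have e2 : ∫ x, g' x ∂(gaussianReal 0 1) = ∫ x, φ x * g' x := by
    rw [integral_gaussianReal_eq_integral_smul one_ne_zero]
    rfl
  rw [integrable_gaussianReal_iff] at h0 h1 h2
  have i1 : Integrable (g * fun x => -(x * φ x)) := by
    refine h1.neg.congr (Filter.Eventually.of_forall fun x => ?_)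
    simp only [Pi.neg_apply, Pi.mul_apply]
    ring
  have i2 : Integrable (g' * φ) := by
    refine h2.congr (Filter.Eventually.of_forall fun x => ?_)
    simp only [Pi.mul_apply]
    ring
  have i3 : Integrable (g * φ) := by
    refine h0.congr (Filter.Eventually.of_forall fun x => ?_)
    simp only [Pi.mul_apply]
    ring
  have key := integral_mul_deriv_eq_deriv_mul_of_integrable (u := g) (v := φ) (u' := g')
    (v' := fun x => -(x * φ x)) (fun x _ => hd x) (fun x _ => hφd x) i1 i2 i3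
  rw [e1, e2]
  have h5 : ∫ x, φ x * (x * g x) = - ∫ x, g x * -(x * φ x) := by
    rw [← integral_neg]
    congr 1
    funext x
    ring
  rw [h5, key, neg_neg]
  congr 1
  funext x
  ring

/-- Gaussian integration by parts in the coordinate `e`. -/
theorem stein_pi_int [DecidableEq ι] (e : ι) (G G' : (ι → ℝ) → ℝ)
    (hd : ∀ J x, HasDerivAt (fun y => G (Function.update J e y)) (G' (Function.update J e x)) x)
    (h0 : Integrable G (gI ι)) (h1 : Integrable (fun J => J e * G J) (gI ι))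
    (h2 : Integrable G' (gI ι)) :
    ∫ J, J e * G J ∂(gI ι) = ∫ J, G' J ∂(gI ι) := by
  have hupd : ((gI ι).prod (gaussianReal 0 1)).map
      (fun q : (ι → ℝ) × ℝ => Function.update q.1 e q.2) = gI ι := Vale.Agent.P367.GT.map_update e
  have hprod : ∀ F : (ι → ℝ) → ℝ, Integrable F (gI ι) →
      Integrable (fun q : (ι → ℝ) × ℝ => F (Function.update q.1 e q.2))
        ((gI ι).prod (gaussianReal 0 1)) := by
    intro F hF
    have hF' : Integrable F (((gI ι).prod (gaussianReal 0 1)).map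
        (fun q : (ι → ℝ) × ℝ => Function.update q.1 e q.2)) := by
      rw [hupd]; exact hF
    exact (integrable_map_measure hF'.aestronglyMeasurable
      (Vale.Agent.P367.GT.measurable_upd e).aemeasurable).mp hF'
  have hres : ∀ F : (ι → ℝ) → ℝ, Integrable F (gI ι) →
      ∫ J, F J ∂(gI ι) = ∫ J, ∫ x, F (Function.update J e x) ∂(gaussianReal 0 1) ∂(gI ι) := by
    intro F hF
    have hF' : Integrable F (((gI ι).prod (gaussianReal 0 1)).map
        (fun q : (ι → ℝ) × ℝ => Function.update q.1 e q.2)) := by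
      rw [hupd]; exact hF
    conv_lhs => rw [← hupd]
    rw [integral_map (Vale.Agent.P367.GT.measurable_upd e).aemeasurable hF'.aestronglyMeasurable]
    rw [integral_prod]
    exact hprod F hF
  rw [hres _ h1, hres _ h2]
  apply integral_congr_ae
  have a0 := (hprod _ h0).prod_right_ae
  have a1 := (hprod _ h1).prod_right_ae
  have a2 := (hprod _ h2).prod_right_ae
  filter_upwards [a0, a1, a2] with J b0 b1 b2
  simp only [Function.update_self] at b1 ⊢
  exact stein_one_int (fun x => G (Function.update J e x)) (fun x => G' (Function.update J e x))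
    (hd J) b0 b1 b2

end stein

section pd

variable [DecidableEq ι] {e : ι}

lemma norm_update_le (y : ι → ℝ) (i : ι) (t : ℝ) :
    ‖Function.update y i t‖ ≤ ‖y‖ + |t| := by
  rw [pi_norm_le_iff_of_nonneg (by positivity)]
  intro j
  by_cases hj : j = i
  · subst hj
    rw [Function.update_self, Real.norm_eq_abs]
    linarith [norm_nonneg y]
  · rw [Function.update_of_ne hj]
    linarith [norm_le_pi_norm y j, abs_nonneg t]

omit [Fintype ι] in
lemma PD.congr {H H' K' : (ι → ℝ) → ℝ} (hd : PD e H H') (h : ∀ y, H' y = K' y) :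
    PD e H K' := by
  intro y x
  rw [← h]
  exact hd y x

lemma PD.add {H H' K K' : (ι → ℝ) → ℝ} (hd : PD e H H') (hk : PD e K K') :
    PD e (fun y => H y + K y) (fun y => H' y + K' y) := fun y x => (hd y x).add (hk y x)

lemma PD.sub {H H' K K' : (ι → ℝ) → ℝ} (hd : PD e H H') (hk : PD e K K') :
    PD e (fun y => H y - K y) (fun y => H' y - K' y) := fun y x => (hd y x).sub (hk y x)

lemma PD.mul {H H' K K' : (ι → ℝ) → ℝ} (hd : PD e H H') (hk : PD e K K') :
    PD e (fun y => H y * K y) (fun y => H' y * K y + H y * K' y) :=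
  fun y x => (hd y x).mul (hk y x)

lemma PD.const_mul {H H' : (ι → ℝ) → ℝ} (hd : PD e H H') (c : ℝ) :
    PD e (fun y => c * H y) (fun y => c * H' y) := fun y x => (hd y x).const_mul c

lemma PD.const (c : ℝ) : PD e (fun _ : ι → ℝ => c) (fun _ => 0) := fun _ x => hasDerivAt_const x c

lemma PD.exp {H H' : (ι → ℝ) → ℝ} (hd : PD e H H') :
    PD e (fun y => Real.exp (H y)) (fun y => Real.exp (H y) * H' y) := fun y x => (hd y x).exp

lemma PD.log {H H' : (ι → ℝ) → ℝ} (hd : PD e H H') (h0 : ∀ y, H y ≠ 0) :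
    PD e (fun y => Real.log (H y)) (fun y => H' y / H y) := fun y x => (hd y x).log (h0 _)

lemma PD.div {H H' K K' : (ι → ℝ) → ℝ} (hd : PD e H H') (hk : PD e K K') (h0 : ∀ y, K y ≠ 0) :
    PD e (fun y => H y / K y) (fun y => (H' y * K y - H y * K' y) / (K y) ^ 2) :=
  fun y x => (hd y x).div (hk y x) (h0 _)

lemma PD.sum {κ : Type*} (s : Finset κ) {H H' : κ → (ι → ℝ) → ℝ}
    (hd : ∀ a ∈ s, PD e (H a) (H' a)) :
    PD e (fun y => ∑ a ∈ s, H a y) (fun y => ∑ a ∈ s, H' a y) :=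
  fun y x => HasDerivAt.fun_sum fun a ha => hd a ha y x

/-- Composition with a function of one variable. -/
lemma PD.comp {H H' : (ι → ℝ) → ℝ} (hd : PD e H H') {g g' : ℝ → ℝ}
    (hg : ∀ x, HasDerivAt g (g' x) x) : PD e (fun y => g (H y)) (fun y => g' (H y) * H' y) :=
  fun y x => (hg _).comp x (hd y x)

lemma PD.coord (e' : ι) : PD e (fun y : ι → ℝ => y e') (fun _ => if e' = e then 1 else 0) := by
  intro y x
  by_cases h : e' = e
  · subst h
    simp only [Function.update_self, if_true]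
    exact hasDerivAt_id x
  · simp only [Function.update_of_ne h, if_neg h]
    exact hasDerivAt_const x _

/-- A function which does not depend on the coordinate `e`. -/
lemma PD.of_indep {H : (ι → ℝ) → ℝ} (h : ∀ y t, H (Function.update y e t) = H y) :
    PD e H (fun _ => 0) := by
  intro y x
  simp only [h]
  exact hasDerivAt_const x _

omit [Fintype ι] in
lemma mix_update {lev : ι → ℕ} {l : ℕ} (he : lev e ≤ l) (z w : ι → ℝ) (t : ℝ) :
    mix lev l (Function.update z e t) w = Function.update (mix lev l z w) e t := by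
  funext j
  unfold mix
  by_cases hj : j = e
  · subst hj
    rw [Function.update_self, Function.update_self, if_pos he]
  · rw [Function.update_of_ne hj, Function.update_of_ne hj]

/-- Differentiation under the average over the higher levels. -/
lemma PD.J {H H' : (ι → ℝ) → ℝ} (hd : PD e H H') (hg : EG H) (hg' : EG H') {lev : ι → ℕ} {l : ℕ}
    (he : lev e ≤ l) : PD e (Lv.J lev l H) (Lv.J lev l H') := by
  intro y x
  obtain ⟨C, a, hC, ha, h1⟩ := hg'.bdd
  refine (hasDerivAt_integral_of_dominated_loc_of_deriv_le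
    (F := fun t w => H (mix lev l (Function.update y e t) w))
    (F' := fun t w => H' (mix lev l (Function.update y e t) w))
    (bound := fun w => C * Real.exp (a * (‖y‖ + |x| + 1)) * Real.exp (a * ‖w‖))
    (Metric.ball_mem_nhds x one_pos) ?_ ?_ ?_ ?_ ?_ ?_).2
  · exact Filter.Eventually.of_forall fun t => (hg.mix _).aestronglyMeasurable
  · exact hg.mix _
  · exact (hg'.mix _).aestronglyMeasurable
  · refine Filter.Eventually.of_forall fun w t ht => ?_
    rw [Metric.mem_ball, Real.dist_eq] at ht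
    have h2 : ‖mix lev l (Function.update y e t) w‖ ≤ (‖y‖ + |x| + 1) + ‖w‖ := by
      refine (norm_mix_le _ _).trans ?_
      have h3 := norm_update_le y e t
      have h4 : |t| ≤ |x| + 1 := by
        have := abs_add_le (t - x) x
        rw [sub_add_cancel] at this
        linarith
      linarith
    rw [Real.norm_eq_abs]
    calc |H' (mix lev l (Function.update y e t) w)|
        ≤ C * Real.exp (a * ‖mix lev l (Function.update y e t) w‖) := h1 _
      _ ≤ C * Real.exp (a * ((‖y‖ + |x| + 1) + ‖w‖)) := by gcongr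
      _ = C * Real.exp (a * (‖y‖ + |x| + 1)) * Real.exp (a * ‖w‖) := by
          rw [mul_assoc, ← Real.exp_add]
          congr 2
          ring
  · exact (integrable_exp_norm a).const_mul _
  · refine Filter.Eventually.of_forall fun w t _ => ?_
    simp only [mix_update he]
    exact hd _ _

/-- Functions of the levels `≤ l` do not depend on the coordinates of level `> l`. -/
lemma Dep.pd {lev : ι → ℕ} {l : ℕ} {H : (ι → ℝ) → ℝ} (h : Dep lev l H) (he : l < lev e) :
    PD e H (fun _ => 0) := by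
  refine PD.of_indep fun y t => ?_
  rw [← h (Function.update y e t) y]
  congr 1
  funext j
  unfold mix
  by_cases hj : lev j ≤ l
  · rw [if_pos hj, Function.update_of_ne]
    rintro rfl
    omega
  · rw [if_neg hj]

/-- Gaussian integration by parts. -/
lemma PD.stein {H H' : (ι → ℝ) → ℝ} (hd : PD e H H') (hg : EG H) (hg' : EG H') :
    ∫ z, z e * H z ∂(gI ι) = ∫ z, H' z ∂(gI ι) :=
  stein_pi_int e H H' hd hg.integrable ((EG.coord e).mul hg).integrable hg'.integrable

end pd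

end Vale.Agent.P157.Lv
end
end

section

section

/-!
The tilted chain of a system: log-weights, densities, tilted conditional averages.
-/

open MeasureTheory ProbabilityTheory Filter Topology

namespace Vale.Agent.P157.Lv

set_option linter.unusedSectionVars false

variable {ι X : Type} [Fintype ι] [Fintype X] [Nonempty X] {S : Sy ι X}

namespace Sy

lemma sum_exp_pos (z : ι → ℝ) : 0 < ∑ x, Real.exp (S.H z x) :=
  Finset.sum_pos (fun _ _ => Real.exp_pos _) Finset.univ_nonempty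

lemma Reg.m_mono (hS : S.Reg) {l l' : ℕ} (h : l ≤ l') (hl : l' ≤ S.K + 1) : S.m l ≤ S.m l' := by
  induction l', h using Nat.le_induction with
  | base => exact le_rfl
  | succ n hn ih => exact (ih (by omega)).trans (hS.mono n (by omega))

lemma Reg.m_pos (hS : S.Reg) {l : ℕ} (hl : 1 ≤ l) (hl' : l ≤ S.K + 1) : 0 < S.m l :=
  lt_of_lt_of_le hS.pos (hS.m_mono hl hl')

lemma Reg.m_le_one (hS : S.Reg) {l : ℕ} (hl : l ≤ S.K + 1) : S.m l ≤ 1 := by
  rw [← hS.mK]
  exact hS.m_mono hl le_rfl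

/-! ### The log-weights -/

lemma lg_top (S : Sy ι X) : S.lg S.K = S.top := by
  unfold lg
  rw [Nat.sub_self]
  rfl

lemma lg_step (S : Sy ι X) {l : ℕ} (hl : l < S.K) : S.lg l = S.stp l (S.lg (l + 1)) := by
  unfold lg
  rw [show S.K - l = (S.K - (l + 1)) + 1 by omega]
  rfl

/-- Downward induction on the levels. -/
lemma down_ind {K : ℕ} {P : ℕ → Prop} (top : P K) (step : ∀ l < K, P (l + 1) → P l) :
    ∀ l ≤ K, P l := by
  intro l hl
  obtain ⟨d, rfl⟩ := Nat.exists_eq_add_of_le hl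
  clear hl
  induction d generalizing l with
  | zero => exact top
  | succ d ih =>
    have e : l + (d + 1) = (l + 1) + d := by omega
    refine step l (by omega) ?_
    have h := ih (l := l + 1)
    rw [← e] at h
    exact h top step

/-- One-sided Lipschitz bound of the logarithm of a sum or an average. -/
lemma lc_log_le {a b c : ℝ} (ha : 0 < a) (hb : 0 < b) (h : a ≤ Real.exp c * b) :
    Real.log a - Real.log b ≤ c := by
  have h1 := Real.log_le_log ha h
  rw [Real.log_mul (Real.exp_pos _).ne' hb.ne', Real.log_exp] at h1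
  linarith

lemma Reg.lip_top (hS : S.Reg) : Lip S.top := by
  choose L hL0 hL using hS.lip
  have hsum0 : 0 ≤ ∑ x, L x := Finset.sum_nonneg fun x _ => hL0 x
  have key : ∀ y y', S.top y - S.top y' ≤ (∑ x, L x) * ‖y - y'‖ := by
    intro y y'
    refine lc_log_le (sum_exp_pos y) (sum_exp_pos y') ?_
    rw [Finset.mul_sum]
    refine Finset.sum_le_sum fun x _ => ?_
    rw [← Real.exp_add]
    apply Real.exp_le_exp.2
    have h1 := (abs_le.1 (hL x y y')).2
    have h2 : L x * ‖y - y'‖ ≤ (∑ x, L x) * ‖y - y'‖ :=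
      mul_le_mul_of_nonneg_right
        (Finset.single_le_sum (fun x _ => hL0 x) (Finset.mem_univ x)) (norm_nonneg _)
    simp only at h1
    linarith
  refine ⟨∑ x, L x, hsum0, fun y y' => ?_⟩
  rw [abs_le]
  have h1 := key y y'
  have h2 := key y' y
  rw [norm_sub_rev] at h2
  exact ⟨by linarith, h1⟩

lemma lc_norm_mix (lev : ι → ℕ) (l : ℕ) (y y' w : ι → ℝ) :
    ‖mix lev l y w - mix lev l y' w‖ ≤ ‖y - y'‖ := by
  rw [pi_norm_le_iff_of_nonneg (norm_nonneg _)]
  intro i
  rw [Pi.sub_apply]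
  unfold mix
  split_ifs
  · exact norm_le_pi_norm (y - y') i
  · rw [sub_self, norm_zero]
    exact norm_nonneg _

lemma lc_lip_stp {F : (ι → ℝ) → ℝ} (hF : Lip F) {l : ℕ} (hm : 0 < S.m (l + 1)) :
    Lip (S.stp l F) := by
  have heg := hF.exp_eg (S.m (l + 1))
  obtain ⟨L, hL0, hL⟩ := hF
  have hpos : ∀ z, 0 < J S.lev l (fun z => Real.exp (S.m (l + 1) * F z)) z :=
    fun z => J_pos heg (fun _ => Real.exp_pos _) z
  have key : ∀ y y', S.stp l F y - S.stp l F y' ≤ L * ‖y - y'‖ := by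
    intro y y'
    have h1 : J S.lev l (fun z => Real.exp (S.m (l + 1) * F z)) y ≤
        Real.exp (S.m (l + 1) * (L * ‖y - y'‖)) *
          J S.lev l (fun z => Real.exp (S.m (l + 1) * F z)) y' := by
      unfold J
      rw [← integral_const_mul]
      refine integral_mono (heg.mix y) ((heg.mix y').const_mul _) fun w => ?_
      simp only
      rw [← Real.exp_add]
      apply Real.exp_le_exp.2
      have h2 := (abs_le.1 (hL (mix S.lev l y w) (mix S.lev l y' w))).2
      have h3 : L * ‖mix S.lev l y w - mix S.lev l y' w‖ ≤ L * ‖y - y'‖ :=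
        mul_le_mul_of_nonneg_left (lc_norm_mix _ _ _ _ _) hL0
      have h4 : F (mix S.lev l y w) ≤ L * ‖y - y'‖ + F (mix S.lev l y' w) := by linarith
      calc S.m (l + 1) * F (mix S.lev l y w)
          ≤ S.m (l + 1) * (L * ‖y - y'‖ + F (mix S.lev l y' w)) :=
            mul_le_mul_of_nonneg_left h4 hm.le
        _ = _ := by ring
    have h5 := lc_log_le (hpos y) (hpos y') h1
    unfold stp
    rw [← mul_sub, one_div, inv_mul_le_iff₀ hm]
    exact h5
  refine ⟨L, hL0, fun y y' => ?_⟩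
  rw [abs_le]
  have h1 := key y y'
  have h2 := key y' y
  rw [norm_sub_rev] at h2
  exact ⟨by linarith, h1⟩

lemma Reg.lip_lg (hS : S.Reg) {l : ℕ} (hl : l ≤ S.K) : Lip (S.lg l) := by
  refine down_ind (P := fun l => Lip (S.lg l)) ?_ ?_ l hl
  · rw [lg_top]
    exact hS.lip_top
  · intro l hl ih
    rw [lg_step S hl]
    exact lc_lip_stp ih (hS.m_pos (by omega) (by omega))

lemma Reg.dep_lg (hS : S.Reg) {l : ℕ} (hl : l ≤ S.K) : Dep S.lev l (S.lg l) := by
  rcases Nat.lt_or_ge l S.K with h | h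
  · rw [lg_step S h]
    intro z w
    unfold stp
    rw [dep_J S.lev l _ z w]
  · have e : l = S.K := le_antisymm hl h
    subst e
    intro z w
    rw [mix_top hS.lev]

lemma Reg.J_exp_lg (hS : S.Reg) {l : ℕ} (hl : l < S.K) (z : ι → ℝ) :
    J S.lev l (fun z => Real.exp (S.m (l + 1) * S.lg (l + 1) z)) z =
      Real.exp (S.m (l + 1) * S.lg l z) := by
  have hm : 0 < S.m (l + 1) := hS.m_pos (by omega) (by omega)
  have heg := (hS.lip_lg (l := l + 1) (by omega)).exp_eg (S.m (l + 1))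
  have hpos := J_pos (lev := S.lev) (l := l) heg (fun _ => Real.exp_pos _) z
  have e : S.lg l z = 1 / S.m (l + 1) *
      Real.log (J S.lev l (fun z => Real.exp (S.m (l + 1) * S.lg (l + 1) z)) z) := by
    rw [lg_step S hl]
    rfl
  rw [e, ← mul_assoc, mul_one_div_cancel hm.ne', one_mul, Real.exp_log hpos]

lemma Reg.integrable_lg (hS : S.Reg) {l : ℕ} (hl : l ≤ S.K) : Integrable (S.lg l) (gI ι) :=
  (hS.lip_lg hl).eg.integrable

/-! ### The densities -/

lemma dn_pos (S : Sy ι X) (l : ℕ) (z : ι → ℝ) : 0 < S.dn l z := Real.exp_pos _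

lemma dn_top (S : Sy ι X) (z : ι → ℝ) : S.dn S.K z = 1 := by simp [dn]

lemma dn_step (S : Sy ι X) {l : ℕ} (hl : l < S.K) (z : ι → ℝ) :
    S.dn l z = Real.exp (S.m (l + 1) * (S.lg (l + 1) z - S.lg l z)) * S.dn (l + 1) z := by
  unfold dn
  rw [← Real.exp_add, Finset.sum_eq_sum_Ico_succ_bot hl]

lemma lc_lip_sum (hS : S.Reg) {a b : ℕ} (hb : b ≤ S.K) :
    Lip fun z => ∑ i ∈ Finset.Ico a b, S.m (i + 1) * (S.lg (i + 1) z - S.lg i z) := by
  refine Lip.sum _ fun i hi => ?_
  rw [Finset.mem_Ico] at hi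
  have h1 := hS.lip_lg (l := i + 1) (by omega)
  have h2 := (hS.lip_lg (l := i) (by omega)).const_mul (-1)
  have h3 := (h1.add h2).const_mul (S.m (i + 1))
  have e : (fun z => S.m (i + 1) * (S.lg (i + 1) z - S.lg i z)) =
      fun z => S.m (i + 1) * (S.lg (i + 1) z + -1 * S.lg i z) := by
    funext z
    ring
  rw [e]
  exact h3

lemma lc_eg_exp {G : (ι → ℝ) → ℝ} (hG : Lip G) : EG fun z => Real.exp (G z) := by
  have h := hG.exp_eg 1
  simp only [one_mul] at h
  exact h

lemma Reg.eg_dn (hS : S.Reg) {l : ℕ} (_hl : l ≤ S.K) : EG (S.dn l) :=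
  lc_eg_exp (lc_lip_sum hS le_rfl)

lemma lc_dep_mul {lev : ι → ℕ} {l : ℕ} {f g : (ι → ℝ) → ℝ} (hf : Dep lev l f)
    (hg : Dep lev l g) : Dep lev l (fun z => f z * g z) := fun z w => by
  simp only [hf z w, hg z w]

lemma Reg.J_dn (hS : S.Reg) {l : ℕ} (hl : l ≤ S.K) (z : ι → ℝ) : J S.lev l (S.dn l) z = 1 := by
  revert z
  refine down_ind (P := fun l => ∀ z, J S.lev l (S.dn l) z = 1) ?_ ?_ l hl
  · intro z
    have e : S.dn S.K = fun _ => 1 := funext fun z => dn_top S z
    rw [e, J_const]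
  · intro l hl ih z
    have e1 : S.dn l = fun z => Real.exp (S.m (l + 1) * (S.lg (l + 1) z - S.lg l z)) *
        S.dn (l + 1) z := funext fun z => dn_step S hl z
    have heg := hS.eg_dn hl.le
    rw [← J_J (Nat.le_succ l) heg]
    have hdep : Dep S.lev (l + 1) fun z =>
        Real.exp (S.m (l + 1) * (S.lg (l + 1) z - S.lg l z)) := by
      intro z w
      dsimp only
      rw [hS.dep_lg (l := l + 1) (by omega) z w, (hS.dep_lg hl.le).mono (Nat.le_succ l) z w]
    have e2 : J S.lev l.succ (S.dn l) = fun z =>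
        Real.exp (S.m (l + 1) * (S.lg (l + 1) z - S.lg l z)) := by
      funext z
      rw [e1]
      show J S.lev (l + 1) _ z = _
      rw [hdep.J_mul, ih, mul_one]
    rw [e2]
    have e3 : (fun z => Real.exp (S.m (l + 1) * (S.lg (l + 1) z - S.lg l z))) =
        fun z => Real.exp (-(S.m (l + 1) * S.lg l z)) * Real.exp (S.m (l + 1) * S.lg (l + 1) z) := by
      funext z
      rw [← Real.exp_add]
      congr 1
      ring
    have hdep2 : Dep S.lev l fun z => Real.exp (-(S.m (l + 1) * S.lg l z)) := by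
      intro z w
      dsimp only
      rw [hS.dep_lg hl.le z w]
    rw [e3, hdep2.J_mul, hS.J_exp_lg hl, ← Real.exp_add, neg_add_cancel, Real.exp_zero]

/-! ### The Gibbs average -/

lemma gb_pos (S : Sy ι X) (z : ι → ℝ) (x : X) : 0 < S.gb z x :=
  div_pos (Real.exp_pos _) (sum_exp_pos z)

lemma sum_gb (S : Sy ι X) (z : ι → ℝ) : ∑ x, S.gb z x = 1 := by
  unfold gb
  rw [← Finset.sum_div, div_self (sum_exp_pos z).ne']

lemma Reg.eg_gb (hS : S.Reg) (x : X) : EG (fun z => S.gb z x) := by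
  refine EG.of_bdd (C := 1) ?_ ?_
  · unfold gb
    exact ((hS.lip x).measurable.exp).div
      (Finset.measurable_sum _ fun x' _ => (hS.lip x').measurable.exp)
  · intro y
    rw [abs_of_pos (gb_pos S y x), ← sum_gb S y]
    exact Finset.single_le_sum (f := fun x => S.gb y x) (fun x _ => (gb_pos S y x).le)
      (Finset.mem_univ x)

lemma av_add (S : Sy ι X) (f g : (ι → ℝ) → X → ℝ) (z : ι → ℝ) :
    S.av (fun z x => f z x + g z x) z = S.av f z + S.av g z := by
  unfold av
  rw [← Finset.sum_add_distrib]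
  exact Finset.sum_congr rfl fun x _ => mul_add _ _ _

lemma av_sub (S : Sy ι X) (f g : (ι → ℝ) → X → ℝ) (z : ι → ℝ) :
    S.av (fun z x => f z x - g z x) z = S.av f z - S.av g z := by
  unfold av
  rw [← Finset.sum_sub_distrib]
  exact Finset.sum_congr rfl fun x _ => mul_sub _ _ _

lemma av_sum (S : Sy ι X) {κ : Type*} (s : Finset κ) (f : κ → (ι → ℝ) → X → ℝ) (z : ι → ℝ) :
    S.av (fun z x => ∑ i ∈ s, f i z x) z = ∑ i ∈ s, S.av (f i) z := by
  unfold av
  rw [Finset.sum_comm]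
  exact Finset.sum_congr rfl fun x _ => Finset.mul_sum _ _ _

/-- Functions of the Gaussian coordinates can be taken out of the Gibbs average. -/
lemma av_mul_left (S : Sy ι X) (φ : (ι → ℝ) → ℝ) (f : (ι → ℝ) → X → ℝ) (z : ι → ℝ) :
    S.av (fun z x => φ z * f z x) z = φ z * S.av f z := by
  unfold av
  rw [Finset.mul_sum]
  exact Finset.sum_congr rfl fun x _ => by ring

lemma av_fst (S : Sy ι X) (φ : (ι → ℝ) → ℝ) (z : ι → ℝ) : S.av (fun z _ => φ z) z = φ z := by
  unfold av
  rw [← Finset.sum_mul, sum_gb, one_mul]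

lemma av_mono (S : Sy ι X) {f g : (ι → ℝ) → X → ℝ} {z : ι → ℝ} (h : ∀ x, f z x ≤ g z x) :
    S.av f z ≤ S.av g z :=
  Finset.sum_le_sum fun x _ => mul_le_mul_of_nonneg_left (h x) (gb_pos S z x).le

lemma Reg.eg_av (hS : S.Reg) {h : (ι → ℝ) → X → ℝ} (hh : Nh h) : EG (S.av h) :=
  EG.sum _ fun x _ => (hS.eg_gb x).mul (hh x)

/-! ### Observables -/

lemma Nh.add {f g : (ι → ℝ) → X → ℝ} (hf : Nh f) (hg : Nh g) : Nh fun z x => f z x + g z x :=
  fun x => (hf x).add (hg x)

lemma Nh.sub {f g : (ι → ℝ) → X → ℝ} (hf : Nh f) (hg : Nh g) : Nh fun z x => f z x - g z x :=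
  fun x => (hf x).sub (hg x)

lemma Nh.mul {f g : (ι → ℝ) → X → ℝ} (hf : Nh f) (hg : Nh g) : Nh fun z x => f z x * g z x :=
  fun x => (hf x).mul (hg x)

lemma Nh.const_mul {f : (ι → ℝ) → X → ℝ} (c : ℝ) (hf : Nh f) : Nh fun z x => c * f z x :=
  fun x => (hf x).const_mul c

lemma Nh.abs {f : (ι → ℝ) → X → ℝ} (hf : Nh f) : Nh fun z x => |f z x| := fun x => (hf x).abs

lemma Nh.pow {f : (ι → ℝ) → X → ℝ} (hf : Nh f) (n : ℕ) : Nh fun z x => f z x ^ n :=
  fun x => (hf x).pow n

lemma Nh.fst {φ : (ι → ℝ) → ℝ} (h : EG φ) : Nh (X := X) fun z _ => φ z := fun _ => h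

lemma Nh.snd (f : X → ℝ) : Nh (ι := ι) fun _ x => f x := fun _ => EG.const _

lemma Nh.sum {κ : Type*} (s : Finset κ) {f : κ → (ι → ℝ) → X → ℝ} (hf : ∀ i ∈ s, Nh (f i)) :
    Nh fun z x => ∑ i ∈ s, f i z x := fun x => EG.sum s fun i hi => hf i hi x

/-! ### The tilted conditional average -/

lemma Reg.eg_T (hS : S.Reg) {l : ℕ} (hl : l ≤ S.K) {h : (ι → ℝ) → X → ℝ} (hh : Nh h) :
    EG (S.T l h) := ((hS.eg_dn hl).mul (hS.eg_av hh)).J _ _

lemma dep_T (S : Sy ι X) (l : ℕ) (h : (ι → ℝ) → X → ℝ) : Dep S.lev l (S.T l h) := dep_J _ _ _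

lemma Reg.T_add (hS : S.Reg) {l : ℕ} (hl : l ≤ S.K) {f g : (ι → ℝ) → X → ℝ} (hf : Nh f)
    (hg : Nh g) (z : ι → ℝ) : S.T l (fun z x => f z x + g z x) z = S.T l f z + S.T l g z := by
  unfold T
  rw [← J_add ((hS.eg_dn hl).mul (hS.eg_av hf)) ((hS.eg_dn hl).mul (hS.eg_av hg))]
  congr 1
  funext z
  rw [av_add S, mul_add]

lemma Reg.T_sub (hS : S.Reg) {l : ℕ} (hl : l ≤ S.K) {f g : (ι → ℝ) → X → ℝ} (hf : Nh f)
    (hg : Nh g) (z : ι → ℝ) : S.T l (fun z x => f z x - g z x) z = S.T l f z - S.T l g z := by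
  unfold T
  rw [← J_sub ((hS.eg_dn hl).mul (hS.eg_av hf)) ((hS.eg_dn hl).mul (hS.eg_av hg))]
  congr 1
  funext z
  rw [av_sub S, mul_sub]

lemma Reg.T_sum (hS : S.Reg) {l : ℕ} (hl : l ≤ S.K) {κ : Type*} (s : Finset κ)
    {f : κ → (ι → ℝ) → X → ℝ} (hf : ∀ i ∈ s, Nh (f i)) (z : ι → ℝ) :
    S.T l (fun z x => ∑ i ∈ s, f i z x) z = ∑ i ∈ s, S.T l (f i) z := by
  unfold T
  rw [← J_sum s fun i hi => (hS.eg_dn hl).mul (hS.eg_av (hf i hi))]
  congr 1
  funext z
  rw [av_sum S, Finset.mul_sum]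

lemma T_const_mul (S : Sy ι X) (l : ℕ) (c : ℝ) (f : (ι → ℝ) → X → ℝ) (z : ι → ℝ) :
    S.T l (fun z x => c * f z x) z = c * S.T l f z := by
  unfold T
  rw [← J_const_mul]
  congr 1
  funext z
  rw [av_mul_left S (fun _ => c)]
  ring

/-- Functions of the levels at most `l` can be taken out. -/
lemma T_mul_left (S : Sy ι X) {l : ℕ} {φ : (ι → ℝ) → ℝ} (hφ : Dep S.lev l φ)
    (f : (ι → ℝ) → X → ℝ) (z : ι → ℝ) : S.T l (fun z x => φ z * f z x) z = φ z * S.T l f z := by
  unfold T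
  rw [← hφ.J_mul]
  congr 1
  funext z
  rw [av_mul_left S φ]
  ring

lemma Reg.T_fst (hS : S.Reg) {l : ℕ} (hl : l ≤ S.K) {φ : (ι → ℝ) → ℝ} (hφ : Dep S.lev l φ)
    (z : ι → ℝ) : S.T l (fun z _ => φ z) z = φ z := by
  have e : S.T l (fun z _ => φ z) z = J S.lev l (fun z => φ z * S.dn l z) z := by
    unfold T
    congr 1
    funext z
    rw [av_fst S φ, mul_comm]
  rw [e, hφ.J_mul, hS.J_dn hl, mul_one]

lemma Reg.T_const (hS : S.Reg) {l : ℕ} (hl : l ≤ S.K) (c : ℝ) (z : ι → ℝ) :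
    S.T l (fun _ _ => c) z = c := hS.T_fst hl (φ := fun _ => c) (fun _ _ => rfl) z

lemma Reg.T_mono (hS : S.Reg) {l : ℕ} (hl : l ≤ S.K) {f g : (ι → ℝ) → X → ℝ} (hf : Nh f)
    (hg : Nh g) (h : ∀ z x, f z x ≤ g z x) (z : ι → ℝ) : S.T l f z ≤ S.T l g z :=
  J_mono ((hS.eg_dn hl).mul (hS.eg_av hf)) ((hS.eg_dn hl).mul (hS.eg_av hg))
    (fun z => mul_le_mul_of_nonneg_left (av_mono S (h z)) (dn_pos S l z).le) z

lemma Reg.abs_T_le (hS : S.Reg) {l : ℕ} (hl : l ≤ S.K) {f : (ι → ℝ) → X → ℝ} (hf : Nh f)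
    {C : ℝ} (h : ∀ z x, |f z x| ≤ C) (z : ι → ℝ) : |S.T l f z| ≤ C := by
  rw [abs_le]
  constructor
  · rw [← hS.T_const hl (-C) z]
    exact hS.T_mono hl (fun _ => EG.const _) hf (fun z x => (abs_le.1 (h z x)).1) z
  · rw [← hS.T_const hl C z]
    exact hS.T_mono hl hf (fun _ => EG.const _) (fun z x => (abs_le.1 (h z x)).2) z

/-- Jensen. -/
lemma Reg.sq_T_le (hS : S.Reg) {l : ℕ} (hl : l ≤ S.K) {f : (ι → ℝ) → X → ℝ} (hf : Nh f)
    (z : ι → ℝ) : S.T l f z ^ 2 ≤ S.T l (fun z x => f z x ^ 2) z := by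
  obtain ⟨c, hc⟩ : ∃ c, c = S.T l f z := ⟨_, rfl⟩
  have h0 : 0 ≤ S.T l (fun z x => (f z x - c) ^ 2) z := by
    have h1 := hS.T_mono hl (f := fun _ _ => 0) (g := fun z x => (f z x - c) ^ 2)
      (fun _ => EG.const _) (Nh.pow (Nh.sub hf (fun _ => EG.const c)) 2)
      (fun z x => sq_nonneg _) z
    rwa [hS.T_const hl] at h1
  have h1 : S.T l (fun z x => (f z x - c) ^ 2) z =
      S.T l (fun z x => f z x ^ 2) z - 2 * c * S.T l f z + c ^ 2 := by
    have e : (fun (z : ι → ℝ) (x : X) => (f z x - c) ^ 2) =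
        fun z x => (f z x ^ 2 - 2 * c * f z x) + c ^ 2 := by
      funext z x
      ring
    rw [e, hS.T_add hl (Nh.sub (Nh.pow hf 2) (Nh.const_mul _ hf)) (fun _ => EG.const _),
      hS.T_sub hl (Nh.pow hf 2) (Nh.const_mul _ hf), T_const_mul, hS.T_const hl]
  rw [h1, ← hc] at h0
  rw [← hc]
  nlinarith

lemma Reg.T_top (hS : S.Reg) (f : (ι → ℝ) → X → ℝ) (z : ι → ℝ) : S.T S.K f z = S.av f z := by
  unfold T J
  simp only [mix_top hS.lev, dn_top, one_mul]
  simp

/-- The tower property. -/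
lemma Reg.T_T (hS : S.Reg) {l l' : ℕ} (hl : l ≤ l') (hl' : l' ≤ S.K) {f : (ι → ℝ) → X → ℝ}
    (hf : Nh f) (z : ι → ℝ) : S.T l (fun z _ => S.T l' f z) z = S.T l f z := by
  have hll : l ≤ S.K := hl.trans hl'
  obtain ⟨P, hP⟩ : ∃ P : (ι → ℝ) → ℝ, P = fun z =>
    Real.exp (∑ i ∈ Finset.Ico l l', S.m (i + 1) * (S.lg (i + 1) z - S.lg i z)) := ⟨_, rfl⟩
  have hdn : ∀ z, S.dn l z = P z * S.dn l' z := by
    intro z
    rw [hP]
    unfold dn
    rw [← Real.exp_add, Finset.sum_Ico_consecutive _ hl hl']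
  have hPd : Dep S.lev l' P := by
    rw [hP]
    intro z w
    dsimp only
    congr 1
    refine Finset.sum_congr rfl fun i hi => ?_
    rw [Finset.mem_Ico] at hi
    rw [(hS.dep_lg (l := i + 1) (by omega)).mono (show i + 1 ≤ l' by omega) z w,
      (hS.dep_lg (l := i) (by omega)).mono (show i ≤ l' by omega) z w]
  have hPe : EG P := by
    rw [hP]
    exact lc_eg_exp (lc_lip_sum hS hl')
  have hTe := hS.eg_T hl' hf
  have e1 : S.T l (fun z _ => S.T l' f z) z =
      J S.lev l (fun z => (P z * S.T l' f z) * S.dn l' z) z := by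
    unfold T
    congr 1
    funext z
    rw [av_fst S (fun z => J S.lev l' (fun z => S.dn l' z * S.av f z) z), hdn]
    ring
  have e2 : S.T l f z = J S.lev l (fun z => P z * (S.dn l' z * S.av f z)) z := by
    unfold T
    congr 1
    funext z
    rw [hdn]
    ring
  have hd2 : Dep S.lev l' fun z => P z * S.T l' f z := lc_dep_mul hPd (dep_T S l' f)
  rw [e1, e2, ← J_J hl ((hPe.mul hTe).mul (hS.eg_dn hl')),
    ← J_J hl (hPe.mul ((hS.eg_dn hl').mul (hS.eg_av hf)))]
  congr 1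
  funext z
  rw [hd2.J_mul, hPd.J_mul, hS.J_dn hl', mul_one]
  rfl

/-! ### The tilted average -/

lemma lc_int (hS : S.Reg) {f : (ι → ℝ) → X → ℝ} (hf : Nh f) :
    Integrable (fun z => S.dn 0 z * S.av f z) (gI ι) :=
  ((hS.eg_dn (Nat.zero_le _)).mul (hS.eg_av hf)).integrable

lemma Reg.Ex_add (hS : S.Reg) {f g : (ι → ℝ) → X → ℝ} (hf : Nh f) (hg : Nh g) :
    S.Ex (fun z x => f z x + g z x) = S.Ex f + S.Ex g := by
  unfold Ex
  rw [← integral_add (lc_int hS hf) (lc_int hS hg)]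
  congr 1
  funext z
  rw [av_add S, mul_add]

lemma Reg.Ex_sub (hS : S.Reg) {f g : (ι → ℝ) → X → ℝ} (hf : Nh f) (hg : Nh g) :
    S.Ex (fun z x => f z x - g z x) = S.Ex f - S.Ex g := by
  unfold Ex
  rw [← integral_sub (lc_int hS hf) (lc_int hS hg)]
  congr 1
  funext z
  rw [av_sub S, mul_sub]

lemma Reg.Ex_sum (hS : S.Reg) {κ : Type*} (s : Finset κ) {f : κ → (ι → ℝ) → X → ℝ}
    (hf : ∀ i ∈ s, Nh (f i)) : S.Ex (fun z x => ∑ i ∈ s, f i z x) = ∑ i ∈ s, S.Ex (f i) := by
  unfold Ex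
  rw [← integral_finsetSum s fun i hi => lc_int hS (hf i hi)]
  congr 1
  funext z
  rw [av_sum S, Finset.mul_sum]

lemma Ex_const_mul (S : Sy ι X) (c : ℝ) (f : (ι → ℝ) → X → ℝ) :
    S.Ex (fun z x => c * f z x) = c * S.Ex f := by
  unfold Ex
  rw [← integral_const_mul]
  congr 1
  funext z
  rw [av_mul_left S (fun _ => c)]
  ring

lemma lc_Ex_T0 (hS : S.Reg) {f : (ι → ℝ) → X → ℝ} (hf : Nh f) :
    S.Ex f = ∫ z, S.T 0 f z ∂(gI ι) :=
  (integral_J ((hS.eg_dn (Nat.zero_le _)).mul (hS.eg_av hf))).symm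

lemma Reg.Ex_const (hS : S.Reg) (c : ℝ) : S.Ex (fun _ _ => c) = c := by
  rw [lc_Ex_T0 hS (fun _ => EG.const c)]
  simp only [hS.T_const (Nat.zero_le _)]
  simp

lemma Reg.Ex_mono (hS : S.Reg) {f g : (ι → ℝ) → X → ℝ} (hf : Nh f) (hg : Nh g)
    (h : ∀ z x, f z x ≤ g z x) : S.Ex f ≤ S.Ex g :=
  integral_mono (lc_int hS hf) (lc_int hS hg)
    fun z => mul_le_mul_of_nonneg_left (av_mono S (h z)) (dn_pos S 0 z).le

lemma Reg.abs_Ex_le (hS : S.Reg) {f : (ι → ℝ) → X → ℝ} (hf : Nh f) :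
    |S.Ex f| ≤ S.Ex (fun z x => |f z x|) := by
  rw [abs_le]
  constructor
  · have h := hS.Ex_mono (f := fun z x => -1 * |f z x|) (Nh.const_mul (-1) (Nh.abs hf)) hf
      (fun z x => by
        have := neg_abs_le (f z x)
        linarith)
    rw [Ex_const_mul] at h
    linarith
  · exact hS.Ex_mono hf (Nh.abs hf) fun z x => le_abs_self _

/-- Cauchy-Schwarz. -/
lemma Reg.Ex_cs (hS : S.Reg) {f g : (ι → ℝ) → X → ℝ} (hf : Nh f) (hg : Nh g) :
    S.Ex (fun z x => f z x * g z x) ^ 2 ≤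
      S.Ex (fun z x => f z x ^ 2) * S.Ex (fun z x => g z x ^ 2) := by
  have h0 : ∀ t : ℝ, 0 ≤ S.Ex (fun z x => g z x ^ 2) * (t * t) +
      (-2 * S.Ex (fun z x => f z x * g z x)) * t + S.Ex (fun z x => f z x ^ 2) := by
    intro t
    have h1 : 0 ≤ S.Ex (fun z x => (f z x - t * g z x) ^ 2) := by
      have h2 := hS.Ex_mono (f := fun _ _ => 0) (g := fun z x => (f z x - t * g z x) ^ 2)
        (fun _ => EG.const _) (Nh.pow (Nh.sub hf (Nh.const_mul t hg)) 2)
        (fun z x => sq_nonneg _)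
      rwa [hS.Ex_const] at h2
    have h2 : S.Ex (fun z x => (f z x - t * g z x) ^ 2) = S.Ex (fun z x => f z x ^ 2) -
        2 * t * S.Ex (fun z x => f z x * g z x) + t * t * S.Ex (fun z x => g z x ^ 2) := by
      have e : (fun (z : ι → ℝ) (x : X) => (f z x - t * g z x) ^ 2) =
          fun z x => (f z x ^ 2 - 2 * t * (f z x * g z x)) + t * t * g z x ^ 2 := by
        funext z x
        ring
      rw [e, hS.Ex_add (Nh.sub (Nh.pow hf 2) (Nh.const_mul _ (Nh.mul hf hg)))
        (Nh.const_mul _ (Nh.pow hg 2)), hS.Ex_sub (Nh.pow hf 2) (Nh.const_mul _ (Nh.mul hf hg)),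
        Ex_const_mul, Ex_const_mul]
    rw [h2] at h1
    linarith
  have h3 := discrim_le_zero h0
  unfold discrim at h3
  nlinarith

lemma Reg.Ex_T (hS : S.Reg) {l : ℕ} (hl : l ≤ S.K) {f : (ι → ℝ) → X → ℝ} (hf : Nh f) :
    S.Ex (fun z _ => S.T l f z) = S.Ex f := by
  rw [lc_Ex_T0 hS (fun _ => hS.eg_T hl hf), lc_Ex_T0 hS hf]
  simp only [hS.T_T (Nat.zero_le _) hl hf]

lemma Reg.Ex_mul_T (hS : S.Reg) {l : ℕ} (hl : l ≤ S.K) {φ : (ι → ℝ) → ℝ} (hφ : Dep S.lev l φ)
    (hφe : EG φ) {f : (ι → ℝ) → X → ℝ} (hf : Nh f) :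
    S.Ex (fun z _ => φ z * S.T l f z) = S.Ex (fun z x => φ z * f z x) := by
  rw [← hS.Ex_T hl (f := fun z x => φ z * f z x) (fun x => hφe.mul (hf x))]
  congr 1
  funext z _
  rw [T_mul_left S hφ]

end Sy

end Vale.Agent.P157.Lv
end
end

section

section

/-!
Derivatives of the log-weights and of the tilted averages, integration by parts.
-/

open MeasureTheory ProbabilityTheory Filter Topology

namespace Vale.Agent.P157.Lv

set_option linter.unusedSectionVars false

variable {ι X : Type} [Fintype ι] [DecidableEq ι] [Fintype X] [Nonempty X] {S : Sy ι X}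
  {D : ι → (ι → ℝ) → X → ℝ}

namespace Sy

lemma RegD.nh (hS : S.RegD D) (e : ι) : Nh (D e) := by
  obtain ⟨C, hC⟩ := hS.bd
  exact fun x => EG.of_bdd (hS.md e x) (C := C) fun y => hC e y x

/-- The derivative of the log-partition function. -/
lemma RegD.pd_top (hS : S.RegD D) (e : ι) : PD e S.top (S.av (D e)) := by
  have h1 : PD e (fun z => ∑ x, Real.exp (S.H z x)) (fun z => ∑ x, Real.exp (S.H z x) * D e z x) :=
    PD.sum Finset.univ fun x _ => (hS.pd e x).exp
  refine (h1.log fun z => (sum_exp_pos z).ne').congr fun z => ?_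
  simp only [av, gb, Finset.sum_div]
  exact Finset.sum_congr rfl fun x _ => by ring

/-- One step of the tilted conditional averages. -/
lemma Reg.T_stepI (hS : S.Reg) {l : ℕ} (hl : l < S.K) {h : (ι → ℝ) → X → ℝ} (hh : Nh h)
    (z : ι → ℝ) : S.T l h z =
      J S.lev l (fun z => Real.exp (S.m (l + 1) * (S.lg (l + 1) z - S.lg l z)) *
        S.T (l + 1) h z) z := by
  have hEG : EG (fun z => S.dn l z * S.av h z) := (hS.eg_dn hl.le).mul (hS.eg_av hh)
  have hdep : Dep S.lev (l + 1) (fun z => Real.exp (S.m (l + 1) * (S.lg (l + 1) z - S.lg l z))) := by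
    intro z w
    have h1 := hS.dep_lg (l := l + 1) hl z w
    have h2 := (hS.dep_lg (l := l) hl.le).mono (Nat.le_succ l) z w
    simp only [h1, h2]
  have key : J S.lev (l + 1) (fun z => S.dn l z * S.av h z) =
      fun z => Real.exp (S.m (l + 1) * (S.lg (l + 1) z - S.lg l z)) * S.T (l + 1) h z := by
    funext z
    have := hdep.J_mul (fun z => S.dn (l + 1) z * S.av h z) z
    rw [T, ← this]
    congr 1
    funext z
    rw [dn_step S hl z]
    ring
  rw [← key]
  exact (J_J (Nat.le_succ l) hEG z).symm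

/-- `∂_e X_l = T_l(∂_e H)`, for the coordinates of level at most `l`. -/
theorem RegD.pd_lg (hS : S.RegD D) {l : ℕ} (hl : l ≤ S.K) {e : ι} (he : S.lev e ≤ l) :
    PD e (S.lg l) (S.T l (D e)) := by
  revert he
  refine down_ind (P := fun l => S.lev e ≤ l → PD e (S.lg l) (S.T l (D e))) ?_ ?_ l hl
  · intro _
    rw [lg_top]
    exact (hS.pd_top e).congr fun z => (hS.toReg.T_top (D e) z).symm
  · intro l hl ih he
    have h1 := ih (he.trans (Nat.le_succ l))
    have hm : 0 < S.m (l + 1) := hS.toReg.m_pos (Nat.succ_le_succ (Nat.zero_le l)) (by omega)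
    have hLip := hS.toReg.lip_lg (l := l + 1) hl
    have hEGe : EG (fun z => Real.exp (S.m (l + 1) * S.lg (l + 1) z)) := hLip.exp_eg _
    have hEGT : EG (S.T (l + 1) (D e)) := hS.toReg.eg_T hl (hS.nh e)
    have h2 : PD e (J S.lev l (fun z => Real.exp (S.m (l + 1) * S.lg (l + 1) z)))
        (J S.lev l (fun z => Real.exp (S.m (l + 1) * S.lg (l + 1) z) *
          (S.m (l + 1) * S.T (l + 1) (D e) z))) :=
      PD.J (h1.const_mul (S.m (l + 1))).exp hEGe (hEGe.mul (hEGT.const_mul _)) he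
    have hne : ∀ z, J S.lev l (fun z => Real.exp (S.m (l + 1) * S.lg (l + 1) z)) z ≠ 0 :=
      fun z => by rw [hS.toReg.J_exp_lg hl z]; exact (Real.exp_pos _).ne'
    have h3 := (h2.log hne).const_mul (1 / S.m (l + 1))
    rw [lg_step S hl]
    refine PD.congr (H := S.stp l (S.lg (l + 1))) h3 fun z => ?_
    rw [hS.toReg.J_exp_lg hl z, hS.toReg.T_stepI hl (hS.nh e) z]
    have hdep : Dep S.lev l (fun z => Real.exp (-(S.m (l + 1) * S.lg l z))) := by
      intro z w
      have h2 := (hS.toReg.dep_lg (l := l) hl.le) z w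
      simp only [h2]
    have h4 := hdep.J_mul (fun z => Real.exp (S.m (l + 1) * S.lg (l + 1) z) *
      (S.m (l + 1) * S.T (l + 1) (D e) z)) z
    have h5 : J S.lev l (fun z => Real.exp (-(S.m (l + 1) * S.lg l z)) *
        (Real.exp (S.m (l + 1) * S.lg (l + 1) z) * (S.m (l + 1) * S.T (l + 1) (D e) z))) z =
        S.m (l + 1) * J S.lev l (fun z => Real.exp (S.m (l + 1) * (S.lg (l + 1) z - S.lg l z)) *
        S.T (l + 1) (D e) z) z := by
      rw [← J_const_mul]
      congr 1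
      funext z
      have : Real.exp (S.m (l + 1) * (S.lg (l + 1) z - S.lg l z)) =
          Real.exp (-(S.m (l + 1) * S.lg l z)) * Real.exp (S.m (l + 1) * S.lg (l + 1) z) := by
        rw [← Real.exp_add]; congr 1; ring
      rw [this]; ring
    have h6 := h4.symm.trans h5
    rw [Real.exp_neg] at h6
    rw [div_mul_eq_mul_div, one_mul, div_div, div_eq_iff (by positivity)]
    rw [inv_mul_eq_div, div_eq_iff (Real.exp_pos _).ne'] at h6
    rw [h6]; ring

/-- Derivative of the Gibbs weights. -/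
theorem RegD.pd_gb (hS : S.RegD D) (e : ι) (x : X) :
    PD e (fun z => S.gb z x) (fun z => S.gb z x * (D e z x - S.T S.K (D e) z)) := by
  have h1 : PD e (fun z => ∑ x, Real.exp (S.H z x)) (fun z => ∑ x, Real.exp (S.H z x) * D e z x) :=
    PD.sum Finset.univ fun x _ => (hS.pd e x).exp
  refine ((hS.pd e x).exp.div h1 fun z => (sum_exp_pos z).ne').congr fun z => ?_
  rw [hS.toReg.T_top]
  have h0 := (sum_exp_pos (S := S) z).ne'
  have h2 : S.av (D e) z = (∑ x, Real.exp (S.H z x) * D e z x) / ∑ x, Real.exp (S.H z x) := by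
    simp only [av, gb, Finset.sum_div]
    exact Finset.sum_congr rfl fun x _ => by ring
  rw [h2, gb]
  field_simp

/-- Abel summation. -/
lemma abel (m f : ℕ → ℝ) {l K : ℕ} (h : l ≤ K) :
    ∑ i ∈ Finset.Ico l K, m (i + 1) * (f (i + 1) - f i) =
      m (K + 1) * f K - ∑ i ∈ Finset.Ico (l + 1) (K + 1), (m (i + 1) - m i) * f i -
        m (l + 1) * f l := by
  induction K, h using Nat.le_induction with
  | base => simp
  | succ K hK ih =>
    rw [Finset.sum_Ico_succ_top hK, ih, Finset.sum_Ico_succ_top (Nat.succ_le_succ hK)]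
    ring

/-- The derivative of the full density `dn l * gb`, for coordinates of level at most `l`. -/
theorem RegD.pd_dn (hS : S.RegD D) {l : ℕ} (hl : l ≤ S.K) {e : ι} (he : S.lev e ≤ l) :
    PD e (S.dn l) (fun z => S.dn l z * (S.T S.K (D e) z -
      ∑ i ∈ Finset.Ico (l + 1) (S.K + 1), S.p i * S.T i (D e) z - S.m (l + 1) * S.T l (D e) z)) := by
  have h1 : PD e (fun z => ∑ i ∈ Finset.Ico l S.K, S.m (i + 1) * (S.lg (i + 1) z - S.lg i z))
      (fun z => ∑ i ∈ Finset.Ico l S.K, S.m (i + 1) * (S.T (i + 1) (D e) z - S.T i (D e) z)) := by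
    refine PD.sum _ fun i hi => ?_
    obtain ⟨hi1, hi2⟩ := Finset.mem_Ico.1 hi
    exact ((hS.pd_lg (l := i + 1) hi2 (by omega)).sub
      (hS.pd_lg (l := i) hi2.le (by omega))).const_mul _
  refine h1.exp.congr fun z => ?_
  rw [abel S.m (fun i => S.T i (D e) z) hl, hS.mK, one_mul]
  rfl

/-- The derivative of the density for a coordinate of any level. -/
lemma RegD.pd_dn_zero (hS : S.RegD D) (e : ι) :
    PD e (S.dn 0) (fun z => S.dn 0 z * (S.T S.K (D e) z -
      ∑ i ∈ Finset.Ico (S.lev e) (S.K + 1), S.p i * S.T i (D e) z)) := by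
  have hlg : ∀ i ≤ S.K, PD e (S.lg i) (fun z => if S.lev e ≤ i then S.T i (D e) z else 0) := by
    intro i hi
    by_cases he : S.lev e ≤ i
    · simp only [he, if_true]
      exact hS.pd_lg hi he
    · simp only [he, if_false]
      exact (hS.toReg.dep_lg hi).pd (not_le.1 he)
  have h1 : PD e (fun z => ∑ i ∈ Finset.Ico 0 S.K, S.m (i + 1) * (S.lg (i + 1) z - S.lg i z))
      (fun z => ∑ i ∈ Finset.Ico 0 S.K, S.m (i + 1) *
        ((if S.lev e ≤ i + 1 then S.T (i + 1) (D e) z else 0) -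
          (if S.lev e ≤ i then S.T i (D e) z else 0))) := by
    refine PD.sum _ fun i hi => ?_
    obtain ⟨_, hi2⟩ := Finset.mem_Ico.1 hi
    exact ((hlg (i + 1) hi2).sub (hlg i hi2.le)).const_mul _
  refine h1.exp.congr fun z => ?_
  rw [abel S.m (fun i => if S.lev e ≤ i then S.T i (D e) z else 0) (Nat.zero_le S.K), hS.mK,
    one_mul, if_pos (hS.lev e)]
  have h2 : ∑ i ∈ Finset.Ico (S.lev e) (S.K + 1), S.p i * S.T i (D e) z =
      ∑ i ∈ Finset.Ico 0 (S.K + 1), S.p i * (if S.lev e ≤ i then S.T i (D e) z else 0) := by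
    have : Finset.Ico (S.lev e) (S.K + 1) =
        (Finset.Ico 0 (S.K + 1)).filter fun i => S.lev e ≤ i := by
      ext i; simp only [Finset.mem_Ico, Finset.mem_filter]; omega
    rw [this, Finset.sum_filter]
    exact Finset.sum_congr rfl fun i _ => by split_ifs <;> simp
  have h3 := Finset.sum_eq_sum_Ico_succ_bot (Nat.succ_pos S.K)
    (fun i => S.p i * (if S.lev e ≤ i then S.T i (D e) z else 0))
  rw [h2]
  have h4 : S.p 0 = S.m (0 + 1) := by simp [p, hS.m0]
  rw [h3, h4]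
  simp only [p, dn]
  ring

/-- The derivative of a Gibbs average multiplied by a function. -/
lemma RegD.pd_mul_av (hS : S.RegD D) {e : ι} {Y A : (ι → ℝ) → ℝ}
    (hY : PD e Y (fun z => Y z * (S.T S.K (D e) z - A z)))
    {h h' : (ι → ℝ) → X → ℝ} (hd : ∀ x, PD e (fun z => h z x) (fun z => h' z x)) :
    PD e (fun z => Y z * S.av h z)
      (fun z => Y z * S.av (fun z x => h' z x + h z x * (D e z x - A z)) z) := by
  have h1 : PD e (S.av h) (fun z => ∑ x, (S.gb z x * (D e z x - S.T S.K (D e) z) * h z x +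
      S.gb z x * h' z x)) :=
    PD.sum Finset.univ fun x _ => (hS.pd_gb e x).mul (hd x)
  refine (hY.mul h1).congr fun z => ?_
  simp only [av, Finset.mul_sum]
  rw [← Finset.sum_add_distrib]
  exact Finset.sum_congr rfl fun x _ => by ring

/-- Derivative of a tilted average. -/
theorem RegD.pd_T (hS : S.RegD D) {l : ℕ} (hl : l ≤ S.K) {e : ι} (he : S.lev e ≤ l)
    {h h' : (ι → ℝ) → X → ℝ} (hd : ∀ x, PD e (fun z => h z x) (fun z => h' z x)) (hh : Nh h)
    (hh' : Nh h') :
    PD e (S.T l h) (S.T l (fun z x => h' z x + h z x * (D e z x -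
      ∑ i ∈ Finset.Ico (l + 1) (S.K + 1), S.p i * S.T i (D e) z - S.m (l + 1) * S.T l (D e) z))) := by
  have hT : ∀ i ≤ S.K, EG (S.T i (D e)) := fun i hi => hS.toReg.eg_T hi (hS.nh e)
  have hA : EG (fun z => ∑ i ∈ Finset.Ico (l + 1) (S.K + 1), S.p i * S.T i (D e) z) :=
    EG.sum _ fun i hi => (hT i (by have := Finset.mem_Ico.1 hi; omega)).const_mul _
  have hB : EG (fun z => S.m (l + 1) * S.T l (D e) z) := (hT l hl).const_mul _
  have hN : Nh (fun z x => h' z x + h z x * (D e z x -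
      ∑ i ∈ Finset.Ico (l + 1) (S.K + 1), S.p i * S.T i (D e) z - S.m (l + 1) * S.T l (D e) z)) :=
    Nh.add hh' (Nh.mul hh (Nh.sub (Nh.sub (hS.nh e) (Nh.fst hA)) (Nh.fst hB)))
  have h1 : PD e (fun z => S.dn l z * S.av h z) (fun z => S.dn l z * S.av (fun z x =>
      h' z x + h z x * (D e z x - ∑ i ∈ Finset.Ico (l + 1) (S.K + 1), S.p i * S.T i (D e) z -
        S.m (l + 1) * S.T l (D e) z)) z) := by
    have h2 := hS.pd_mul_av (A := fun z => ∑ i ∈ Finset.Ico (l + 1) (S.K + 1),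
      S.p i * S.T i (D e) z + S.m (l + 1) * S.T l (D e) z)
      ((hS.pd_dn hl he).congr fun z => by rw [sub_sub]) hd
    refine h2.congr fun z => ?_
    simp only [sub_sub]
  exact PD.J h1 ((hS.toReg.eg_dn hl).mul (hS.toReg.eg_av hh))
    ((hS.toReg.eg_dn hl).mul (hS.toReg.eg_av hN)) he

/-- **Integration by parts.** -/
theorem RegD.ibp (hS : S.RegD D) (e : ι) {h h' : (ι → ℝ) → X → ℝ}
    (hd : ∀ x, PD e (fun z => h z x) (fun z => h' z x)) (hh : Nh h) (hh' : Nh h') :
    S.Ex (fun z x => z e * h z x) = S.Ex (fun z x => h' z x + h z x * (D e z x -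
      ∑ l ∈ Finset.Ico (S.lev e) (S.K + 1), S.p l * S.T l (D e) z)) := by
  have hT : ∀ i ≤ S.K, EG (S.T i (D e)) := fun i hi => hS.toReg.eg_T hi (hS.nh e)
  have hA : EG (fun z => ∑ i ∈ Finset.Ico (S.lev e) (S.K + 1), S.p i * S.T i (D e) z) :=
    EG.sum _ fun i hi => (hT i (by have := Finset.mem_Ico.1 hi; omega)).const_mul _
  have hN : Nh (fun z x => h' z x + h z x * (D e z x -
      ∑ i ∈ Finset.Ico (S.lev e) (S.K + 1), S.p i * S.T i (D e) z)) :=
    Nh.add hh' (Nh.mul hh (Nh.sub (hS.nh e) (Nh.fst hA)))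
  have h1 := hS.pd_mul_av (hS.pd_dn_zero e) hd
  have h2 := PD.stein h1 ((hS.toReg.eg_dn (Nat.zero_le _)).mul (hS.toReg.eg_av hh))
    ((hS.toReg.eg_dn (Nat.zero_le _)).mul (hS.toReg.eg_av hN))
  rw [Ex, Ex, ← h2]
  congr 1
  funext z
  rw [av_mul_left S (fun z => z e) h z]
  ring

end Sy

end Vale.Agent.P157.Lv
end
end

section

section

/-!
Synchronization: if the fields `∑ z_{l,i} φ_i(x)` of all levels are concentrated, then the overlap
of two replicas is concentrated given the level at which they split (up to the increments of the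
overlap path).
-/

open MeasureTheory ProbabilityTheory Filter Topology

namespace Vale.Agent.P157.Lv

set_option linter.unusedSectionVars false

variable {ι X : Type} [Fintype ι] [DecidableEq ι] [Fintype X] [DecidableEq X] [Nonempty X]
  {S : Sy ι X} {D : ι → (ι → ℝ) → X → ℝ} {N : ℕ}

/-- The overlap of two configurations. -/
noncomputable def Rov (φ : X → Fin N → ℝ) (x x' : X) : ℝ := 1 / N * ∑ i, φ x i * φ x' i

/-- The field of the level `l`, divided by `N`. -/
noncomputable def hz (φ : X → Fin N → ℝ) (zc : ℕ → Fin N → ι) (l : ℕ) (z : ι → ℝ) (x : X) : ℝ :=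
  1 / N * ∑ i, z (zc l i) * φ x i

namespace Sy

/-- The magnetization given the levels at most `l`. -/
noncomputable def mg (S : Sy ι X) (φ : X → Fin N → ℝ) (l : ℕ) (i : Fin N) : (ι → ℝ) → ℝ :=
  S.T l (fun _ x => φ x i)

/-- The overlap of two replicas which split at the level `l`. -/
noncomputable def Rl (S : Sy ι X) (φ : X → Fin N → ℝ) (l : ℕ) : ℝ :=
  1 / N * S.Ex (fun z _ => ∑ i, S.mg φ l i z ^ 2)

/-- The conditional law of the configuration given the levels at most `l`. -/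
noncomputable def pr (S : Sy ι X) (l : ℕ) (z : ι → ℝ) (x : X) : ℝ :=
  S.T l (fun _ y => if y = x then 1 else 0) z

/-- The average over two replicas which split at the level `l`. -/
noncomputable def pairEx (S : Sy ι X) (l : ℕ) (ψ : X → X → ℝ) : ℝ :=
  S.Ex (fun z _ => ∑ x, ∑ x', S.pr l z x * S.pr l z x' * ψ x x')

end Sy

/-- The system contains the fields `s_l ∑_i z_{l,i} φ_i(x)`. -/
structure Fld (S : Sy ι X) (D : ι → (ι → ℝ) → X → ℝ) (φ : X → Fin N → ℝ) (zc : ℕ → Fin N → ι)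
    (s : ℕ → ℝ) : Prop where
  reg : S.RegD D
  N0 : 0 < N
  norm : ∀ x, ∑ i, φ x i ^ 2 = N
  lev : ∀ l ≤ S.K, ∀ i, S.lev (zc l i) = l
  D : ∀ l ≤ S.K, ∀ i z x, D (zc l i) z x = s l * φ x i
  pos : ∀ l ≤ S.K, 0 ≤ s l

namespace Sy

variable {φ : X → Fin N → ℝ} {zc : ℕ → Fin N → ι} {s : ℕ → ℝ}

omit [Fintype ι] [DecidableEq ι] [Fintype X] [DecidableEq X] [Nonempty X] in
lemma lvp_sq {κ : Type} [Fintype κ] (w f : κ → ℝ) (hw : ∀ i, 0 ≤ w i) (h1 : ∑ i, w i = 1) :
    (∑ i, w i * f i) ^ 2 ≤ ∑ i, w i * f i ^ 2 := by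
  set m := ∑ i, w i * f i with hm
  have h : 0 ≤ ∑ i, w i * (f i - m) ^ 2 :=
    Finset.sum_nonneg fun i _ => mul_nonneg (hw i) (sq_nonneg _)
  have e : ∑ i, w i * (f i - m) ^ 2 = ∑ i, w i * f i ^ 2 - 2 * m * m + m ^ 2 := by
    have e1 : ∀ i, w i * (f i - m) ^ 2 = w i * f i ^ 2 - 2 * m * (w i * f i) + m ^ 2 * w i := by
      intro i; ring
    simp_rw [e1]
    rw [Finset.sum_add_distrib, Finset.sum_sub_distrib, ← Finset.mul_sum, ← Finset.mul_sum, h1,
      ← hm, mul_one]
  rw [e] at h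
  linarith [sq m]

lemma Reg.pr_nonneg (hS : S.Reg) {l : ℕ} (hl : l ≤ S.K) (z : ι → ℝ) (x : X) : 0 ≤ S.pr l z x := by
  have h := hS.T_mono hl (f := fun _ _ => (0 : ℝ)) (g := fun _ y => if y = x then (1 : ℝ) else 0)
    (Nh.snd fun _ => 0) (Nh.snd fun y => if y = x then (1 : ℝ) else 0)
    (fun z y => by split_ifs <;> norm_num) z
  rw [hS.T_const hl] at h
  exact h

lemma Reg.T_pr (hS : S.Reg) {l : ℕ} (hl : l ≤ S.K) (h : X → ℝ) (z : ι → ℝ) :
    S.T l (fun _ x => h x) z = ∑ x, S.pr l z x * h x := by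
  have e : (fun (_ : ι → ℝ) (x : X) => h x) =
      fun (z : ι → ℝ) (y : X) => ∑ x, h x * (fun (_ : ι → ℝ) (y : X) =>
        if y = x then (1 : ℝ) else 0) z y := by
    funext z y
    simp
  rw [e, hS.T_sum hl Finset.univ (fun x _ => Nh.const_mul _
    (Nh.snd fun y => if y = x then (1 : ℝ) else 0))]
  refine Finset.sum_congr rfl fun x _ => ?_
  rw [T_const_mul, mul_comm]
  rfl

lemma Reg.sum_pr (hS : S.Reg) {l : ℕ} (hl : l ≤ S.K) (z : ι → ℝ) : ∑ x, S.pr l z x = 1 := by
  have h := hS.T_pr hl (fun _ => 1) z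
  rw [hS.T_const hl] at h
  rw [h]
  simp

lemma Reg.eg_pr (hS : S.Reg) {l : ℕ} (hl : l ≤ S.K) (x : X) : EG fun z => S.pr l z x :=
  hS.eg_T hl (Nh.snd fun y => if y = x then (1 : ℝ) else 0)

lemma Reg.nh_pair (hS : S.Reg) {l : ℕ} (hl : l ≤ S.K) (ψ : X → X → ℝ) :
    EG (fun z => ∑ x, ∑ x', S.pr l z x * S.pr l z x' * ψ x x') :=
  EG.sum _ fun x _ => EG.sum _ fun x' _ =>
    ((hS.eg_pr hl x).mul (hS.eg_pr hl x')).mul (EG.const _)

lemma Reg.pairEx_mono (hS : S.Reg) {l : ℕ} (hl : l ≤ S.K) {ψ ψ' : X → X → ℝ}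
    (h : ∀ x x', ψ x x' ≤ ψ' x x') : S.pairEx l ψ ≤ S.pairEx l ψ' := by
  refine hS.Ex_mono (Nh.fst (hS.nh_pair hl ψ)) (Nh.fst (hS.nh_pair hl ψ')) fun z _ => ?_
  refine Finset.sum_le_sum fun x _ => Finset.sum_le_sum fun x' _ => ?_
  exact mul_le_mul_of_nonneg_left (h x x')
    (mul_nonneg (hS.pr_nonneg hl z x) (hS.pr_nonneg hl z x'))

lemma Reg.pairEx_const (hS : S.Reg) {l : ℕ} (hl : l ≤ S.K) (c : ℝ) :
    S.pairEx l (fun _ _ => c) = c := by
  have e : (fun (z : ι → ℝ) (_ : X) => ∑ x, ∑ x', S.pr l z x * S.pr l z x' * c) =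
      fun _ _ => c := by
    funext z _
    simp_rw [mul_assoc, ← Finset.mul_sum, ← Finset.sum_mul]
    rw [hS.sum_pr hl, one_mul, one_mul]
  rw [pairEx, e, hS.Ex_const]

lemma Reg.pairEx_nonneg (hS : S.Reg) {l : ℕ} (hl : l ≤ S.K) {ψ : X → X → ℝ}
    (h : ∀ x x', 0 ≤ ψ x x') : 0 ≤ S.pairEx l ψ := by
  rw [← hS.pairEx_const hl 0]
  exact hS.pairEx_mono hl h

lemma Reg.pairEx_add (hS : S.Reg) {l : ℕ} (hl : l ≤ S.K) (ψ ψ' : X → X → ℝ) :
    S.pairEx l (fun x x' => ψ x x' + ψ' x x') = S.pairEx l ψ + S.pairEx l ψ' := by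
  rw [pairEx, pairEx, pairEx, ← hS.Ex_add (Nh.fst (hS.nh_pair hl ψ)) (Nh.fst (hS.nh_pair hl ψ'))]
  congr 1
  funext z _
  rw [← Finset.sum_add_distrib]
  refine Finset.sum_congr rfl fun x _ => ?_
  rw [← Finset.sum_add_distrib]
  refine Finset.sum_congr rfl fun x' _ => ?_
  rw [mul_add]

lemma Reg.pairEx_const_mul (_hS : S.Reg) (l : ℕ) (c : ℝ) (ψ : X → X → ℝ) :
    S.pairEx l (fun x x' => c * ψ x x') = c * S.pairEx l ψ := by
  rw [pairEx, pairEx, ← Ex_const_mul]
  congr 1
  funext z _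
  rw [Finset.mul_sum]
  refine Finset.sum_congr rfl fun x _ => ?_
  rw [Finset.mul_sum]
  refine Finset.sum_congr rfl fun x' _ => ?_
  ring

lemma Reg.pair_cs (hS : S.Reg) {l : ℕ} (hl : l ≤ S.K) (ψ : X → X → ℝ) (z : ι → ℝ) :
    (∑ x, ∑ x', S.pr l z x * S.pr l z x' * ψ x x') ^ 2 ≤
      ∑ x, ∑ x', S.pr l z x * S.pr l z x' * ψ x x' ^ 2 := by
  have hw : ∀ p ∈ (Finset.univ : Finset (X × X)), 0 ≤ S.pr l z p.1 * S.pr l z p.2 := fun p _ =>
    mul_nonneg (hS.pr_nonneg hl z p.1) (hS.pr_nonneg hl z p.2)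
  have h1 : ∑ p : X × X, S.pr l z p.1 * S.pr l z p.2 = 1 := by
    rw [Fintype.sum_prod_type]
    simp_rw [← Finset.mul_sum]
    rw [hS.sum_pr hl]
    simp_rw [mul_one]
    exact hS.sum_pr hl z
  have h := lvp_sq (fun p : X × X => S.pr l z p.1 * S.pr l z p.2) (fun p => ψ p.1 p.2)
    (fun p => hw p (Finset.mem_univ _)) h1
  rw [Fintype.sum_prod_type, Fintype.sum_prod_type] at h
  exact h

lemma Reg.pairEx_abs_le (hS : S.Reg) {l : ℕ} (hl : l ≤ S.K) (ψ : X → X → ℝ) :
    S.pairEx l (fun x x' => |ψ x x'|) ≤ √(S.pairEx l (fun x x' => ψ x x' ^ 2)) := by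
  refine Real.le_sqrt_of_sq_le ?_
  have h1 := hS.Ex_cs (Nh.fst (X := X) (hS.nh_pair hl fun x x' => |ψ x x'|))
    (Nh.fst (X := X) (EG.const (1 : ℝ)))
  simp only [mul_one, one_pow, hS.Ex_const] at h1
  refine h1.trans (hS.Ex_mono (Nh.fst ((hS.nh_pair hl _).pow 2)) (Nh.fst (hS.nh_pair hl _))
    fun z _ => ?_)
  refine (hS.pair_cs hl (fun x x' => |ψ x x'|) z).trans (le_of_eq ?_)
  simp only [sq_abs]

end Sy

namespace Fld

open Sy

variable {φ : X → Fin N → ℝ} {zc : ℕ → Fin N → ι} {s : ℕ → ℝ} (F : Fld S D φ zc s)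

include F

lemma N_pos : (0 : ℝ) < N := by exact_mod_cast F.N0

lemma hreg : S.Reg := F.reg.toReg

lemma abs_Rov_le (x x' : X) : |Rov φ x x'| ≤ 1 := by
  have hN := F.N_pos
  have h := Finset.sum_mul_sq_le_sq_mul_sq Finset.univ (φ x) (φ x')
  rw [F.norm, F.norm] at h
  have h1 : Rov φ x x' ^ 2 ≤ 1 := by
    rw [Rov, mul_pow, one_div, inv_pow, inv_mul_le_iff₀ (by positivity)]
    linarith [sq (N : ℝ)]
  exact abs_le_one_iff_mul_self_le_one.mpr (by linarith [sq (Rov φ x x')])

omit F in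
lemma mg_eq (hS : S.Reg) {l : ℕ} (hl : l ≤ S.K) (i : Fin N) (z : ι → ℝ) :
    S.mg φ l i z = ∑ x, S.pr l z x * φ x i := hS.T_pr hl (fun x => φ x i) z

omit F in
lemma eg_mg (hS : S.Reg) {l : ℕ} (hl : l ≤ S.K) (i : Fin N) : EG (S.mg φ l i) :=
  hS.eg_T hl (Nh.snd fun x => φ x i)

omit F in
lemma dep_mg (S : Sy ι X) (φ : X → Fin N → ℝ) (l : ℕ) (i : Fin N) : Dep S.lev l (S.mg φ l i) :=
  S.dep_T l (fun _ x => φ x i)

omit F in
lemma sum_mg_sq (hS : S.Reg) {l : ℕ} (hl : l ≤ S.K) (z : ι → ℝ) :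
    1 / N * ∑ i, S.mg φ l i z ^ 2 = ∑ x, ∑ x', S.pr l z x * S.pr l z x' * Rov φ x x' := by
  have e : ∀ i, S.mg φ l i z ^ 2 =
      ∑ x, ∑ x', S.pr l z x * S.pr l z x' * (φ x i * φ x' i) := by
    intro i
    rw [mg_eq hS hl, sq, Finset.sum_mul_sum]
    refine Finset.sum_congr rfl fun x _ => Finset.sum_congr rfl fun x' _ => ?_
    ring
  simp_rw [e]
  rw [Finset.sum_comm, Finset.mul_sum]
  refine Finset.sum_congr rfl fun x _ => ?_
  rw [Finset.sum_comm, Finset.mul_sum]
  refine Finset.sum_congr rfl fun x' _ => ?_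
  rw [← Finset.mul_sum, Rov]
  ring

lemma Rl_eq_pairEx {l : ℕ} (hl : l ≤ S.K) : S.Rl φ l = S.pairEx l (Rov φ) := by
  rw [Sy.Rl, Sy.pairEx, ← Sy.Ex_const_mul]
  congr 1
  funext z _
  exact sum_mg_sq F.hreg hl z

lemma Rl_nonneg {l : ℕ} (hl : l ≤ S.K) : 0 ≤ S.Rl φ l := by
  rw [Sy.Rl, ← Sy.Ex_const_mul, ← F.hreg.Ex_const 0]
  refine F.hreg.Ex_mono (Nh.fst (EG.const 0)) (Nh.fst (EG.const_mul _ (EG.sum _ fun i _ =>
    (eg_mg F.hreg hl i).pow 2))) fun z _ => ?_
  have := F.N_pos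
  positivity

lemma Rl_le_one {l : ℕ} (hl : l ≤ S.K) : S.Rl φ l ≤ 1 := by
  rw [F.Rl_eq_pairEx hl, ← F.hreg.pairEx_const hl 1]
  exact F.hreg.pairEx_mono hl fun x x' => (le_abs_self _).trans (F.abs_Rov_le x x')

omit F in
/-- the field `u_l = m_l · x / N` -/
noncomputable def uu (S : Sy ι X) (φ : X → Fin N → ℝ) (l : ℕ) : (ι → ℝ) → X → ℝ :=
  fun z x => 1 / N * ∑ a, S.mg φ l a z * φ x a

omit F in
lemma nh_uu (hS : S.Reg) {l : ℕ} (hl : l ≤ S.K) : Nh (uu S φ l) :=
  Nh.const_mul _ (Nh.sum _ fun a _ => Nh.mul (Nh.fst (eg_mg hS hl a)) (Nh.snd fun x => φ x a))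

omit F in
/-- `E (m_l,a φ_a) = E m_{l,a}²` for `l ≤ k`, in the form `E (m_l m_k) = E m_l²` -/
lemma Ex_mg_mul (hS : S.Reg) {l k : ℕ} (hlk : l ≤ k) (hk : k ≤ S.K) (a : Fin N) :
    S.Ex (fun z _ => S.mg φ l a z * S.mg φ k a z) = S.Ex (fun z _ => S.mg φ l a z ^ 2) := by
  have hl := hlk.trans hk
  have h1 := hS.Ex_mul_T hk ((S.dep_T l (fun _ x => φ x a)).mono hlk) (eg_mg hS hl a)
    (Nh.snd fun x => φ x a)
  have h2 := hS.Ex_mul_T hl (S.dep_T l (fun _ x => φ x a)) (eg_mg hS hl a)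
    (Nh.snd fun x => φ x a)
  have h3 : (fun (z : ι → ℝ) (_ : X) => S.mg φ l a z ^ 2) =
      fun z _ => S.mg φ l a z * S.mg φ l a z := by
    funext z _; rw [sq]
  rw [h3]
  exact h1.trans h2.symm

lemma Ex_uu {l : ℕ} (hl : l ≤ S.K) : S.Ex (uu S φ l) = S.Rl φ l := by
  have hS := F.hreg
  have e : uu S φ l = fun z x => 1 / N * ∑ a, S.mg φ l a z * φ x a := rfl
  rw [e, Sy.Ex_const_mul, Sy.Rl, hS.Ex_sum _ fun a _ =>
    Nh.mul (Nh.fst (eg_mg hS hl a)) (Nh.snd fun x => φ x a),
    hS.Ex_sum _ fun a _ => Nh.fst ((eg_mg hS hl a).pow 2)]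
  congr 1
  refine Finset.sum_congr rfl fun a _ => ?_
  have h2 := hS.Ex_mul_T hl (S.dep_T l (fun _ x => φ x a)) (eg_mg hS hl a)
    (Nh.snd fun x => φ x a)
  rw [← Ex_mg_mul hS le_rfl hl]
  exact h2.symm

/-- The overlaps increase: `E|m_{l+1} - m_l|² = N (R_{l+1} - R_l)`. -/
lemma Rl_sub {l : ℕ} (hl : l < S.K) :
    1 / N * S.Ex (fun z _ => ∑ i, (S.mg φ (l + 1) i z - S.mg φ l i z) ^ 2) =
      S.Rl φ (l + 1) - S.Rl φ l := by
  have hS := F.hreg
  have e1 := eg_mg (φ := φ) hS (l := l + 1) hl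
  have e0 := eg_mg (φ := φ) hS (l := l) hl.le
  rw [Sy.Rl, Sy.Rl, ← mul_sub]
  congr 1
  rw [hS.Ex_sum _ fun i _ => Nh.fst (((e1 i).sub (e0 i)).pow 2),
    hS.Ex_sum _ fun i _ => Nh.fst ((e1 i).pow 2), hS.Ex_sum _ fun i _ => Nh.fst ((e0 i).pow 2),
    ← Finset.sum_sub_distrib]
  refine Finset.sum_congr rfl fun i _ => ?_
  have h1 : (fun (z : ι → ℝ) (_ : X) => (S.mg φ (l + 1) i z - S.mg φ l i z) ^ 2) =
      fun z x => ((fun (z : ι → ℝ) (_ : X) => S.mg φ (l + 1) i z ^ 2) z x -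
        (fun (z : ι → ℝ) (_ : X) => 2 * (S.mg φ l i z * S.mg φ (l + 1) i z)) z x) +
        (fun (z : ι → ℝ) (_ : X) => S.mg φ l i z ^ 2) z x := by
    funext z _
    ring
  rw [h1, hS.Ex_add (Nh.sub (Nh.fst ((e1 i).pow 2))
    (Nh.fst (EG.const_mul 2 ((e0 i).mul (e1 i))))) (Nh.fst ((e0 i).pow 2)),
    hS.Ex_sub (Nh.fst ((e1 i).pow 2)) (Nh.fst (EG.const_mul 2 ((e0 i).mul (e1 i)))),
    Sy.Ex_const_mul, Ex_mg_mul hS (Nat.le_succ l) hl]
  ring

/-- integration by parts for the coordinates of the fields -/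
lemma ibp' {j : ℕ} (hj : j ≤ S.K) (i : Fin N) {h h' : (ι → ℝ) → X → ℝ}
    (hd : ∀ x, PD (zc j i) (fun z => h z x) (fun z => h' z x)) (hh : Nh h) (hh' : Nh h') :
    S.Ex (fun z x => z (zc j i) * h z x) = S.Ex (fun z x => h' z x + h z x * (s j * φ x i -
      ∑ k ∈ Finset.Ico j (S.K + 1), S.p k * (s j * S.mg φ k i z))) := by
  rw [F.reg.ibp (zc j i) hd hh hh', F.lev j hj i]
  congr 1
  funext z x
  rw [F.D j hj i]
  have e : D (zc j i) = fun z x => s j * φ x i := by
    funext z x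
    exact F.D j hj i z x
  rw [e]
  simp only [Sy.T_const_mul]
  rfl

/-- the average of the field of the level `j` against an observable -/
lemma Ex_hz_mul {j : ℕ} (hj : j ≤ S.K) {u : (ι → ℝ) → X → ℝ} {u' : Fin N → (ι → ℝ) → X → ℝ}
    (hd : ∀ i x, PD (zc j i) (fun z => u z x) (fun z => u' i z x)) (hu : Nh u)
    (hu' : ∀ i, Nh (u' i)) :
    S.Ex (fun z x => hz φ zc j z x * u z x) =
      S.Ex (fun z x => 1 / N * ∑ i, φ x i * u' i z x) +
        s j * (S.Ex u - ∑ k ∈ Finset.Ico j (S.K + 1), S.p k *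
          S.Ex (fun z x => u z x * uu S φ k z x)) := by
  have hS := F.hreg
  have hN := F.N_pos
  have hk : ∀ k ∈ Finset.Ico j (S.K + 1), k ≤ S.K := fun k hk => by
    rw [Finset.mem_Ico] at hk; omega
  -- termwise integration by parts
  have h1 : ∀ i, S.Ex (fun z x => z (zc j i) * (φ x i * u z x)) =
      S.Ex (fun z x => φ x i * u' i z x + φ x i * u z x * (s j * φ x i -
        ∑ k ∈ Finset.Ico j (S.K + 1), S.p k * (s j * S.mg φ k i z))) := fun i =>
    F.ibp' hj i (h := fun z x => φ x i * u z x) (h' := fun z x => φ x i * u' i z x)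
      (fun x => (hd i x).const_mul (φ x i)) (Nh.mul (Nh.snd fun x => φ x i) hu)
      (Nh.mul (Nh.snd fun x => φ x i) (hu' i))
  have nz : ∀ i, Nh (fun (z : ι → ℝ) (x : X) => z (zc j i) * (φ x i * u z x)) := fun i =>
    Nh.mul (Nh.fst (EG.coord _)) (Nh.mul (Nh.snd fun x => φ x i) hu)
  have nk : ∀ k ∈ Finset.Ico j (S.K + 1), ∀ i, Nh (fun (z : ι → ℝ) (_ : X) =>
      S.p k * (s j * S.mg φ k i z)) := fun k hk' i =>
    Nh.fst (EG.const_mul _ (EG.const_mul _ (eg_mg hS (hk k hk') i)))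
  have nr : ∀ i, Nh (fun (z : ι → ℝ) (x : X) => φ x i * u' i z x + φ x i * u z x * (s j * φ x i -
        ∑ k ∈ Finset.Ico j (S.K + 1), S.p k * (s j * S.mg φ k i z))) := fun i =>
    Nh.add (Nh.mul (Nh.snd fun x => φ x i) (hu' i)) (Nh.mul (Nh.mul (Nh.snd fun x => φ x i) hu)
      (Nh.sub (Nh.const_mul _ (Nh.snd fun x => φ x i)) (Nh.sum _ fun k hk' => nk k hk' i)))
  have e1 : S.Ex (fun z x => hz φ zc j z x * u z x) =
      1 / N * ∑ i, S.Ex (fun z x => z (zc j i) * (φ x i * u z x)) := by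
    rw [← hS.Ex_sum _ fun i _ => nz i, ← Sy.Ex_const_mul]
    congr 1
    funext z x
    rw [hz, mul_assoc, Finset.sum_mul]
    congr 1
    refine Finset.sum_congr rfl fun i _ => ?_
    ring
  rw [e1]
  simp_rw [h1]
  rw [← hS.Ex_sum _ fun i _ => nr i, ← Sy.Ex_const_mul]
  have e2 : (fun (z : ι → ℝ) (x : X) => 1 / (N : ℝ) * ∑ i, (φ x i * u' i z x +
      φ x i * u z x * (s j * φ x i -
        ∑ k ∈ Finset.Ico j (S.K + 1), S.p k * (s j * S.mg φ k i z)))) =
      fun z x => (fun (z : ι → ℝ) (x : X) => 1 / (N : ℝ) * ∑ i, φ x i * u' i z x) z x +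
        (fun (z : ι → ℝ) (x : X) => s j * (u z x - ∑ k ∈ Finset.Ico j (S.K + 1),
          S.p k * (u z x * uu S φ k z x))) z x := by
    funext z x
    rw [Finset.sum_add_distrib, mul_add]
    congr 1
    have e3 : ∑ i, φ x i * u z x * (s j * φ x i -
        ∑ k ∈ Finset.Ico j (S.K + 1), S.p k * (s j * S.mg φ k i z)) =
        s j * (u z x * ∑ i, φ x i ^ 2) - s j * ∑ k ∈ Finset.Ico j (S.K + 1), S.p k *
          (u z x * ∑ i, S.mg φ k i z * φ x i) := by
      simp_rw [mul_sub]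
      rw [Finset.sum_sub_distrib]
      congr 1
      · rw [Finset.mul_sum, Finset.mul_sum]
        refine Finset.sum_congr rfl fun i _ => ?_
        ring
      · simp_rw [Finset.mul_sum]
        rw [Finset.sum_comm]
        refine Finset.sum_congr rfl fun k _ => Finset.sum_congr rfl fun i _ => ?_
        ring
    rw [e3, F.norm]
    have e4 : ∀ k, S.p k * (u z x * uu S φ k z x) =
        1 / N * (S.p k * (u z x * ∑ i, S.mg φ k i z * φ x i)) := by
      intro k
      rw [uu]
      ring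
    simp_rw [e4]
    rw [← Finset.mul_sum]
    field_simp
  rw [e2]
  have nu : ∀ k ∈ Finset.Ico j (S.K + 1), Nh (fun (z : ι → ℝ) (x : X) =>
      S.p k * (u z x * uu S φ k z x)) := fun k hk' =>
    Nh.const_mul _ (Nh.mul hu (nh_uu hS (hk k hk')))
  rw [hS.Ex_add (Nh.const_mul _ (Nh.sum _ fun i _ => Nh.mul (Nh.snd fun x => φ x i) (hu' i)))
    (Nh.const_mul _ (Nh.sub hu (Nh.sum _ nu)))]
  congr 1
  rw [Sy.Ex_const_mul, hS.Ex_sub hu (Nh.sum _ nu), hS.Ex_sum _ nu]
  congr 2
  refine Finset.sum_congr rfl fun k _ => ?_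
  rw [Sy.Ex_const_mul]

/-- The mean of the field of the level `l`. -/
theorem Ex_hz {l : ℕ} (hl : l ≤ S.K) :
    S.Ex (hz φ zc l) = s l * (1 - ∑ i ∈ Finset.Ico l (S.K + 1), S.p i * S.Rl φ i) := by
  have hS := F.hreg
  have h := F.Ex_hz_mul hl (u := fun _ _ => 1) (u' := fun _ _ _ => 0)
    (fun i x => PD.const 1) (Nh.fst (EG.const 1)) (fun i => Nh.fst (EG.const 0))
  simp only [mul_one, one_mul, mul_zero, Finset.sum_const_zero, hS.Ex_const, zero_add] at h
  rw [show S.Ex (hz φ zc l) = S.Ex (fun z x => hz φ zc l z x) from rfl, h]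
  congr 2
  refine Finset.sum_congr rfl fun k hk => ?_
  rw [Finset.mem_Ico] at hk
  rw [← F.Ex_uu (by omega : k ≤ S.K)]

/-- (A): `u_l = m_l · x / N` and `u_i` are uncorrelated for `i > l`. -/
theorem ident_A {l j : ℕ} (hlj : l < j) (hj : j ≤ S.K) :
    S.Ex (fun z x => hz φ zc j z x * (1 / N * ∑ i, S.mg φ l i z * φ x i)) =
      s j * (S.Rl φ l - ∑ i ∈ Finset.Ico j (S.K + 1), S.p i *
        S.Ex (fun z x => (1 / N * ∑ a, S.mg φ l a z * φ x a) *
          (1 / N * ∑ a, S.mg φ i a z * φ x a))) := by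
  have hS := F.hreg
  have hl : l ≤ S.K := hlj.le.trans hj
  have hd : ∀ i x, PD (zc j i) (fun z => uu S φ l z x) (fun _ => 0) := by
    intro i x
    refine Dep.pd (lev := S.lev) (l := l) ?_ (by rw [F.lev j hj]; exact hlj)
    intro z w
    simp only [uu]
    congr 1
    refine Finset.sum_congr rfl fun a _ => ?_
    congr 1
    exact S.dep_T l (fun _ x => φ x a) z w
  have h := F.Ex_hz_mul hj (u := uu S φ l) (u' := fun _ _ _ => 0) hd (nh_uu hS hl)
    (fun i => Nh.fst (EG.const 0))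
  simp only [mul_zero, Finset.sum_const_zero, hS.Ex_const, zero_add] at h
  rw [F.Ex_uu hl] at h
  exact h

/-- the derivative of the magnetization -/
lemma pd_mg {l : ℕ} (hl : l ≤ S.K) (a b : Fin N) :
    PD (zc l b) (S.mg φ l a) (fun z => s l * (S.T l (fun _ x => φ x a * φ x b) z -
      ∑ k ∈ Finset.Ico (l + 1) (S.K + 1), S.p k * S.T l (fun z _ => S.mg φ k a z * S.mg φ k b z) z -
      S.m (l + 1) * (S.mg φ l a z * S.mg φ l b z))) := by
  have hS := F.hreg
  have h := F.reg.pd_T hl (e := zc l b) (F.lev l hl b).le (h := fun _ x => φ x a)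
    (h' := fun _ _ => 0) (fun x => PD.const _) (Nh.snd fun x => φ x a) (Nh.fst (EG.const 0))
  refine h.congr fun z => ?_
  have hD : D (zc l b) = fun z x => s l * φ x b := by
    funext z x
    exact F.D l hl b z x
  have hk : ∀ k ∈ Finset.Ico (l + 1) (S.K + 1), k ≤ S.K := fun k hk => by
    rw [Finset.mem_Ico] at hk; omega
  have hlk : ∀ k ∈ Finset.Ico (l + 1) (S.K + 1), l ≤ k := fun k hk => by
    rw [Finset.mem_Ico] at hk; omega
  have na : Nh (ι := ι) (fun _ x => φ x a) := Nh.snd fun x => φ x a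
  have nab : Nh (ι := ι) (fun _ x => φ x a * φ x b) := Nh.snd fun x => φ x a * φ x b
  have nk : ∀ k ∈ Finset.Ico (l + 1) (S.K + 1), Nh (fun (z : ι → ℝ) (x : X) =>
      S.p k * (φ x a * S.mg φ k b z)) := fun k hk' =>
    Nh.const_mul _ (Nh.mul na (Nh.fst (eg_mg hS (hk k hk') b)))
  have nl : Nh (fun (z : ι → ℝ) (x : X) => S.m (l + 1) * (S.mg φ l b z * φ x a)) :=
    Nh.const_mul _ (Nh.mul (Nh.fst (eg_mg hS hl b)) na)
  have e : (fun (z : ι → ℝ) (x : X) => (0 : ℝ) + φ x a * (D (zc l b) z x -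
      ∑ i ∈ Finset.Ico (l + 1) (S.K + 1), S.p i * S.T i (D (zc l b)) z -
        S.m (l + 1) * S.T l (D (zc l b)) z)) =
      fun z x => s l * ((φ x a * φ x b - ∑ k ∈ Finset.Ico (l + 1) (S.K + 1),
        S.p k * (φ x a * S.mg φ k b z)) - S.m (l + 1) * (S.mg φ l b z * φ x a)) := by
    funext z x
    rw [hD]
    simp only [Sy.T_const_mul]
    have e1 : ∀ k, S.T k (fun _ x => φ x b) z = S.mg φ k b z := fun k => rfl
    simp only [e1]
    have e2 : ∑ i ∈ Finset.Ico (l + 1) (S.K + 1), S.p i * (s l * S.mg φ i b z) =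
        s l * ∑ i ∈ Finset.Ico (l + 1) (S.K + 1), S.p i * S.mg φ i b z := by
      rw [Finset.mul_sum]
      refine Finset.sum_congr rfl fun i _ => ?_
      ring
    have e3 : ∑ k ∈ Finset.Ico (l + 1) (S.K + 1), S.p k * (φ x a * S.mg φ k b z) =
        φ x a * ∑ i ∈ Finset.Ico (l + 1) (S.K + 1), S.p i * S.mg φ i b z := by
      rw [Finset.mul_sum]
      refine Finset.sum_congr rfl fun i _ => ?_
      ring
    rw [e2, e3]
    ring
  rw [e, Sy.T_const_mul, hS.T_sub hl (Nh.sub nab (Nh.sum _ nk)) nl,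
    hS.T_sub hl nab (Nh.sum _ nk), hS.T_sum hl _ nk, Sy.T_const_mul,
    T_mul_left S (dep_mg S φ l b)]
  congr 2
  · congr 1
    refine Finset.sum_congr rfl fun k hk' => ?_
    rw [Sy.T_const_mul]
    congr 1
    rw [← hS.T_T (hlk k hk') (hk k hk') (Nh.mul na (Nh.fst (eg_mg hS (hk k hk') b)))]
    congr 1
    funext z' _
    have e4 : (fun (z : ι → ℝ) (x : X) => φ x a * S.mg φ k b z) =
        fun z x => S.mg φ k b z * (fun (_ : ι → ℝ) (x : X) => φ x a) z x := by
      funext z x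
      exact mul_comm _ _
    rw [e4, T_mul_left S (dep_mg S φ k b), mul_comm]
    rfl
  · rw [mul_comm (S.mg φ l a z)]
    rfl

/-- the covariance matrix of two replicas -/
lemma pairEx_Rov_sq {l : ℕ} (hl : l ≤ S.K) :
    S.pairEx l (fun x x' => Rov φ x x' ^ 2) = 1 / N ^ 2 * S.Ex (fun z _ => ∑ a, ∑ b,
      S.T l (fun _ x => φ x a * φ x b) z * S.T l (fun _ x => φ x a * φ x b) z) := by
  have hS := F.hreg
  rw [Sy.pairEx, ← Sy.Ex_const_mul]
  congr 1
  funext z _
  have e : ∀ a b, S.T l (fun _ x => φ x a * φ x b) z * S.T l (fun _ x => φ x a * φ x b) z =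
      ∑ x, ∑ x', S.pr l z x * S.pr l z x' * ((φ x a * φ x b) * (φ x' a * φ x' b)) := by
    intro a b
    rw [hS.T_pr hl (fun x => φ x a * φ x b), Finset.sum_mul_sum]
    refine Finset.sum_congr rfl fun x _ => Finset.sum_congr rfl fun x' _ => ?_
    ring
  have e2 : ∀ x x', Rov φ x x' ^ 2 =
      1 / (N : ℝ) ^ 2 * ∑ a, ∑ b, (φ x a * φ x b) * (φ x' a * φ x' b) := by
    intro x x'
    rw [Rov, mul_pow, sq (∑ i, φ x i * φ x' i), Finset.sum_mul_sum, div_pow, one_pow]
    congr 1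
    refine Finset.sum_congr rfl fun a _ => Finset.sum_congr rfl fun b _ => ?_
    ring
  simp_rw [e, e2]
  have e3 : ∑ a : Fin N, ∑ b : Fin N, ∑ x, ∑ x', S.pr l z x * S.pr l z x' *
      ((φ x a * φ x b) * (φ x' a * φ x' b)) =
      ∑ x, ∑ x', S.pr l z x * S.pr l z x' * ∑ a, ∑ b, (φ x a * φ x b) * (φ x' a * φ x' b) := by
    calc ∑ a : Fin N, ∑ b : Fin N, ∑ x, ∑ x', S.pr l z x * S.pr l z x' *
          ((φ x a * φ x b) * (φ x' a * φ x' b))
        = ∑ a : Fin N, ∑ x, ∑ b : Fin N, ∑ x', S.pr l z x * S.pr l z x' *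
          ((φ x a * φ x b) * (φ x' a * φ x' b)) :=
          Finset.sum_congr rfl fun a _ => Finset.sum_comm
      _ = ∑ x, ∑ a : Fin N, ∑ b : Fin N, ∑ x', S.pr l z x * S.pr l z x' *
          ((φ x a * φ x b) * (φ x' a * φ x' b)) := Finset.sum_comm
      _ = ∑ x, ∑ x', ∑ a : Fin N, ∑ b : Fin N, S.pr l z x * S.pr l z x' *
          ((φ x a * φ x b) * (φ x' a * φ x' b)) := by
          refine Finset.sum_congr rfl fun x _ => ?_
          calc ∑ a : Fin N, ∑ b : Fin N, ∑ x', S.pr l z x * S.pr l z x' *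
                ((φ x a * φ x b) * (φ x' a * φ x' b))
              = ∑ a : Fin N, ∑ x', ∑ b : Fin N, S.pr l z x * S.pr l z x' *
                ((φ x a * φ x b) * (φ x' a * φ x' b)) :=
                Finset.sum_congr rfl fun a _ => Finset.sum_comm
            _ = _ := Finset.sum_comm
      _ = _ := by
          refine Finset.sum_congr rfl fun x _ => Finset.sum_congr rfl fun x' _ => ?_
          simp_rw [Finset.mul_sum]
  rw [e3, Finset.mul_sum]
  refine Finset.sum_congr rfl fun x _ => ?_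
  rw [Finset.mul_sum]
  refine Finset.sum_congr rfl fun x' _ => ?_
  ring

/-- (B). -/
theorem ident_B {l : ℕ} (hl : l ≤ S.K) :
    S.Ex (fun z x => hz φ zc l z x * (1 / N * ∑ i, S.mg φ l i z * φ x i)) =
      s l * (S.pairEx l (fun x x' => Rov φ x x' ^ 2) -
        ∑ i ∈ Finset.Ico (l + 1) (S.K + 1), S.p i * (1 / N ^ 2 * S.Ex (fun z _ => ∑ a, ∑ b,
          S.T l (fun _ x => φ x a * φ x b) z * S.T l (fun z _ => S.mg φ i a z * S.mg φ i b z) z)) -
        S.m (l + 1) * S.Ex (fun z x => (1 / N * ∑ a, S.mg φ l a z * φ x a) ^ 2) +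
        S.Rl φ l - ∑ i ∈ Finset.Ico l (S.K + 1), S.p i *
        S.Ex (fun z x => (1 / N * ∑ a, S.mg φ l a z * φ x a) *
          (1 / N * ∑ a, S.mg φ i a z * φ x a))) := by
  have hS := F.hreg
  have hk : ∀ k ∈ Finset.Ico (l + 1) (S.K + 1), k ≤ S.K := fun k hk => by
    rw [Finset.mem_Ico] at hk; omega
  -- the derivative of the magnetization
  set d : Fin N → Fin N → (ι → ℝ) → ℝ := fun a b z =>
    s l * (S.T l (fun _ x => φ x a * φ x b) z -
      ∑ k ∈ Finset.Ico (l + 1) (S.K + 1), S.p k * S.T l (fun z _ => S.mg φ k a z * S.mg φ k b z) z -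
      S.m (l + 1) * (S.mg φ l a z * S.mg φ l b z)) with hd
  have nab : ∀ a b, Nh (ι := ι) (fun (_ : ι → ℝ) (x : X) => φ x a * φ x b) := fun a b =>
    Nh.snd fun x => φ x a * φ x b
  have eB : ∀ k ∈ Finset.Ico (l + 1) (S.K + 1), ∀ a b,
      EG (S.T l (fun z _ => S.mg φ k a z * S.mg φ k b z)) := fun k hk' a b =>
    hS.eg_T hl (Nh.fst ((eg_mg hS (hk k hk') a).mul (eg_mg hS (hk k hk') b)))
  have eA : ∀ a b, EG (S.T l (fun _ x => φ x a * φ x b)) := fun a b => hS.eg_T hl (nab a b)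
  have ed : ∀ a b, EG (d a b) := fun a b =>
    EG.const_mul _ (((eA a b).sub (EG.sum _ fun k hk' => EG.const_mul _ (eB k hk' a b))).sub
      (EG.const_mul _ ((eg_mg hS hl a).mul (eg_mg hS hl b))))
  have dB : ∀ k a b, Dep S.lev l (S.T l (fun z _ => S.mg φ k a z * S.mg φ k b z)) :=
    fun k a b => S.dep_T l _
  have dA : ∀ a b, Dep S.lev l (S.T l (fun _ x => φ x a * φ x b)) := fun a b => S.dep_T l _
  have dd : ∀ a b, Dep S.lev l (d a b) := by
    intro a b z w
    simp only [hd]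
    rw [dA a b z w, dep_mg S φ l a z w, dep_mg S φ l b z w]
    simp only [fun k => dB k a b z w]
  -- integration by parts
  have h := F.Ex_hz_mul hl (u := uu S φ l) (u' := fun b z x => 1 / N * ∑ a, d a b z * φ x a)
    (fun b x => (PD.sum Finset.univ fun a _ =>
      ((F.pd_mg hl a b).mul (PD.const (φ x a))).congr fun y => by
        rw [mul_zero, add_zero]).const_mul _) (nh_uu hS hl)
    (fun b => Nh.const_mul _ (Nh.sum _ fun a _ => Nh.mul (Nh.fst (ed a b))
      (Nh.snd fun x => φ x a)))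
  have h2 : S.Ex (fun z x => 1 / N * ∑ b, φ x b * (1 / N * ∑ a, d a b z * φ x a)) =
      s l * (S.pairEx l (fun x x' => Rov φ x x' ^ 2) -
        ∑ i ∈ Finset.Ico (l + 1) (S.K + 1), S.p i * (1 / N ^ 2 * S.Ex (fun z _ => ∑ a, ∑ b,
          S.T l (fun _ x => φ x a * φ x b) z * S.T l (fun z _ => S.mg φ i a z * S.mg φ i b z) z)) -
        S.m (l + 1) * S.Ex (fun z x => (1 / N * ∑ a, S.mg φ l a z * φ x a) ^ 2)) := by
    -- replace `φ_a φ_b` by its conditional average
    have g1 : S.Ex (fun z x => 1 / N * ∑ b, φ x b * (1 / N * ∑ a, d a b z * φ x a)) =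
        1 / N ^ 2 * ∑ a, ∑ b, S.Ex (fun z _ => d a b z * S.T l (fun _ x => φ x a * φ x b) z) := by
      have e1 : (fun (z : ι → ℝ) (x : X) => 1 / (N : ℝ) * ∑ b, φ x b *
          (1 / N * ∑ a, d a b z * φ x a)) =
          fun z x => 1 / N ^ 2 * ∑ a, ∑ b, d a b z * (φ x a * φ x b) := by
        funext z x
        simp_rw [Finset.mul_sum]
        rw [Finset.sum_comm]
        refine Finset.sum_congr rfl fun a _ => Finset.sum_congr rfl fun b _ => ?_
        ring
      rw [e1, Sy.Ex_const_mul, hS.Ex_sum _ fun a _ => Nh.sum _ fun b _ =>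
        Nh.mul (Nh.fst (ed a b)) (nab a b)]
      congr 1
      refine Finset.sum_congr rfl fun a _ => ?_
      rw [hS.Ex_sum _ fun b _ => Nh.mul (Nh.fst (ed a b)) (nab a b)]
      refine Finset.sum_congr rfl fun b _ => ?_
      exact (hS.Ex_mul_T hl (dd a b) (ed a b) (nab a b)).symm
    have g2 : S.Ex (fun z x => (1 / N * ∑ a, S.mg φ l a z * φ x a) ^ 2) =
        1 / N ^ 2 * ∑ a, ∑ b, S.Ex (fun z _ => (S.mg φ l a z * S.mg φ l b z) *
          S.T l (fun _ x => φ x a * φ x b) z) := by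
      have e1 : (fun (z : ι → ℝ) (x : X) => (1 / (N : ℝ) * ∑ a, S.mg φ l a z * φ x a) ^ 2) =
          fun z x => 1 / N ^ 2 * ∑ a, ∑ b, (S.mg φ l a z * S.mg φ l b z) * (φ x a * φ x b) := by
        funext z x
        rw [mul_pow, sq (∑ a, S.mg φ l a z * φ x a), Finset.sum_mul_sum, div_pow, one_pow]
        congr 1
        refine Finset.sum_congr rfl fun a _ => Finset.sum_congr rfl fun b _ => ?_
        ring
      have em : ∀ a b, EG (fun z => S.mg φ l a z * S.mg φ l b z) := fun a b =>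
        (eg_mg hS hl a).mul (eg_mg hS hl b)
      rw [e1, Sy.Ex_const_mul, hS.Ex_sum _ fun a _ => Nh.sum _ fun b _ =>
        Nh.mul (Nh.fst (em a b)) (nab a b)]
      congr 1
      refine Finset.sum_congr rfl fun a _ => ?_
      rw [hS.Ex_sum _ fun b _ => Nh.mul (Nh.fst (em a b)) (nab a b)]
      refine Finset.sum_congr rfl fun b _ => ?_
      refine (hS.Ex_mul_T hl (φ := fun z => S.mg φ l a z * S.mg φ l b z) ?_ (em a b)
        (nab a b)).symm
      intro z w
      exact congrArg₂ (· * ·) (dep_mg S φ l a z w) (dep_mg S φ l b z w)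
    have g3 : ∀ k ∈ Finset.Ico (l + 1) (S.K + 1), S.Ex (fun z _ => ∑ a, ∑ b,
          S.T l (fun _ x => φ x a * φ x b) z * S.T l (fun z _ => S.mg φ k a z * S.mg φ k b z) z) =
        ∑ a, ∑ b, S.Ex (fun z _ =>
          S.T l (fun _ x => φ x a * φ x b) z * S.T l (fun z _ => S.mg φ k a z * S.mg φ k b z) z) := by
      intro k hk'
      rw [hS.Ex_sum _ fun a _ => Nh.sum _ fun b _ => Nh.fst ((eA a b).mul (eB k hk' a b))]
      refine Finset.sum_congr rfl fun a _ => ?_
      rw [hS.Ex_sum _ fun b _ => Nh.fst ((eA a b).mul (eB k hk' a b))]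
    have g4 : S.Ex (fun z _ => ∑ a, ∑ b,
          S.T l (fun _ x => φ x a * φ x b) z * S.T l (fun _ x => φ x a * φ x b) z) =
        ∑ a, ∑ b, S.Ex (fun z _ =>
          S.T l (fun _ x => φ x a * φ x b) z * S.T l (fun _ x => φ x a * φ x b) z) := by
      rw [hS.Ex_sum _ fun a _ => Nh.sum _ fun b _ => Nh.fst ((eA a b).mul (eA a b))]
      refine Finset.sum_congr rfl fun a _ => ?_
      rw [hS.Ex_sum _ fun b _ => Nh.fst ((eA a b).mul (eA a b))]
    have g5 : ∀ a b, S.Ex (fun z _ => d a b z * S.T l (fun _ x => φ x a * φ x b) z) =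
        s l * (S.Ex (fun z _ => S.T l (fun _ x => φ x a * φ x b) z *
            S.T l (fun _ x => φ x a * φ x b) z) -
          ∑ k ∈ Finset.Ico (l + 1) (S.K + 1), S.p k * S.Ex (fun z _ =>
            S.T l (fun _ x => φ x a * φ x b) z *
              S.T l (fun z _ => S.mg φ k a z * S.mg φ k b z) z) -
          S.m (l + 1) * S.Ex (fun z _ => (S.mg φ l a z * S.mg φ l b z) *
            S.T l (fun _ x => φ x a * φ x b) z)) := by
      intro a b
      have n1 : Nh (X := X) (fun z _ => S.T l (fun _ x => φ x a * φ x b) z *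
            S.T l (fun _ x => φ x a * φ x b) z) := Nh.fst ((eA a b).mul (eA a b))
      have n2 : ∀ k ∈ Finset.Ico (l + 1) (S.K + 1), Nh (X := X) (fun z _ => S.p k *
          (S.T l (fun _ x => φ x a * φ x b) z *
              S.T l (fun z _ => S.mg φ k a z * S.mg φ k b z) z)) := fun k hk' =>
        Nh.fst (EG.const_mul _ ((eA a b).mul (eB k hk' a b)))
      have n3 : Nh (X := X) (fun z _ => S.m (l + 1) * ((S.mg φ l a z * S.mg φ l b z) *
            S.T l (fun _ x => φ x a * φ x b) z)) :=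
        Nh.fst (EG.const_mul _ (((eg_mg hS hl a).mul (eg_mg hS hl b)).mul (eA a b)))
      have e1 : (fun (z : ι → ℝ) (_ : X) => d a b z * S.T l (fun _ x => φ x a * φ x b) z) =
          fun z _ => s l * ((S.T l (fun _ x => φ x a * φ x b) z *
            S.T l (fun _ x => φ x a * φ x b) z - ∑ k ∈ Finset.Ico (l + 1) (S.K + 1), S.p k *
          (S.T l (fun _ x => φ x a * φ x b) z *
              S.T l (fun z _ => S.mg φ k a z * S.mg φ k b z) z)) -
              S.m (l + 1) * ((S.mg φ l a z * S.mg φ l b z) *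
            S.T l (fun _ x => φ x a * φ x b) z)) := by
        funext z _
        simp only [hd]
        have e2 : ∑ k ∈ Finset.Ico (l + 1) (S.K + 1), S.p k *
          (S.T l (fun _ x => φ x a * φ x b) z *
              S.T l (fun z _ => S.mg φ k a z * S.mg φ k b z) z) =
            S.T l (fun _ x => φ x a * φ x b) z * ∑ k ∈ Finset.Ico (l + 1) (S.K + 1), S.p k *
              S.T l (fun z _ => S.mg φ k a z * S.mg φ k b z) z := by
          rw [Finset.mul_sum]
          refine Finset.sum_congr rfl fun k _ => ?_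
          ring
        rw [e2]
        ring
      rw [e1, Sy.Ex_const_mul, hS.Ex_sub (Nh.sub n1 (Nh.sum _ n2)) n3,
        hS.Ex_sub n1 (Nh.sum _ n2), hS.Ex_sum _ n2, Sy.Ex_const_mul]
      congr 3
      refine Finset.sum_congr rfl fun k _ => ?_
      rw [Sy.Ex_const_mul]
    rw [g1, g2, F.pairEx_Rov_sq hl, g4]
    simp_rw [g5]
    have g6 : ∑ i ∈ Finset.Ico (l + 1) (S.K + 1), S.p i * (1 / (N : ℝ) ^ 2 *
        S.Ex (fun z _ => ∑ a, ∑ b, S.T l (fun _ x => φ x a * φ x b) z *
          S.T l (fun z _ => S.mg φ i a z * S.mg φ i b z) z)) =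
        1 / (N : ℝ) ^ 2 * ∑ a, ∑ b, ∑ k ∈ Finset.Ico (l + 1) (S.K + 1), S.p k * S.Ex (fun z _ =>
            S.T l (fun _ x => φ x a * φ x b) z *
              S.T l (fun z _ => S.mg φ k a z * S.mg φ k b z) z) := by
      rw [Finset.sum_congr rfl fun k hk' => by rw [g3 k hk']]
      simp_rw [Finset.mul_sum]
      rw [Finset.sum_comm]
      refine Finset.sum_congr rfl fun a _ => ?_
      rw [Finset.sum_comm]
      refine Finset.sum_congr rfl fun b _ => Finset.sum_congr rfl fun k _ => ?_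
      ring
    rw [g6]
    simp_rw [mul_sub, Finset.sum_sub_distrib, ← Finset.mul_sum]
    ring
  rw [h2, F.Ex_uu hl] at h
  refine Eq.trans h ?_
  rw [← mul_add]
  congr 1
  have e5 : ∀ k, S.Ex (fun z x => uu S φ l z x * uu S φ k z x) =
      S.Ex (fun z x => (1 / N * ∑ a, S.mg φ l a z * φ x a) *
          (1 / N * ∑ a, S.mg φ k a z * φ x a)) := fun k => rfl
  simp only [e5]
  ring

/-- In (B), the averages over three replicas are at most the average over two replicas. -/
theorem three_le_two {l i : ℕ} (hl : l ≤ i) (hi : i ≤ S.K) :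
    1 / N ^ 2 * S.Ex (fun z _ => ∑ a, ∑ b,
      S.T l (fun _ x => φ x a * φ x b) z * S.T l (fun z _ => S.mg φ i a z * S.mg φ i b z) z) ≤
        S.pairEx l (fun x x' => Rov φ x x' ^ 2) := by
  have hS := F.hreg
  have hlK : l ≤ S.K := hl.trans hi
  rw [F.pairEx_Rov_sq hlK]
  refine mul_le_mul_of_nonneg_left ?_ (by positivity)
  have na : ∀ a, Nh (ι := ι) (fun (_ : ι → ℝ) (x : X) => φ x a) := fun a => Nh.snd fun x => φ x a
  have nab : ∀ a b, Nh (ι := ι) (fun (_ : ι → ℝ) (x : X) => φ x a * φ x b) := fun a b =>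
    Nh.snd fun x => φ x a * φ x b
  have em : ∀ a, EG (S.mg φ i a) := fun a => eg_mg hS hi a
  have emm : ∀ a b, EG (fun z => S.mg φ i a z * S.mg φ i b z) := fun a b => (em a).mul (em b)
  have eA : ∀ a b, EG (S.T l (fun _ x => φ x a * φ x b)) := fun a b => hS.eg_T hlK (nab a b)
  have eB : ∀ a b, EG (S.T l (fun z _ => S.mg φ i a z * S.mg φ i b z)) := fun a b =>
    hS.eg_T hlK (Nh.fst (emm a b))
  refine hS.Ex_mono (Nh.sum _ fun a _ => Nh.sum _ fun b _ => Nh.fst ((eA a b).mul (eB a b)))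
    (Nh.sum _ fun a _ => Nh.sum _ fun b _ => Nh.fst ((eA a b).mul (eA a b))) fun z _ => ?_
  rw [← sub_nonneg, ← Finset.sum_sub_distrib]
  simp_rw [← Finset.sum_sub_distrib, ← mul_sub]
  -- the conditional covariance
  have nd : ∀ a, Nh (fun (z : ι → ℝ) (x : X) => φ x a - S.mg φ i a z) := fun a =>
    Nh.sub (na a) (Nh.fst (em a))
  have e1 : ∀ a b, S.T l (fun _ x => φ x a * φ x b) z -
      S.T l (fun z _ => S.mg φ i a z * S.mg φ i b z) z =
      S.T l (fun z x => (φ x a - S.mg φ i a z) * (φ x b - S.mg φ i b z)) z := by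
    intro a b
    have t1 : ∀ a b, S.T l (fun z x => S.mg φ i a z * φ x b) z =
        S.T l (fun z _ => S.mg φ i a z * S.mg φ i b z) z := by
      intro a b
      rw [← hS.T_T hl hi (Nh.mul (Nh.fst (em a)) (na b))]
      congr 1
      funext z' _
      rw [T_mul_left S (dep_mg S φ i a)]
      rfl
    have e2 : (fun (z : ι → ℝ) (x : X) => (φ x a - S.mg φ i a z) * (φ x b - S.mg φ i b z)) =
        fun z x => ((φ x a * φ x b - S.mg φ i a z * φ x b) - S.mg φ i b z * φ x a) +
          S.mg φ i a z * S.mg φ i b z := by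
      funext z x
      ring
    have n1 := Nh.mul (Nh.fst (em a)) (na b)
    have n2 := Nh.mul (Nh.fst (em b)) (na a)
    rw [e2, hS.T_add hlK (Nh.sub (Nh.sub (nab a b) n1) n2) (Nh.fst (emm a b)),
      hS.T_sub hlK (Nh.sub (nab a b) n1) n2, hS.T_sub hlK (nab a b) n1, t1, t1]
    have e3 : (fun (z : ι → ℝ) (_ : X) => S.mg φ i b z * S.mg φ i a z) =
        fun z _ => S.mg φ i a z * S.mg φ i b z := by
      funext z _
      exact mul_comm _ _
    rw [e3]
    ring
  simp_rw [e1]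
  have e4 : ∑ a, ∑ b, S.T l (fun _ x => φ x a * φ x b) z *
      S.T l (fun z x => (φ x a - S.mg φ i a z) * (φ x b - S.mg φ i b z)) z =
      ∑ x, S.pr l z x * S.T l (fun z y => (∑ a, φ x a * (φ y a - S.mg φ i a z)) ^ 2) z := by
    have e5 : ∀ x, S.T l (fun z y => (∑ a, φ x a * (φ y a - S.mg φ i a z)) ^ 2) z =
        ∑ a, ∑ b, (φ x a * φ x b) *
          S.T l (fun z x => (φ x a - S.mg φ i a z) * (φ x b - S.mg φ i b z)) z := by
      intro x
      have e6 : (fun (z : ι → ℝ) (y : X) => (∑ a, φ x a * (φ y a - S.mg φ i a z)) ^ 2) =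
          fun z y => ∑ a, ∑ b, (φ x a * φ x b) *
            ((fun (z : ι → ℝ) (x : X) => (φ x a - S.mg φ i a z) * (φ x b - S.mg φ i b z)) z y) := by
        funext z y
        rw [sq, Finset.sum_mul_sum]
        refine Finset.sum_congr rfl fun a _ => Finset.sum_congr rfl fun b _ => ?_
        ring
      rw [e6, hS.T_sum hlK _ fun a _ => Nh.sum _ fun b _ =>
        Nh.const_mul _ (Nh.mul (nd a) (nd b))]
      refine Finset.sum_congr rfl fun a _ => ?_
      rw [hS.T_sum hlK _ fun b _ => Nh.const_mul _ (Nh.mul (nd a) (nd b))]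
      refine Finset.sum_congr rfl fun b _ => ?_
      rw [Sy.T_const_mul]
    simp_rw [e5, Finset.mul_sum]
    rw [Finset.sum_comm]
    rw [Finset.sum_comm (s := (Finset.univ : Finset X))]
    rw [Finset.sum_comm]
    refine Finset.sum_congr rfl fun a _ => ?_
    rw [Finset.sum_comm (s := (Finset.univ : Finset X))]
    refine Finset.sum_congr rfl fun b _ => ?_
    rw [hS.T_pr hlK (fun x => φ x a * φ x b), Finset.sum_mul]
    refine Finset.sum_congr rfl fun x _ => ?_
    ring
  rw [e4]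
  refine Finset.sum_nonneg fun x _ => mul_nonneg (hS.pr_nonneg hlK z x) ?_
  have h0 := hS.T_mono hlK (f := fun _ _ => (0 : ℝ))
    (g := fun z y => (∑ a, φ x a * (φ y a - S.mg φ i a z)) ^ 2) (Nh.snd fun _ => 0)
    (Nh.pow (Nh.sum _ fun a _ => Nh.const_mul _ (nd a)) 2) (fun z y => sq_nonneg _) z
  rwa [hS.T_const hlK] at h0

lemma uu_eq {l : ℕ} (hl : l ≤ S.K) (z : ι → ℝ) (x : X) :
    uu S φ l z x = ∑ x', S.pr l z x' * Rov φ x' x := by
  have hS := F.hreg
  simp_rw [uu, mg_eq hS hl, Rov, Finset.sum_mul]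
  rw [Finset.sum_comm, Finset.mul_sum]
  refine Finset.sum_congr rfl fun x' _ => ?_
  rw [Finset.mul_sum, Finset.mul_sum, Finset.mul_sum]
  refine Finset.sum_congr rfl fun a _ => ?_
  ring

lemma abs_uu_le {l : ℕ} (hl : l ≤ S.K) (z : ι → ℝ) (x : X) : |uu S φ l z x| ≤ 1 := by
  have hS := F.hreg
  rw [F.uu_eq hl]
  refine (Finset.abs_sum_le_sum_abs _ _).trans ?_
  rw [← hS.sum_pr hl z]
  refine Finset.sum_le_sum fun x' _ => ?_
  rw [abs_mul, abs_of_nonneg (hS.pr_nonneg hl z x')]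
  exact mul_le_of_le_one_right (hS.pr_nonneg hl z x') (F.abs_Rov_le x' x)

lemma nh_hz (j : ℕ) : Nh (hz φ zc j) := by
  exact Nh.const_mul _ (Nh.sum _ fun i _ => Nh.mul (Nh.fst (EG.coord (zc j i)))
    (Nh.snd fun x => φ x i))

/-- a concentrated field is almost uncorrelated with bounded observables -/
lemma dev {j l : ℕ} (hl : l ≤ S.K) {ε c : ℝ}
    (hc : S.Ex (fun z x => |hz φ zc j z x - c|) ≤ ε) :
    |S.Ex (fun z x => hz φ zc j z x * uu S φ l z x) - S.Ex (hz φ zc j) * S.Rl φ l| ≤ 2 * ε := by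
  have hS := F.hreg
  have nh := F.nh_hz j
  have nu := nh_uu (φ := φ) hS hl
  have nc : ∀ c : ℝ, Nh (ι := ι) (X := X) (fun _ _ => c) := fun c => Nh.fst (EG.const c)
  have n1 : Nh (fun z x => hz φ zc j z x - c) := Nh.sub nh (nc c)
  have n2 : Nh (fun z x => uu S φ l z x - S.Rl φ l) := Nh.sub nu (nc _)
  have e : S.Ex (fun z x => hz φ zc j z x * uu S φ l z x) - S.Ex (hz φ zc j) * S.Rl φ l =
      S.Ex (fun z x => (hz φ zc j z x - c) * (uu S φ l z x - S.Rl φ l)) := by
    have e1 : (fun z x => (hz φ zc j z x - c) * (uu S φ l z x - S.Rl φ l)) =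
        fun z x => (hz φ zc j z x * uu S φ l z x - S.Rl φ l * hz φ zc j z x) -
          c * (uu S φ l z x - S.Rl φ l) := by
      funext z x
      ring
    rw [e1, hS.Ex_sub (Nh.sub (Nh.mul nh nu) (Nh.const_mul _ nh)) (Nh.const_mul _ n2),
      hS.Ex_sub (Nh.mul nh nu) (Nh.const_mul _ nh), Sy.Ex_const_mul, Sy.Ex_const_mul,
      hS.Ex_sub nu (nc _), hS.Ex_const, F.Ex_uu hl, sub_self, mul_zero, sub_zero, mul_comm]
  rw [e]
  refine (hS.abs_Ex_le (Nh.mul n1 n2)).trans ?_
  have h2 : S.Ex (fun z x => |(hz φ zc j z x - c) * (uu S φ l z x - S.Rl φ l)|) ≤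
      S.Ex (fun z x => 2 * |hz φ zc j z x - c|) := by
    refine hS.Ex_mono (Nh.abs (Nh.mul n1 n2)) (Nh.const_mul _ (Nh.abs n1)) fun z x => ?_
    rw [abs_mul, mul_comm]
    refine mul_le_mul_of_nonneg_right ?_ (abs_nonneg _)
    have h3 := abs_le.mp (F.abs_uu_le hl z x)
    have h4 := F.Rl_nonneg hl
    have h5 := F.Rl_le_one hl
    rw [abs_le]
    constructor <;> linarith [h3.1, h3.2]
  refine h2.trans ?_
  rw [Sy.Ex_const_mul]
  linarith only [hc]

/-- **Synchronization.** -/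
theorem sync {ε σ π : ℝ} (hε : 0 ≤ ε) (hσ : 0 < σ) (hs : ∀ l ≤ S.K, σ ≤ s l) (hπ : 0 < π)
    (hp : ∀ l ≤ S.K, π ≤ S.p l) (hc : ∀ l ≤ S.K, ∃ c, S.Ex (fun z x => |hz φ zc l z x - c|) ≤ ε)
    {l : ℕ} (hl : l < S.K) :
    S.pairEx l (fun x x' => (Rov φ x x' - S.Rl φ l) ^ 2) ≤
      2 * (S.Rl φ (l + 1) - S.Rl φ l) + 20 * ε / (σ * π) := by
  have hS := F.hreg
  have hN := F.N_pos
  have hlK := hl.le
  set R : ℕ → ℝ := fun k => S.Rl φ k with hR
  set W : ℕ → ℝ := fun k => S.Ex (fun z x => uu S φ l z x * uu S φ k z x) with hW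
  set G : ℕ → ℝ := fun k => W k - R l * R k with hG
  set A : ℕ → ℝ := fun j => ∑ k ∈ Finset.Ico j (S.K + 1), S.p k * G k with hA
  have hδ : 0 ≤ 2 * ε / σ := by positivity
  -- consequences of (A)
  have cA : ∀ j, l < j → j ≤ S.K + 1 → |A j| ≤ 2 * ε / σ := by
    intro j hlj hj
    rcases Nat.lt_or_ge j (S.K + 1) with hj' | hj'
    · have hjK : j ≤ S.K := by omega
      obtain ⟨c, hc'⟩ := hc j hjK
      have h1 := F.dev (j := j) hlK hc'
      have h2 := F.ident_A hlj hjK
      have h3 := F.Ex_hz hjK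
      have e1 : S.Ex (fun z x => hz φ zc j z x * uu S φ l z x) - S.Ex (hz φ zc j) * S.Rl φ l =
          - (s j * A j) := by
        have e2 : S.Ex (fun z x => hz φ zc j z x * uu S φ l z x) =
            s j * (R l - ∑ i ∈ Finset.Ico j (S.K + 1), S.p i * W i) := h2
        rw [e2, h3]
        have e3 : A j = ∑ i ∈ Finset.Ico j (S.K + 1), S.p i * W i -
            R l * ∑ i ∈ Finset.Ico j (S.K + 1), S.p i * R i := by
          simp only [hA, hG]
          rw [Finset.mul_sum, ← Finset.sum_sub_distrib]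
          refine Finset.sum_congr rfl fun i _ => ?_
          ring
        rw [e3]
        simp only [hR]
        ring
      rw [e1, abs_neg, abs_mul, abs_of_nonneg (F.pos j hjK)] at h1
      rw [le_div_iff₀ hσ]
      have h4 := mul_le_mul_of_nonneg_left (hs j hjK) (abs_nonneg (A j))
      rw [mul_comm (|A j|) (s j)] at h4
      exact h4.trans h1
    · have : A j = 0 := by
        simp only [hA]
        rw [Finset.Ico_eq_empty (by omega), Finset.sum_empty]
      rw [this, abs_zero]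
      exact hδ
  -- the covariance with the next level
  have hG1 : G (l + 1) ≤ 4 * ε / (σ * π) := by
    have e1 : A (l + 1) = S.p (l + 1) * G (l + 1) + A (l + 1 + 1) := by
      simp only [hA]
      rw [Finset.sum_eq_sum_Ico_succ_bot (by omega : l + 1 < S.K + 1)]
    have h1 := abs_le.mp (cA (l + 1) (by omega) (by omega))
    have h2 := abs_le.mp (cA (l + 1 + 1) (by omega) (by omega))
    have h3 := hp (l + 1) (by omega)
    have h4 : S.p (l + 1) * G (l + 1) ≤ 4 * ε / σ := by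
      have : 4 * ε / σ = 2 * ε / σ + 2 * ε / σ := by ring
      rw [this]
      linarith only [e1, h1.2, h2.1]
    by_cases hg : G (l + 1) ≤ 0
    · exact hg.trans (by positivity)
    · push Not at hg
      rw [← div_div, le_div_iff₀ hπ]
      have h5 := mul_le_mul_of_nonneg_left h3 hg.le
      rw [mul_comm (G (l + 1)) (S.p (l + 1))] at h5
      exact h5.trans h4
  -- the variance of `u_l`
  have nu := nh_uu (φ := φ) hS hlK
  have nu' := nh_uu (φ := φ) hS (show l + 1 ≤ S.K from hl)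
  have nc : ∀ c : ℝ, Nh (ι := ι) (X := X) (fun _ _ => c) := fun c => Nh.fst (EG.const c)
  set V : ℝ := W l - R l * R l with hV
  have hV1 : S.Ex (fun z x => (uu S φ l z x - R l) ^ 2) = V := by
    have e1 : (fun z x => (uu S φ l z x - R l) ^ 2) =
        fun z x => (uu S φ l z x * uu S φ l z x - 2 * R l * uu S φ l z x) + R l ^ 2 := by
      funext z x
      ring
    rw [e1, hS.Ex_add (Nh.sub (Nh.mul nu nu) (Nh.const_mul _ nu)) (nc _),
      hS.Ex_sub (Nh.mul nu nu) (Nh.const_mul _ nu), Sy.Ex_const_mul, hS.Ex_const, F.Ex_uu hlK]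
    simp only [hV, hR, hW]
    ring
  have hV0 : 0 ≤ V := by
    rw [← hV1, ← hS.Ex_const 0]
    exact hS.Ex_mono (nc 0) (Nh.pow (Nh.sub nu (nc _)) 2) fun z x => sq_nonneg _
  have hdif : S.Ex (fun z x => (uu S φ l z x - uu S φ (l + 1) z x) ^ 2) ≤ R (l + 1) - R l := by
    rw [← F.Rl_sub hl, ← Sy.Ex_const_mul]
    refine hS.Ex_mono (Nh.pow (Nh.sub nu nu') 2) (Nh.fst (EG.const_mul _ (EG.sum _ fun i _ =>
      ((eg_mg hS (show l + 1 ≤ S.K from hl) i).sub (eg_mg hS hlK i)).pow 2))) fun z x => ?_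
    have e1 : uu S φ l z x - uu S φ (l + 1) z x =
        -(1 / N * ∑ a, (S.mg φ (l + 1) a z - S.mg φ l a z) * φ x a) := by
      simp_rw [uu, sub_mul]
      rw [Finset.sum_sub_distrib]
      ring
    rw [e1, neg_sq, mul_pow]
    have h1 := Finset.sum_mul_sq_le_sq_mul_sq Finset.univ
      (fun a => S.mg φ (l + 1) a z - S.mg φ l a z) (φ x)
    rw [F.norm] at h1
    calc (1 / (N : ℝ)) ^ 2 * (∑ a, (S.mg φ (l + 1) a z - S.mg φ l a z) * φ x a) ^ 2
        ≤ (1 / (N : ℝ)) ^ 2 * ((∑ a, (S.mg φ (l + 1) a z - S.mg φ l a z) ^ 2) * N) :=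
          mul_le_mul_of_nonneg_left h1 (by positivity)
      _ = 1 / N * ∑ i, (S.mg φ (l + 1) i z - S.mg φ l i z) ^ 2 := by
          field_simp
  have hV2 : V ≤ (R (l + 1) - R l) + 2 * G (l + 1) := by
    have e1 : V - G (l + 1) =
        S.Ex (fun z x => (uu S φ l z x - R l) * (uu S φ l z x - uu S φ (l + 1) z x)) := by
      have e2 : (fun z x => (uu S φ l z x - R l) * (uu S φ l z x - uu S φ (l + 1) z x)) =
          fun z x => (uu S φ l z x * uu S φ l z x - uu S φ l z x * uu S φ (l + 1) z x) -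
            (R l * uu S φ l z x - R l * uu S φ (l + 1) z x) := by
        funext z x
        ring
      rw [e2, hS.Ex_sub (Nh.sub (Nh.mul nu nu) (Nh.mul nu nu'))
        (Nh.sub (Nh.const_mul _ nu) (Nh.const_mul _ nu')), hS.Ex_sub (Nh.mul nu nu) (Nh.mul nu nu'),
        hS.Ex_sub (Nh.const_mul _ nu) (Nh.const_mul _ nu'), Sy.Ex_const_mul, Sy.Ex_const_mul,
        F.Ex_uu hlK, F.Ex_uu (show l + 1 ≤ S.K from hl)]
      simp only [hV, hG, hR, hW]
      ring
    have h1 : S.Ex (fun z x => (uu S φ l z x - R l) * (uu S φ l z x - uu S φ (l + 1) z x)) ≤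
        S.Ex (fun z x => 1 / 2 * (uu S φ l z x - R l) ^ 2 +
          1 / 2 * (uu S φ l z x - uu S φ (l + 1) z x) ^ 2) := by
      refine hS.Ex_mono (Nh.mul (Nh.sub nu (nc _)) (Nh.sub nu nu'))
        (Nh.add (Nh.const_mul _ (Nh.pow (Nh.sub nu (nc _)) 2))
          (Nh.const_mul _ (Nh.pow (Nh.sub nu nu') 2))) fun z x => ?_
      have := two_mul_le_add_sq (uu S φ l z x - R l) (uu S φ l z x - uu S φ (l + 1) z x)
      linarith only [this]
    rw [hS.Ex_add (Nh.const_mul _ (Nh.pow (Nh.sub nu (nc _)) 2))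
      (Nh.const_mul _ (Nh.pow (Nh.sub nu nu') 2)), Sy.Ex_const_mul, Sy.Ex_const_mul, hV1] at h1
    linarith
  -- (B)
  set Q : ℝ := S.pairEx l (fun x x' => Rov φ x x' ^ 2) with hQ
  set a : ℕ → ℝ := fun i => 1 / (N : ℝ) ^ 2 * S.Ex (fun z _ => ∑ a, ∑ b,
          S.T l (fun _ x => φ x a * φ x b) z * S.T l (fun z _ => S.mg φ i a z * S.mg φ i b z) z)
    with ha
  have hQ0 : 0 ≤ Q := hS.pairEx_nonneg hlK fun x x' => sq_nonneg _
  have hp0 : ∀ i ≤ S.K, 0 ≤ S.p i := fun i hi => by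
    rw [Sy.p]
    linarith [hS.mono i hi]
  have hsum : ∑ i ∈ Finset.Ico (l + 1) (S.K + 1), S.p i = 1 - S.m (l + 1) := by
    have h1 : ∀ n, l + 1 ≤ n → ∑ i ∈ Finset.Ico (l + 1) n, S.p i = S.m n - S.m (l + 1) := by
      intro n hn
      induction n, hn using Nat.le_induction with
      | base => simp
      | succ n hn ih =>
        rw [Finset.sum_Ico_succ_top hn, ih, Sy.p]
        ring
    rw [h1 _ (by omega), hS.mK]
  have ha1 : ∑ i ∈ Finset.Ico (l + 1) (S.K + 1), S.p i * a i ≤ Q * (1 - S.m (l + 1)) := by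
    rw [← hsum, Finset.mul_sum]
    refine Finset.sum_le_sum fun i hi => ?_
    rw [Finset.mem_Ico] at hi
    rw [mul_comm Q]
    exact mul_le_mul_of_nonneg_left (F.three_le_two (by omega) (by omega)) (hp0 i (by omega))
  have hB : Q - ∑ i ∈ Finset.Ico (l + 1) (S.K + 1), S.p i * a i - S.m (l + 1) * W l - A l ≤
      2 * ε / σ := by
    obtain ⟨c, hc'⟩ := hc l hlK
    have h1 := F.dev (j := l) hlK hc'
    have h2 := F.ident_B hlK
    have h3 := F.Ex_hz hlK
    have e1 : S.Ex (fun z x => hz φ zc l z x * uu S φ l z x) - S.Ex (hz φ zc l) * S.Rl φ l =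
        s l * (Q - ∑ i ∈ Finset.Ico (l + 1) (S.K + 1), S.p i * a i - S.m (l + 1) * W l - A l) := by
      have e0 : W l = S.Ex (fun z x => (1 / N * ∑ a, S.mg φ l a z * φ x a) ^ 2) := by
        simp only [hW]
        congr 1
        funext z x
        rw [sq]
        rfl
      have e2 : S.Ex (fun z x => hz φ zc l z x * uu S φ l z x) =
          s l * (Q - ∑ i ∈ Finset.Ico (l + 1) (S.K + 1), S.p i * a i - S.m (l + 1) * W l + R l -
            ∑ i ∈ Finset.Ico l (S.K + 1), S.p i * W i) := by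
        rw [e0]
        exact h2
      rw [e2, h3]
      have e3 : A l = ∑ i ∈ Finset.Ico l (S.K + 1), S.p i * W i -
          R l * ∑ i ∈ Finset.Ico l (S.K + 1), S.p i * R i := by
        simp only [hA, hG]
        rw [Finset.mul_sum, ← Finset.sum_sub_distrib]
        refine Finset.sum_congr rfl fun i _ => ?_
        ring
      rw [e3]
      simp only [hR]
      ring
    rw [e1] at h1
    have h5 := (abs_le.mp h1).2
    rw [le_div_iff₀ hσ]
    clear_value A W a Q
    by_cases hx : Q - ∑ i ∈ Finset.Ico (l + 1) (S.K + 1), S.p i * a i - S.m (l + 1) * W l - A l ≤ 0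
    · exact (mul_nonpos_of_nonpos_of_nonneg hx hσ.le).trans (by linarith only [hε])
    · push Not at hx
      have h4 := mul_le_mul_of_nonneg_left (hs l hlK) hx.le
      rw [mul_comm _ (s l)] at h4
      exact h4.trans h5
  have hAl : A l = S.p l * V + A (l + 1) := by
    simp only [hA, hV]
    rw [Finset.sum_eq_sum_Ico_succ_bot (by omega : l < S.K + 1)]
  have hA1 := (abs_le.mp (cA (l + 1) (by omega) (by omega))).2
  have hm0 : 0 ≤ S.m l := by
    rcases Nat.eq_zero_or_pos l with h0 | h0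
    · rw [h0, hS.m0]
    · exact (hS.m_pos h0 (by omega)).le
  have hpl : S.p l ≤ S.m (l + 1) := by
    rw [Sy.p]
    linarith
  have hmπ : π ≤ S.m (l + 1) := (hp l hlK).trans hpl
  have hmain : S.m (l + 1) * (Q - R l * R l - 2 * V) ≤ 4 * ε / σ := by
    have e1 : 4 * ε / σ = 2 * ε / σ + 2 * ε / σ := by ring
    have e2 : W l = V + R l * R l := by simp only [hV]; ring
    rw [hAl, e2] at hB
    rw [e1]
    have h6 : S.p l * V ≤ S.m (l + 1) * V := mul_le_mul_of_nonneg_right hpl hV0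
    have e3 : S.m (l + 1) * (V + R l * R l) = S.m (l + 1) * V + S.m (l + 1) * (R l * R l) :=
      mul_add _ _ _
    have e4 : Q * (1 - S.m (l + 1)) = Q - S.m (l + 1) * Q := by ring
    have e5 : S.m (l + 1) * (Q - R l * R l - 2 * V) = S.m (l + 1) * Q -
        S.m (l + 1) * (R l * R l) - 2 * (S.m (l + 1) * V) := by ring
    rw [e3] at hB
    rw [e4] at ha1
    rw [e5]
    linarith only [ha1, hB, hA1, h6]
  have hfin : Q - R l * R l - 2 * V ≤ 4 * ε / (σ * π) := by
    by_cases hx : Q - R l * R l - 2 * V ≤ 0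
    · exact hx.trans (by positivity)
    · push Not at hx
      rw [← div_div, le_div_iff₀ hπ]
      have h5 := mul_le_mul_of_nonneg_left hmπ hx.le
      rw [mul_comm _ (S.m (l + 1))] at h5
      exact h5.trans hmain
  have hexp : S.pairEx l (fun x x' => (Rov φ x x' - S.Rl φ l) ^ 2) = Q - R l * R l := by
    have e1 : (fun x x' => (Rov φ x x' - S.Rl φ l) ^ 2) =
        fun x x' => Rov φ x x' ^ 2 + ((-(2 * R l)) * Rov φ x x' + R l * R l) := by
      funext x x'
      simp only [hR]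
      ring
    rw [e1, hS.pairEx_add hlK (fun x x' => Rov φ x x' ^ 2)
      (fun x x' => (-(2 * R l)) * Rov φ x x' + R l * R l),
      hS.pairEx_add hlK (fun x x' => (-(2 * R l)) * Rov φ x x') (fun _ _ => R l * R l),
      hS.pairEx_const_mul, hS.pairEx_const hlK]
    have e2 : S.pairEx l (fun x x' => Rov φ x x') = R l := (F.Rl_eq_pairEx hlK).symm
    rw [e2]
    simp only [hQ]
    ring
  rw [hexp]
  have e1 : 20 * ε / (σ * π) = 4 * ε / (σ * π) + 4 * (4 * ε / (σ * π)) := by ring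
  rw [e1]
  simp only [hR] at hV2 hfin ⊢
  linarith only [hG1, hV2, hfin]

end Fld
end Vale.Agent.P157.Lv
end
end

section

section

/-!
Comparison of two systems which differ by their energies.
-/

open MeasureTheory ProbabilityTheory Filter Topology

namespace Vale.Agent.P157.Lv

set_option linter.unusedSectionVars false

variable {ι X : Type} [Fintype ι] [Fintype X] [Nonempty X] {S : Sy ι X}
  {H' : (ι → ℝ) → X → ℝ}

namespace Sy

/-! ### One step of the recursion -/

/-- The density of one step. -/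
noncomputable def pW (S : Sy ι X) (l : ℕ) (z : ι → ℝ) : ℝ :=
  Real.exp (S.m (l + 1) * (S.lg (l + 1) z - S.lg l z))

lemma pW_pos (S : Sy ι X) (l : ℕ) (z : ι → ℝ) : 0 < S.pW l z := Real.exp_pos _

lemma Reg.pW_dep (hS : S.Reg) {l : ℕ} (hl : l < S.K) : Dep S.lev (l + 1) (S.pW l) := by
  intro z w
  have h1 := hS.dep_lg (l := l + 1) hl z w
  have h2 := Dep.mono (Nat.le_succ l) (hS.dep_lg hl.le) z w
  unfold pW
  rw [h1, h2]

lemma Reg.pW_eg (hS : S.Reg) {l : ℕ} (hl : l < S.K) : EG (S.pW l) := by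
  have h1 := (hS.lip_lg (l := l + 1) hl).add ((hS.lip_lg hl.le).const_mul (-1))
  have h2 := h1.exp_eg (S.m (l + 1))
  have h3 : S.pW l = fun y => Real.exp (S.m (l + 1) * (S.lg (l + 1) y + -1 * S.lg l y)) := by
    funext y
    unfold pW
    congr 1
    ring
  rw [h3]
  exact h2

/-- `exp (m (lg' l - lg l))` is the tilted average of `exp (m (lg' (l + 1) - lg (l + 1)))`. -/
lemma Reg.J_pW_exp (hS : S.Reg) (hS' : (S.wH H').Reg) {l : ℕ} (hl : l < S.K) (z : ι → ℝ) :
    J S.lev l (fun z => S.pW l z *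
      Real.exp (S.m (l + 1) * ((S.wH H').lg (l + 1) z - S.lg (l + 1) z))) z =
      Real.exp (S.m (l + 1) * ((S.wH H').lg l z - S.lg l z)) := by
  have h1 := hS'.J_exp_lg (l := l) hl z
  have h2 : Dep S.lev l (fun z => Real.exp (-(S.m (l + 1) * S.lg l z))) := by
    intro z w
    simp only [hS.dep_lg hl.le z w]
  have h3 := h2.J_mul (fun z => Real.exp (S.m (l + 1) * (S.wH H').lg (l + 1) z)) z
  have h4 : (fun z => S.pW l z *
      Real.exp (S.m (l + 1) * ((S.wH H').lg (l + 1) z - S.lg (l + 1) z))) =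
      fun z => Real.exp (-(S.m (l + 1) * S.lg l z)) *
        Real.exp (S.m (l + 1) * (S.wH H').lg (l + 1) z) := by
    funext y
    unfold pW
    rw [← Real.exp_add, ← Real.exp_add]
    congr 1
    ring
  rw [h4, h3]
  have h5 : J S.lev l (fun z => Real.exp (S.m (l + 1) * (S.wH H').lg (l + 1) z)) z =
      Real.exp (S.m (l + 1) * (S.wH H').lg l z) := h1
  rw [h5, ← Real.exp_add]
  congr 1
  ring

lemma Reg.J_pW (hS : S.Reg) {l : ℕ} (hl : l < S.K) (z : ι → ℝ) : J S.lev l (S.pW l) z = 1 := by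
  have h1 : (S.wH S.H) = S := rfl
  have h := Reg.J_pW_exp (H' := S.H) hS (by rw [h1]; exact hS) hl z
  rw [h1] at h
  simpa using h

lemma Reg.T_step (hS : S.Reg) {l : ℕ} (hl : l < S.K) {h : (ι → ℝ) → X → ℝ} (hh : Nh h)
    (z : ι → ℝ) : S.T l h z = J S.lev l (fun z => S.pW l z * S.T (l + 1) h z) z := by
  have h1 : (fun z => S.dn l z * S.av h z) =
      fun z => S.pW l z * (S.dn (l + 1) z * S.av h z) := by
    funext y
    rw [S.dn_step hl y]
    unfold pW
    ring
  have h2 : (fun z => S.pW l z * S.T (l + 1) h z) =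
      J S.lev (l + 1) (fun z => S.pW l z * (S.dn (l + 1) z * S.av h z)) := by
    funext y
    exact ((hS.pW_dep hl).J_mul (fun z => S.dn (l + 1) z * S.av h z) y).symm
  rw [h2, J_J (Nat.le_succ l) ((hS.pW_eg hl).mul ((hS.eg_dn (l := l + 1) hl).mul (hS.eg_av hh))) z]
  unfold T
  rw [h1]

/-- The comparison of `top`. -/
lemma exp_top_sub (z : ι → ℝ) :
    Real.exp ((S.wH H').top z - S.top z) = ∑ x, S.gb z x * Real.exp (H' z x - S.H z x) := by
  have h1 := S.sum_exp_pos z
  have h2 := (S.wH H').sum_exp_pos z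
  unfold top
  rw [Real.exp_sub, Real.exp_log h2, Real.exp_log h1, Finset.sum_div]
  refine Finset.sum_congr rfl fun x _ => ?_
  unfold gb
  rw [Real.exp_sub]
  have h3 := Real.exp_pos (S.H z x)
  change Real.exp (H' z x) / _ = _
  field_simp

lemma Reg.lip_diff (hS : S.Reg) (hS' : (S.wH H').Reg) (x : X) :
    Lip fun z => H' z x - S.H z x := by
  have h1 : Lip fun z => H' z x := hS'.lip x
  have h2 := h1.add ((hS.lip x).const_mul (-1))
  have h3 : (fun z => H' z x - S.H z x) = fun z => H' z x + -1 * S.H z x := by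
    funext y
    ring
  rw [h3]
  exact h2

lemma Reg.nh_diff (hS : S.Reg) (hS' : (S.wH H').Reg) : Nh fun z x => H' z x - S.H z x :=
  fun x => (hS.lip_diff hS' x).eg

/-- The differences of the log-weights. -/
noncomputable def pD (S : Sy ι X) (H' : (ι → ℝ) → X → ℝ) (l : ℕ) (z : ι → ℝ) : ℝ :=
  (S.wH H').lg l z - S.lg l z

lemma Reg.lip_pD (hS : S.Reg) (hS' : (S.wH H').Reg) {l : ℕ} (hl : l ≤ S.K) :
    Lip (S.pD H' l) := by
  have h1 : Lip ((S.wH H').lg l) := hS'.lip_lg hl
  have h2 := h1.add ((hS.lip_lg hl).const_mul (-1))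
  have h3 : S.pD H' l = fun z => (S.wH H').lg l z + -1 * S.lg l z := by
    funext y
    unfold pD
    ring
  rw [h3]
  exact h2

/-- Pointwise version. -/
theorem Reg.jensen_lg (hS : S.Reg) (hS' : (S.wH H').Reg) {l : ℕ} (hl : l ≤ S.K) (z : ι → ℝ) :
    S.T l (fun z x => H' z x - S.H z x) z ≤ (S.wH H').lg l z - S.lg l z := by
  have key : ∀ l ≤ S.K, ∀ z, S.T l (fun z x => H' z x - S.H z x) z ≤ S.pD H' l z := by
    refine down_ind (P := fun l => ∀ z, S.T l (fun z x => H' z x - S.H z x) z ≤ S.pD H' l z)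
      ?_ ?_
    · intro z
      rw [hS.T_top]
      unfold pD
      rw [lg_top S]
      have h1 : (S.wH H').lg S.K = (S.wH H').top := lg_top (S.wH H')
      rw [h1, ← Real.exp_le_exp, exp_top_sub]
      have h2 := convexOn_exp.map_sum_le (t := Finset.univ) (w := fun x => S.gb z x)
        (p := fun x => H' z x - S.H z x) (fun x _ => (S.gb_pos z x).le) (S.sum_gb z)
        (fun x _ => Set.mem_univ _)
      simpa [av, smul_eq_mul] using h2
    · intro l hl ih z
      rw [hS.T_step hl (hS.nh_diff hS') z]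
      have hm : 0 < S.m (l + 1) := hS.m_pos (by omega) (by omega)
      have hW := hS.pW_eg hl
      have hD := hS.lip_pD hS' (l := l + 1) hl
      have h1 : J S.lev l (fun z => S.pW l z * S.T (l + 1) (fun z x => H' z x - S.H z x) z) z ≤
          J S.lev l (fun z => S.pW l z * S.pD H' (l + 1) z) z :=
        J_mono (hW.mul (hS.eg_T (l := l + 1) hl (hS.nh_diff hS'))) (hW.mul hD.eg)
          (fun y => mul_le_mul_of_nonneg_left (ih y) (S.pW_pos l y).le) z
      refine h1.trans ?_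
      set a : ℝ := J S.lev l (fun z => S.pW l z * S.pD H' (l + 1) z) z with ha
      have h2 := hS.J_pW_exp hS' hl z
      have h3 : Real.exp (S.m (l + 1) * a) ≤ Real.exp (S.m (l + 1) * S.pD H' l z) := by
        have h4 : J S.lev l (fun z => Real.exp (S.m (l + 1) * a) * (S.pW l z +
            (S.m (l + 1) * (S.pW l z * S.pD H' (l + 1) z) -
              S.m (l + 1) * a * S.pW l z))) z ≤
            J S.lev l (fun z => S.pW l z * Real.exp (S.m (l + 1) * S.pD H' (l + 1) z)) z := by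
          refine J_mono ?_ (hW.mul (hD.exp_eg _)) (fun y => ?_) z
          · exact (hW.add (((hW.mul hD.eg).const_mul _).sub (hW.const_mul _))).const_mul _
          · have h5 := Real.add_one_le_exp
              (S.m (l + 1) * S.pD H' (l + 1) y - S.m (l + 1) * a)
            have h6 : Real.exp (S.m (l + 1) * S.pD H' (l + 1) y) =
                Real.exp (S.m (l + 1) * a) *
                  Real.exp (S.m (l + 1) * S.pD H' (l + 1) y - S.m (l + 1) * a) := by
              rw [← Real.exp_add]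
              congr 1
              ring
            rw [h6]
            have h7 := mul_le_mul_of_nonneg_left h5
              (mul_pos (Real.exp_pos (S.m (l + 1) * a)) (S.pW_pos l y)).le
            nlinarith [h7]
        rw [J_const_mul, J_add hW (((hW.mul hD.eg).const_mul _).sub (hW.const_mul _)),
          J_sub ((hW.mul hD.eg).const_mul _) (hW.const_mul _), J_const_mul, J_const_mul,
          ← ha, hS.J_pW hl z] at h4
        have h8 : J S.lev l (fun z => S.pW l z * Real.exp (S.m (l + 1) * S.pD H' (l + 1) z)) z =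
          Real.exp (S.m (l + 1) * S.pD H' l z) := h2
        rw [h8] at h4
        calc Real.exp (S.m (l + 1) * a) = Real.exp (S.m (l + 1) * a) *
            (1 + (S.m (l + 1) * a - S.m (l + 1) * a * 1)) := by ring
          _ ≤ _ := h4
      rw [Real.exp_le_exp] at h3
      exact le_of_mul_le_mul_left h3 hm
  exact key l hl z

lemma Reg.Ex_eq_T (hS : S.Reg) {h : (ι → ℝ) → X → ℝ} (hh : Nh h) :
    S.Ex h = ∫ z, S.T 0 h z ∂(gI ι) := by
  unfold Ex T
  rw [integral_J ((hS.eg_dn (Nat.zero_le _)).mul (hS.eg_av hh))]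

lemma Reg.fe_sub (hS : S.Reg) (hS' : (S.wH H').Reg) :
    (S.wH H').fe - S.fe = ∫ z, S.pD H' 0 z ∂(gI ι) := by
  unfold fe pD
  rw [integral_sub (hS'.integrable_lg (Nat.zero_le _)) (hS.integrable_lg (Nat.zero_le _))]

/-- Jensen's inequality: the free energy is above its tangents. -/
theorem Reg.jensen (hS : S.Reg) (hS' : (S.wH H').Reg) :
    S.Ex (fun z x => H' z x - S.H z x) ≤ (S.wH H').fe - S.fe := by
  rw [hS.Ex_eq_T (hS.nh_diff hS'), hS.fe_sub hS']
  refine integral_mono (hS.eg_T (Nat.zero_le _) (hS.nh_diff hS')).integrable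
    (hS.lip_pD hS' (Nat.zero_le _)).eg.integrable fun z => ?_
  exact hS.jensen_lg hS' (Nat.zero_le _) z

/-- Concavity of the power `θ`. -/
lemma exp_mul_le_tangent {θ : ℝ} (h0 : 0 ≤ θ) (h1 : θ ≤ 1) (u : ℝ) :
    Real.exp (θ * u) ≤ (1 - θ) + θ * Real.exp u := by
  have h := convexOn_exp.2 (Set.mem_univ (0 : ℝ)) (Set.mem_univ u) (sub_nonneg.2 h1) h0
    (by ring)
  simpa [smul_eq_mul] using h

/-- The exponents only help: `lg' 0 - lg 0 ≥ (1/m₁) log T₀ exp(m₁ (H' - H))`. Proof: downward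
induction `lg' l - lg l ≥ (1/m₁) log T_l exp(m₁ (H' - H))`, by Jensen for `x ↦ x^(m_{l+1}/m₁)`. -/
theorem Reg.thermal (hS : S.Reg) (hS' : (S.wH H').Reg) (z : ι → ℝ) :
    1 / S.m 1 * Real.log (S.T 0 (fun z x => Real.exp (S.m 1 * (H' z x - S.H z x))) z) ≤
      (S.wH H').lg 0 z - S.lg 0 z := by
  have hm1 : 0 < S.m 1 := hS.pos
  have hm1' : S.m 1 ≤ 1 := hS.m_le_one (by omega)
  set f : (ι → ℝ) → X → ℝ := fun z x => Real.exp (S.m 1 * (H' z x - S.H z x)) with hf
  have hNf : Nh f := fun x => (hS.lip_diff hS' x).exp_eg (S.m 1)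
  have key : ∀ l ≤ S.K, ∀ z, S.T l f z ≤ Real.exp (S.m 1 * S.pD H' l z) := by
    refine down_ind (P := fun l => ∀ z, S.T l f z ≤ Real.exp (S.m 1 * S.pD H' l z)) ?_ ?_
    · intro z
      rw [hS.T_top]
      have h6 : S.pD H' S.K z = (S.wH H').top z - S.top z := by
        unfold pD
        rw [lg_top S]
        have h7 : (S.wH H').lg S.K = (S.wH H').top := lg_top (S.wH H')
        rw [h7]
      rw [h6]
      set c : ℝ := (S.wH H').top z - S.top z with hc
      have h1 : Real.exp c = ∑ x, S.gb z x * Real.exp (H' z x - S.H z x) := exp_top_sub z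
      have h2 : ∑ x, S.gb z x * Real.exp (S.m 1 * (H' z x - S.H z x - c)) ≤ 1 := by
        calc ∑ x, S.gb z x * Real.exp (S.m 1 * (H' z x - S.H z x - c)) ≤
            ∑ x, S.gb z x * ((1 - S.m 1) + S.m 1 * Real.exp (H' z x - S.H z x - c)) :=
              Finset.sum_le_sum fun x _ => mul_le_mul_of_nonneg_left
                (exp_mul_le_tangent hm1.le hm1' _) (S.gb_pos z x).le
          _ = (1 - S.m 1) * ∑ x, S.gb z x + S.m 1 * Real.exp (-c) *
              ∑ x, S.gb z x * Real.exp (H' z x - S.H z x) := by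
              rw [Finset.mul_sum, Finset.mul_sum, ← Finset.sum_add_distrib]
              refine Finset.sum_congr rfl fun x _ => ?_
              have h3 : Real.exp (H' z x - S.H z x - c) =
                  Real.exp (-c) * Real.exp (H' z x - S.H z x) := by
                rw [← Real.exp_add]
                congr 1
                ring
              rw [h3]
              ring
          _ = 1 := by
              rw [S.sum_gb z, ← h1, mul_assoc, ← Real.exp_add]
              simp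
      have h3 : S.av f z = Real.exp (S.m 1 * c) *
          ∑ x, S.gb z x * Real.exp (S.m 1 * (H' z x - S.H z x - c)) := by
        unfold av
        rw [Finset.mul_sum]
        refine Finset.sum_congr rfl fun x _ => ?_
        have h4 : f z x = Real.exp (S.m 1 * c) *
            Real.exp (S.m 1 * (H' z x - S.H z x - c)) := by
          change Real.exp (S.m 1 * (H' z x - S.H z x)) = _
          rw [← Real.exp_add]
          congr 1
          ring
        rw [h4]
        ring
      rw [h3]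
      exact mul_le_of_le_one_right (Real.exp_pos _).le h2
    · intro l hl ih z
      rw [hS.T_step hl hNf z]
      have hm : 0 < S.m (l + 1) := hS.m_pos (by omega) (by omega)
      have hmm : S.m 1 ≤ S.m (l + 1) := hS.m_mono (by omega) (by omega)
      have hW := hS.pW_eg hl
      have hD := hS.lip_pD hS' (l := l + 1) hl
      have h1 : J S.lev l (fun z => S.pW l z * S.T (l + 1) f z) z ≤
          J S.lev l (fun z => S.pW l z * Real.exp (S.m 1 * S.pD H' (l + 1) z)) z :=
        J_mono (hW.mul (hS.eg_T (l := l + 1) hl hNf)) (hW.mul (hD.exp_eg _))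
          (fun y => mul_le_mul_of_nonneg_left (ih y) (S.pW_pos l y).le) z
      refine h1.trans ?_
      set c : ℝ := S.pD H' l z with hc
      set θ : ℝ := S.m 1 / S.m (l + 1) with hθ
      have hθ0 : 0 ≤ θ := by positivity
      have hθ1 : θ ≤ 1 := (div_le_one hm).2 hmm
      have hθm : θ * S.m (l + 1) = S.m 1 := div_mul_cancel₀ _ hm.ne'
      have h2 : J S.lev l (fun z => S.pW l z * Real.exp (S.m (l + 1) * S.pD H' (l + 1) z)) z =
          Real.exp (S.m (l + 1) * c) := hS.J_pW_exp hS' hl z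
      have h3 : J S.lev l (fun z => S.pW l z * Real.exp (S.m 1 * S.pD H' (l + 1) z)) z ≤
          J S.lev l (fun z => Real.exp (S.m 1 * c) * ((1 - θ) * S.pW l z +
            θ * Real.exp (-(S.m (l + 1) * c)) *
              (S.pW l z * Real.exp (S.m (l + 1) * S.pD H' (l + 1) z)))) z := by
        refine J_mono (hW.mul (hD.exp_eg _)) (((hW.const_mul _).add
          ((hW.mul (hD.exp_eg _)).const_mul _)).const_mul _) (fun y => ?_) z
        have h4 := exp_mul_le_tangent hθ0 hθ1 (S.m (l + 1) * (S.pD H' (l + 1) y - c))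
        rw [← mul_assoc, hθm] at h4
        have h5 : Real.exp (S.m 1 * S.pD H' (l + 1) y) = Real.exp (S.m 1 * c) *
            Real.exp (S.m 1 * (S.pD H' (l + 1) y - c)) := by
          rw [← Real.exp_add]
          congr 1
          ring
        have h6 : Real.exp (S.m (l + 1) * (S.pD H' (l + 1) y - c)) =
            Real.exp (-(S.m (l + 1) * c)) * Real.exp (S.m (l + 1) * S.pD H' (l + 1) y) := by
          rw [← Real.exp_add]
          congr 1
          ring
        rw [h6] at h4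
        rw [h5]
        have h7 := mul_le_mul_of_nonneg_left h4
          (mul_pos (S.pW_pos l y) (Real.exp_pos (S.m 1 * c))).le
        calc S.pW l y * (Real.exp (S.m 1 * c) * Real.exp (S.m 1 * (S.pD H' (l + 1) y - c))) =
            S.pW l y * Real.exp (S.m 1 * c) *
              Real.exp (S.m 1 * (S.pD H' (l + 1) y - c)) := by ring
          _ ≤ _ := h7
          _ = _ := by ring
      rw [J_const_mul, J_add (hW.const_mul _) ((hW.mul (hD.exp_eg _)).const_mul _),
        J_const_mul, J_const_mul, h2, hS.J_pW hl z] at h3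
      refine h3.trans (le_of_eq ?_)
      rw [mul_assoc θ, ← Real.exp_add]
      simp
  have h1 := key 0 (Nat.zero_le _) z
  have hpos : 0 < S.T 0 f z := by
    unfold T
    refine J_pos ((hS.eg_dn (Nat.zero_le _)).mul (hS.eg_av hNf)) (fun y => ?_) z
    refine mul_pos (S.dn_pos 0 y) ?_
    unfold av
    exact Finset.sum_pos (fun x _ => mul_pos (S.gb_pos y x) (Real.exp_pos _))
      Finset.univ_nonempty
  have h2 := Real.log_le_log hpos h1
  rw [Real.log_exp] at h2
  calc 1 / S.m 1 * Real.log (S.T 0 f z) ≤ 1 / S.m 1 * (S.m 1 * S.pD H' 0 z) :=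
        mul_le_mul_of_nonneg_left h2 (by positivity)
    _ = (S.wH H').lg 0 z - S.lg 0 z := by
        unfold pD
        field_simp

end Sy

end Vale.Agent.P157.Lv
end
end

section

section

set_option linter.all false

/-!
Measurable families of systems: the averages are measurable functions of the parameter.
-/

open MeasureTheory ProbabilityTheory

namespace Vale.Agent.P166.U

open Vale.Agent.P157.Lv

variable {ι X Ω : Type} [Fintype ι] [Fintype X] [MeasurableSpace Ω] {S : Sy ι X}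
  {H : Ω → (ι → ℝ) → X → ℝ}

/-- The average over the higher levels of a jointly measurable function. -/
theorem meas_J {lev : ι → ℕ} {l : ℕ} {f : Ω → (ι → ℝ) → ℝ}
    (hf : Measurable fun p : Ω × (ι → ℝ) => f p.1 p.2) :
    Measurable fun p : Ω × (ι → ℝ) => J lev l (f p.1) p.2 := by
  have hmix : Measurable fun q : (Ω × (ι → ℝ)) × (ι → ℝ) => mix lev l q.1.2 q.2 := by
    refine measurable_pi_lambda _ fun e => ?_
    unfold mix
    split_ifs
    · exact (measurable_pi_apply e).comp (measurable_snd.comp measurable_fst)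
    · exact (measurable_pi_apply e).comp measurable_snd
  have h : Measurable fun q : (Ω × (ι → ℝ)) × (ι → ℝ) => f q.1.1 (mix lev l q.1.2 q.2) :=
    hf.comp ((measurable_fst.comp measurable_fst).prodMk hmix)
  exact (h.stronglyMeasurable.integral_prod_right' (ν := gI ι)).measurable

/-- The integral over the fields of a jointly measurable function. -/
theorem meas_int {f : Ω → (ι → ℝ) → ℝ} (hf : Measurable fun p : Ω × (ι → ℝ) => f p.1 p.2) :
    Measurable fun ω => ∫ z, f ω z ∂(gI ι) :=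
  (hf.stronglyMeasurable.integral_prod_right' (ν := gI ι)).measurable

theorem meas_lg (hH : ∀ x, Measurable fun p : Ω × (ι → ℝ) => H p.1 p.2 x) {l : ℕ} (hl : l ≤ S.K) :
    Measurable fun p : Ω × (ι → ℝ) => (S.wH (H p.1)).lg l p.2 := by
  have key : ∀ d l, l + d = S.K → Measurable fun p : Ω × (ι → ℝ) => (S.wH (H p.1)).lg l p.2 := by
    intro d
    induction d with
    | zero =>
      intro l h
      have e : (fun p : Ω × (ι → ℝ) => (S.wH (H p.1)).lg l p.2) =
          fun p => Real.log (∑ x, Real.exp (H p.1 p.2 x)) := by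
        funext p
        have h1 : (S.wH (H p.1)).K - l = 0 := by
          change S.K - l = 0
          omega
        unfold Sy.lg
        rw [h1]
        rfl
      rw [e]
      exact Real.measurable_log.comp
        (Finset.measurable_fun_sum _ fun x _ => Real.measurable_exp.comp (hH x))
    | succ d ih =>
      intro l h
      have h2 := ih (l + 1) (by omega)
      have e : (fun p : Ω × (ι → ℝ) => (S.wH (H p.1)).lg l p.2) =
          fun p => 1 / S.m (l + 1) * Real.log (J S.lev l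
            (fun z => Real.exp (S.m (l + 1) * (S.wH (H p.1)).lg (l + 1) z)) p.2) := by
        funext p
        have h1 : (S.wH (H p.1)).K - l = ((S.wH (H p.1)).K - (l + 1)) + 1 := by
          change S.K - l = (S.K - (l + 1)) + 1
          omega
        unfold Sy.lg
        rw [h1]
        rfl
      rw [e]
      refine Measurable.const_mul (Real.measurable_log.comp ?_) _
      exact meas_J (f := fun w z => Real.exp (S.m (l + 1) * (S.wH (H w)).lg (l + 1) z))
        (Real.measurable_exp.comp (h2.const_mul _))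
  exact key (S.K - l) l (by omega)

theorem meas_dn (hH : ∀ x, Measurable fun p : Ω × (ι → ℝ) => H p.1 p.2 x) (l : ℕ) :
    Measurable fun p : Ω × (ι → ℝ) => (S.wH (H p.1)).dn l p.2 := by
  have e : (fun p : Ω × (ι → ℝ) => (S.wH (H p.1)).dn l p.2) = fun p =>
      Real.exp (∑ i ∈ Finset.Ico l S.K,
        S.m (i + 1) * ((S.wH (H p.1)).lg (i + 1) p.2 - (S.wH (H p.1)).lg i p.2)) := rfl
  rw [e]
  refine Real.measurable_exp.comp (Finset.measurable_fun_sum _ fun i hi => ?_)
  have hi' := (Finset.mem_Ico.mp hi).2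
  exact ((meas_lg hH (by omega)).sub (meas_lg hH (by omega))).const_mul _

theorem meas_av (hH : ∀ x, Measurable fun p : Ω × (ι → ℝ) => H p.1 p.2 x)
    {h : Ω → (ι → ℝ) → X → ℝ} (hh : ∀ x, Measurable fun p : Ω × (ι → ℝ) => h p.1 p.2 x) :
    Measurable fun p : Ω × (ι → ℝ) => (S.wH (H p.1)).av (h p.1) p.2 := by
  have e : (fun p : Ω × (ι → ℝ) => (S.wH (H p.1)).av (h p.1) p.2) = fun p =>
      ∑ x, Real.exp (H p.1 p.2 x) / (∑ x', Real.exp (H p.1 p.2 x')) * h p.1 p.2 x := rfl
  rw [e]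
  refine Finset.measurable_fun_sum _ fun x _ => ?_
  exact ((Real.measurable_exp.comp (hH x)).div
    (Finset.measurable_fun_sum _ fun x' _ => Real.measurable_exp.comp (hH x'))).mul (hh x)

theorem meas_T (hH : ∀ x, Measurable fun p : Ω × (ι → ℝ) => H p.1 p.2 x)
    {h : Ω → (ι → ℝ) → X → ℝ} (hh : ∀ x, Measurable fun p : Ω × (ι → ℝ) => h p.1 p.2 x) (l : ℕ) :
    Measurable fun p : Ω × (ι → ℝ) => (S.wH (H p.1)).T l (h p.1) p.2 :=
  meas_J (lev := S.lev) (f := fun w z => (S.wH (H w)).dn l z * (S.wH (H w)).av (h w) z)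
    ((meas_dn hH l).mul (meas_av hH hh))

theorem meas_Ex (hH : ∀ x, Measurable fun p : Ω × (ι → ℝ) => H p.1 p.2 x)
    {h : Ω → (ι → ℝ) → X → ℝ} (hh : ∀ x, Measurable fun p : Ω × (ι → ℝ) => h p.1 p.2 x) :
    Measurable fun ω => (S.wH (H ω)).Ex (h ω) :=
  meas_int (f := fun w z => (S.wH (H w)).dn 0 z * (S.wH (H w)).av (h w) z)
    ((meas_dn hH 0).mul (meas_av hH hh))

theorem meas_pairEx [DecidableEq X] (hH : ∀ x, Measurable fun p : Ω × (ι → ℝ) => H p.1 p.2 x)
    {ψ : Ω → X → X → ℝ} (hψ : ∀ x x', Measurable fun ω => ψ ω x x') (l : ℕ) :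
    Measurable fun ω => (S.wH (H ω)).pairEx l (ψ ω) := by
  have hpr : ∀ x, Measurable fun p : Ω × (ι → ℝ) => (S.wH (H p.1)).pr l p.2 x := fun x =>
    meas_T (h := fun _ _ y => if y = x then 1 else 0) hH (fun y => measurable_const) l
  refine meas_Ex (h := fun w z _ =>
    ∑ x, ∑ x', (S.wH (H w)).pr l z x * (S.wH (H w)).pr l z x' * ψ w x x') hH fun _ => ?_
  refine Finset.measurable_fun_sum _ fun x _ => Finset.measurable_fun_sum _ fun x' _ => ?_
  exact ((hpr x).mul (hpr x')).mul ((hψ x x').comp measurable_fst)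

theorem meas_fe (hH : ∀ x, Measurable fun p : Ω × (ι → ℝ) => H p.1 p.2 x) :
    Measurable fun ω => (S.wH (H ω)).fe :=
  meas_int (f := fun w z => (S.wH (H w)).lg 0 z) (meas_lg hH (Nat.zero_le _))

end Vale.Agent.P166.U
end
end

section

section

/-!
General systems with Haar patterns: the energy is `E0(z, x)` plus the terms which depend on the
orthogonal matrix `U` through `y = U (sg x)`: quadratic terms with one coupling for each pattern,
linear terms `kap_i(x) y_i` and Gaussian fields of strengths `u_{i,l}`.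
-/

open MeasureTheory ProbabilityTheory Filter Topology Matrix
open Vale.Agent.P157.Lv Vale.Agent.P157.Lv.Sy


namespace Vale.Agent.P166.H

open Vale.Agent

set_option linter.unusedSectionVars false

/-- A system with Haar patterns. -/
structure GS (N : ℕ) (ι X : Type) where
  /-- the levels of the coordinates -/
  lev : ι → ℕ
  K : ℕ
  m : ℕ → ℝ
  /-- the vectors of the configurations -/
  sg : X → Fin N → ℝ
  /-- the part of the energy which does not depend on `U` -/
  E0 : (ι → ℝ) → X → ℝ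
  lam : Fin N → ℝ
  kap : Fin N → X → ℝ
  u : Fin N → ℕ → ℝ
  /-- the coordinates of the pattern fields -/
  bc : ℕ → Fin N → ι

variable {N : ℕ} {ι X : Type}

namespace GS

variable (A : GS N ι X)

/-- The pattern coordinates of a configuration. -/
def y (U : Matrix (Fin N) (Fin N) ℝ) (x : X) : Fin N → ℝ := U *ᵥ A.sg x

/-- The part of the energy which depends on the vector `v = y` (`w` are the fields). -/
noncomputable def ev (w : ℕ → Fin N → ℝ) (v : Fin N → ℝ) (x : X) : ℝ :=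
  ∑ i, A.lam i / 2 * v i ^ 2 + ∑ i, A.kap i x * v i +
    ∑ l ∈ Finset.range (A.K + 1), ∑ i, A.u i l * (w l i * v i)

/-- The energy. -/
noncomputable def en (U : Matrix (Fin N) (Fin N) ℝ) : (ι → ℝ) → X → ℝ := fun z x =>
  A.E0 z x + A.ev (fun l i => z (A.bc l i)) (A.y U x) x

/-- The system. -/
noncomputable def sy (U : Matrix (Fin N) (Fin N) ℝ) : Sy ι X := ⟨A.lev, A.K, A.m, A.en U⟩

/-- The overlap in the set `B` of patterns. -/
noncomputable def R (B : Finset (Fin N)) (U : Matrix (Fin N) (Fin N) ℝ) (x x' : X) : ℝ :=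
  1 / N * ∑ i ∈ B, A.y U x i * A.y U x' i

/-- Regularity. -/
structure Ok [Fintype ι] : Prop where
  m0 : A.m 0 = 0
  mK : A.m (A.K + 1) = 1
  mono : ∀ l ≤ A.K, A.m l ≤ A.m (l + 1)
  pos : 0 < A.m 1
  lev : ∀ e, A.lev e ≤ A.K
  norm : ∀ x, ∑ i, A.sg x i ^ 2 = N
  lip : ∀ x, Lip fun z => A.E0 z x
  /-- `E0` does not depend on the pattern fields -/
  e0 : ∀ x z w, (∀ e, (∀ l ≤ A.K, ∀ i, e ≠ A.bc l i) → z e = w e) → A.E0 z x = A.E0 w x
  bcinj : ∀ l ≤ A.K, ∀ l' ≤ A.K, ∀ i i', A.bc l i = A.bc l' i' → l = l' ∧ i = i'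
  bclev : ∀ l ≤ A.K, ∀ i, A.lev (A.bc l i) = l

end GS

end Vale.Agent.P166.H
end
end

section

section

/-!
P166, full formula: the enriched model.

The enriched model has two families of Gaussian fields at each level `l = 0, …, K`: the site
fields `s_l ∑_i z_{l,i} x_i` and the block fields `∑_i u_{c(i),l} z'_{l,i} y_i`, `y = U x`; the
couplings are constant on the blocks `{i | c i = k}`. For each matrix `U` it is a system `Sy` of
the tree library `Vale.Agent.P157.Lv*`; `U` is averaged outside.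
-/

open MeasureTheory ProbabilityTheory Matrix

namespace Vale.Agent.P166

namespace Md

open Vale.Agent.P157 (spin)
open Vale.Agent.P157.Lv

/-- The coordinates: `(l, true, i)` for the site fields and `(l, false, i)` for the block
fields. -/
abbrev Ix (N K : ℕ) : Type := Fin (K + 1) × Bool × Fin N

variable {N K κ : ℕ}

/-- The levels. -/
def lvl (e : Ix N K) : ℕ := e.1

/-- The coordinates of the site field of the level `l`. -/
def sco (l : ℕ) (i : Fin N) : Ix N K := (Fin.ofNat (K + 1) l, true, i)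

/-- The coordinates of the block field of the level `l`. -/
def bco (l : ℕ) (i : Fin N) : Ix N K := (Fin.ofNat (K + 1) l, false, i)

/-- The parameters: couplings `b` of the blocks, strengths `s` of the site fields, strengths `u`
of the block fields. -/
@[ext] structure Pm (κ : ℕ) where
  b : Fin κ → ℝ
  s : ℕ → ℝ
  u : Fin κ → ℕ → ℝ

/-- The coordinates `y = U x` of a configuration. -/
def ph (U : Matrix (Fin N) (Fin N) ℝ) (x : Fin N → Bool) : Fin N → ℝ := U *ᵥ spin x

/-- The energy. -/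
noncomputable def en (c : Fin N → Fin κ) (P : Pm κ) (U : Matrix (Fin N) (Fin N) ℝ) :
    (Ix N K → ℝ) → (Fin N → Bool) → ℝ := fun z x =>
  ∑ i, P.b (c i) / 2 * ph U x i ^ 2 +
    ∑ l ∈ Finset.range (K + 1), P.s l * ∑ i, z (sco l i) * spin x i +
    ∑ l ∈ Finset.range (K + 1), ∑ i, P.u (c i) l * (z (bco l i) * ph U x i)

/-- The partial derivatives of the energy. -/
noncomputable def enD (c : Fin N → Fin κ) (P : Pm κ) (U : Matrix (Fin N) (Fin N) ℝ) :
    Ix N K → (Ix N K → ℝ) → (Fin N → Bool) → ℝ := fun e _ x =>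
  if e.2.1 then P.s e.1 * spin x e.2.2 else P.u (c e.2.2) e.1 * ph U x e.2.2

/-- The enriched model. -/
noncomputable def mdl (K : ℕ) (m : ℕ → ℝ) (c : Fin N → Fin κ) (P : Pm κ)
    (U : Matrix (Fin N) (Fin N) ℝ) : Sy (Ix N K) (Fin N → Bool) := ⟨lvl, K, m, en c P U⟩

/-- The part of the overlap in the block `k`. -/
noncomputable def Rb (c : Fin N → Fin κ) (U : Matrix (Fin N) (Fin N) ℝ) (k : Fin κ)
    (x x' : Fin N → Bool) : ℝ := 1 / N * ∑ i, if c i = k then ph U x i * ph U x' i else 0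

/-- The field of the level `l` in the block `k`, divided by `N`. -/
noncomputable def hb (c : Fin N → Fin κ) (U : Matrix (Fin N) (Fin N) ℝ) (k : Fin κ) (l : ℕ) :
    (Ix N K → ℝ) → (Fin N → Bool) → ℝ := fun z x =>
  1 / N * ∑ i, if c i = k then z (bco l i) * ph U x i else 0

variable [MeasurableSpace (orthogonalGroup (Fin N) ℝ)]

/-- The average over the orthogonal matrix. -/
noncomputable def EU (ν : Measure (orthogonalGroup (Fin N) ℝ))
    (f : Matrix (Fin N) (Fin N) ℝ → ℝ) : ℝ := ∫ U, f U.1 ∂ν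

/-- The mean free energy per spin (with respect to the uniform measure on the cube). -/
noncomputable def Fe (ν : Measure (orthogonalGroup (Fin N) ℝ)) (K : ℕ) (m : ℕ → ℝ)
    (c : Fin N → Fin κ) (P : Pm κ) : ℝ :=
  1 / N * EU ν (fun U => (mdl K m c P U).fe) - Real.log 2

/-- The mean self-overlap of the block `k`. -/
noncomputable def rho (ν : Measure (orthogonalGroup (Fin N) ℝ)) (K : ℕ) (m : ℕ → ℝ)
    (c : Fin N → Fin κ) (P : Pm κ) (k : Fin κ) : ℝ :=
  EU ν (fun U => (mdl K m c P U).Ex (fun _ x => Rb c U k x x))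

/-- The mean overlap of the block `k` of two replicas which split at the level `l`. -/
noncomputable def Rkl (ν : Measure (orthogonalGroup (Fin N) ℝ)) (K : ℕ) (m : ℕ → ℝ)
    (c : Fin N → Fin κ) (P : Pm κ) (k : Fin κ) (l : ℕ) : ℝ :=
  EU ν (fun U => (mdl K m c P U).pairEx l (Rb c U k))

end Md

end Vale.Agent.P166
end
end

section

section

/-!
The free energy of the fields alone, and of energies of the level zero.
-/

open MeasureTheory ProbabilityTheory Filter Topology

namespace Vale.Agent.P157.Lv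

set_option linter.unusedSectionVars false

open Par (topN lw)

variable {ι X : Type} [Fintype ι] [DecidableEq ι] [Fintype X] [Nonempty X]
  {S : Sy ι X} {D : ι → (ι → ℝ) → X → ℝ}

/-- The coordinates at distinct places are independent standard Gaussian. -/
lemma lf_map {N : ℕ} {c : Fin N → ι} (hc : Function.Injective c) :
    MeasurePreserving (fun (z : ι → ℝ) (i : Fin N) => z (c i)) (gI ι) (Par.gN N) := by
  have hm : Measurable (fun (z : ι → ℝ) (i : Fin N) => z (c i)) :=
    measurable_pi_iff.2 fun i => measurable_pi_apply (c i)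
  refine ⟨hm, ?_⟩
  have h : iIndepFun (fun (i : ι) (z : ι → ℝ) => z i) (gI ι) :=
    iIndepFun_pi (μ := fun _ : ι => gaussianReal 0 1) (X := fun _ x => x) fun _ => aemeasurable_id
  have h2 : iIndepFun (fun (i : Fin N) (z : ι → ℝ) => z (c i)) (gI ι) := h.precomp hc
  have h3 := (iIndepFun_iff_map_fun_eq_pi_map
    (fun i => (measurable_pi_apply (c i)).aemeasurable)).1 h2
  rw [h3]
  unfold Par.gN
  congr 1
  funext i
  exact (measurePreserving_eval (fun _ : ι => gaussianReal 0 1) (c i)).map_eq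

/-- The field at the level `l`. -/
def lfY {N : ℕ} (zc : ℕ → Fin N → ι) (s : ℕ → ℝ) (l : ℕ) (z : ι → ℝ) : Fin N → ℝ :=
  fun i => ∑ j ∈ Finset.range (l + 1), s j * z (zc j i)

lemma lf_measurable_gstepN {N : ℕ} (m v : ℝ) {G : (Fin N → ℝ) → ℝ} (hG : Measurable G) :
    Measurable (Par.gstepN m v G) := by
  unfold Par.gstepN
  have h : StronglyMeasurable (fun p : (Fin N → ℝ) × (Fin N → ℝ) =>
      Real.exp (m * G (p.1 + √v • p.2))) := by
    apply Measurable.stronglyMeasurable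
    exact Real.measurable_exp.comp ((hG.comp
      (measurable_fst.add (measurable_snd.const_smul (√v)))).const_mul m)
  have h2 : StronglyMeasurable fun y : Fin N → ℝ =>
      ∫ z, Real.exp (m * G (y + √v • z)) ∂(Par.gN N) :=
    h.integral_prod_right' (ν := Par.gN N)
  exact (Real.measurable_log.comp h2.measurable).const_mul _

/-- The values of the recursion are the iterated steps of `topN`. -/
lemma lf_key {N : ℕ} {φ : X → Fin N → ℝ} {u : X → ℝ} {zc : ℕ → Fin N → ι}
    (hz : ∀ l ≤ S.K, ∀ i, S.lev (zc l i) = l) (hi : ∀ l ≤ S.K, Function.Injective (zc l))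
    {s : ℕ → ℝ} (hs : ∀ l ≤ S.K, 0 ≤ s l)
    (hH : ∀ z x, S.H z x = u x + ∑ l ∈ Finset.range (S.K + 1), s l * ∑ i, z (zc l i) * φ x i)
    {l : ℕ} (hl : l ≤ S.K) :
    ∃ G : (Fin N → ℝ) → ℝ, Measurable G ∧ (∀ z, S.lg l z = G (lfY zc s l z)) ∧
      topN S.m (fun l => ∑ j ∈ Finset.range (l + 1), s j ^ 2) S.K (lw φ 1 u) =
        topN S.m (fun l => ∑ j ∈ Finset.range (l + 1), s j ^ 2) l G := by
  refine Sy.down_ind (P := fun l => ∃ G : (Fin N → ℝ) → ℝ, Measurable G ∧
      (∀ z, S.lg l z = G (lfY zc s l z)) ∧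
      topN S.m (fun l => ∑ j ∈ Finset.range (l + 1), s j ^ 2) S.K (lw φ 1 u) =
        topN S.m (fun l => ∑ j ∈ Finset.range (l + 1), s j ^ 2) l G) ?_ ?_ l hl
  · refine ⟨lw φ 1 u, ?_, fun z => ?_, rfl⟩
    · unfold lw
      refine Real.measurable_log.comp (Finset.measurable_sum _ fun x _ => ?_)
      refine Real.measurable_exp.comp (measurable_const.add (Measurable.const_mul ?_ _))
      exact Finset.measurable_sum _ fun i _ => (measurable_pi_apply i).mul_const _
    · rw [Sy.lg_top]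
      unfold Sy.top lw
      congr 1
      refine Finset.sum_congr rfl fun x _ => ?_
      rw [hH]
      congr 2
      rw [one_mul]
      simp only [lfY, Finset.sum_mul, Finset.mul_sum]
      rw [Finset.sum_comm]
      refine Finset.sum_congr rfl fun i _ => Finset.sum_congr rfl fun j _ => ?_
      ring
  · rintro l hl ⟨G, hG, hG1, hG2⟩
    have hv : (∑ j ∈ Finset.range (l + 1 + 1), s j ^ 2) - ∑ j ∈ Finset.range (l + 1), s j ^ 2 =
        s (l + 1) ^ 2 := by
      rw [Finset.sum_range_succ _ (l + 1)]; ring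
    refine ⟨Par.gstepN (S.m (l + 1)) (s (l + 1) ^ 2) G, lf_measurable_gstepN _ _ hG,
      fun z => ?_, ?_⟩
    · rw [Sy.lg_step S hl]
      unfold Sy.stp Par.gstepN J
      congr 2
      rw [Real.sqrt_sq (hs _ (by omega)), ← (lf_map (hi (l + 1) (by omega))).map_eq,
        integral_map (lf_map (hi (l + 1) (by omega))).measurable.aemeasurable]
      · refine integral_congr_ae (Filter.Eventually.of_forall fun w => ?_)
        simp only
        rw [hG1]
        congr 3
        funext i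
        simp only [lfY, Pi.add_apply, Pi.smul_apply, smul_eq_mul]
        rw [Finset.sum_range_succ]
        congr 1
        · refine Finset.sum_congr rfl fun j hj => ?_
          have hj' : j < l + 1 := Finset.mem_range.1 hj
          simp only [mix]
          rw [if_pos (by rw [hz j (by omega)]; omega)]
        · simp only [mix]
          rw [if_neg (by rw [hz (l + 1) (by omega)]; omega)]
      · apply Measurable.aestronglyMeasurable
        exact Real.measurable_exp.comp ((hG.comp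
          (measurable_const.add (measurable_id.const_smul (s (l + 1))))).const_mul _)
    · rw [hG2, Par.topN_succ_def, hv]

/-- The free energy of the fields alone. Proof: downward induction, `lg l z` is the iterated
`gstepN` of `lw φ 1 u` at the point `∑_{j ≤ l} s_j z_j` (the coordinates `zc l i` of the level `l`
are independent standard Gaussian). -/
theorem fe_field {N : ℕ} (hS : S.RegD D) {φ : X → Fin N → ℝ} {u : X → ℝ} {zc : ℕ → Fin N → ι}
    (hz : ∀ l ≤ S.K, ∀ i, S.lev (zc l i) = l) (hi : ∀ l ≤ S.K, Function.Injective (zc l))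
    {s : ℕ → ℝ} (hs : ∀ l ≤ S.K, 0 ≤ s l)
    (hH : ∀ z x, S.H z x = u x + ∑ l ∈ Finset.range (S.K + 1), s l * ∑ i, z (zc l i) * φ x i) :
    S.fe = topN S.m (fun l => ∑ j ∈ Finset.range (l + 1), s j ^ 2) S.K (lw φ 1 u) := by
  obtain ⟨G, hG, hG1, hG2⟩ := lf_key hz hi hs hH (Nat.zero_le S.K)
  rw [hG2]
  unfold Sy.fe topN
  rw [show (∑ j ∈ Finset.range (0 + 1), s j ^ 2) = s 0 ^ 2 by simp,
    Real.sqrt_sq (hs 0 (Nat.zero_le _)), ← (lf_map (hi 0 (Nat.zero_le _))).map_eq,
    integral_map (lf_map (hi 0 (Nat.zero_le _))).measurable.aemeasurable]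
  · refine integral_congr_ae (Filter.Eventually.of_forall fun z => ?_)
    simp only
    rw [hG1]
    congr 1
    funext i
    simp [lfY]
  · apply Measurable.aestronglyMeasurable
    exact hG.comp (measurable_id.const_smul (s 0))

/-- If the energy depends only on the coordinates of level zero, the levels disappear. -/
theorem fe_level_zero (hS : S.Reg) (h : ∀ x, Dep S.lev 0 fun z => S.H z x) :
    S.fe = ∫ z, S.top z ∂(gI ι) := by
  have key : S.lg 0 = S.top := by
    refine Sy.down_ind (P := fun l => S.lg l = S.top) (Sy.lg_top S) (fun l hl ih => ?_) 0 (Nat.zero_le _)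
    rw [Sy.lg_step S hl, ih]
    funext z
    have hd : Dep S.lev l (fun z => Real.exp (S.m (l + 1) * S.top z)) := by
      intro z w
      simp only
      congr 2
      unfold Sy.top
      congr 1
      refine Finset.sum_congr rfl fun x _ => ?_
      exact congrArg Real.exp ((h x).mono (Nat.zero_le l) z w)
    have hm : S.m (l + 1) ≠ 0 := (hS.m_pos (by omega) (by omega)).ne'
    unfold Sy.stp
    rw [hd.J_eq, Real.log_exp]
    field_simp
  unfold Sy.fe
  rw [key]

end Vale.Agent.P157.Lv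
end
end

section

section

namespace Vale.Agent.P166

open MeasureTheory Matrix Filter Topology

section LogSumExp

theorem log_sum_exp_tangent {ι : Type*} (S : Finset ι) (hS : S.Nonempty) (h h' : ι → ℝ) :
    Real.log (∑ s ∈ S, Real.exp (h s)) +
      (∑ s ∈ S, Real.exp (h s) * (h' s - h s)) / (∑ s ∈ S, Real.exp (h s))
      ≤ Real.log (∑ s ∈ S, Real.exp (h' s)) := by
  set Z := ∑ s ∈ S, Real.exp (h s) with hZ
  have hZpos : 0 < Z := Finset.sum_pos (fun s _ => Real.exp_pos _) hS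
  set m := (∑ s ∈ S, Real.exp (h s) * (h' s - h s)) / Z with hm
  have hmZ : m * Z = ∑ s ∈ S, Real.exp (h s) * (h' s - h s) := by
    rw [hm]; field_simp
  have key : Real.exp m * Z ≤ ∑ s ∈ S, Real.exp (h' s) := by
    have h1 : ∑ s ∈ S, Real.exp m * (Real.exp (h s) * (1 + ((h' s - h s) - m))) ≤
        ∑ s ∈ S, Real.exp (h' s) := by
      apply Finset.sum_le_sum
      intro s _
      have h1 : (h' s - h s - m) + 1 ≤ Real.exp (h' s - h s - m) := Real.add_one_le_exp _
      have h2 : Real.exp (h' s) = Real.exp m * (Real.exp (h s) * Real.exp (h' s - h s - m)) := by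
        rw [← Real.exp_add, ← Real.exp_add]; congr 1; ring
      rw [h2]
      gcongr
      linarith
    have h2 : ∑ s ∈ S, Real.exp m * (Real.exp (h s) * (1 + ((h' s - h s) - m))) =
        Real.exp m * Z := by
      rw [← Finset.mul_sum]
      congr 1
      have : ∀ s ∈ S, Real.exp (h s) * (1 + ((h' s - h s) - m)) =
          Real.exp (h s) + Real.exp (h s) * (h' s - h s) - m * Real.exp (h s) := by
        intro s _; ring
      rw [Finset.sum_congr rfl this, Finset.sum_sub_distrib, Finset.sum_add_distrib, ← hmZ,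
        ← Finset.mul_sum, ← hZ]
      ring
    linarith
  have h3 : Real.log (Real.exp m * Z) = m + Real.log Z := by
    rw [Real.log_mul (Real.exp_pos _).ne' hZpos.ne', Real.log_exp]
  have h4 := Real.log_le_log (by positivity) key
  linarith

theorem log_sum_exp_mono {ι : Type*} (S : Finset ι) (hS : S.Nonempty) (h h' : ι → ℝ)
    (hle : ∀ s ∈ S, h s ≤ h' s) :
    Real.log (∑ s ∈ S, Real.exp (h s)) ≤ Real.log (∑ s ∈ S, Real.exp (h' s)) := by
  apply Real.log_le_log (Finset.sum_pos (fun s _ => Real.exp_pos _) hS)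
  exact Finset.sum_le_sum fun s hs => Real.exp_le_exp.mpr (hle s hs)

end LogSumExp

section Abel

/-- Summation by parts. -/
theorem abel_nonneg : ∀ (n : ℕ) (g x : Fin n → ℝ), Antitone g → (∀ i, 0 ≤ g i) →
    (∀ j : ℕ, 0 ≤ ∑ k : Fin n, if k.val < j then x k else 0) → 0 ≤ ∑ k, g k * x k := by
  intro n
  induction n with
  | zero => intro g x _ _ _; simp
  | succ n ih =>
    intro g x hg hg0 hx
    have h1 : ∑ k, g k * x k = (∑ k, (g k - g (Fin.last n)) * x k) +
        g (Fin.last n) * ∑ k, x k := by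
      rw [Finset.mul_sum, ← Finset.sum_add_distrib]
      apply Finset.sum_congr rfl; intro k _; ring
    have h2 : 0 ≤ ∑ k, x k := by
      have := hx (n + 1)
      have h3 : (∑ k : Fin (n + 1), if k.val < n + 1 then x k else 0) = ∑ k, x k := by
        apply Finset.sum_congr rfl; intro k _; rw [if_pos k.isLt]
      rwa [h3] at this
    have h3 : 0 ≤ ∑ k, (g k - g (Fin.last n)) * x k := by
      rw [Fin.sum_univ_castSucc]
      simp only [sub_self, zero_mul, add_zero]
      apply ih (fun k => g k.castSucc - g (Fin.last n)) (fun k => x k.castSucc)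
      · intro a b hab
        simp only
        have := hg (Fin.castSucc_le_castSucc_iff.mpr hab)
        linarith
      · intro i
        have := hg (Fin.le_last i.castSucc)
        linarith
      · intro j
        have h4 := hx (min j n)
        rw [Fin.sum_univ_castSucc] at h4
        simp only [Fin.val_last, Fin.val_castSucc] at h4
        have h5 : ¬ (n < min j n) := by omega
        rw [if_neg h5, add_zero] at h4
        have h6 : (∑ k : Fin n, if k.val < min j n then x k.castSucc else 0) =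
            ∑ k : Fin n, if k.val < j then x k.castSucc else 0 := by
          apply Finset.sum_congr rfl
          intro k _
          have : (k.val < min j n) ↔ (k.val < j) := by
            have := k.isLt
            omega
          simp [this]
        rwa [h6] at h4
    rw [h1]
    have := mul_nonneg (hg0 (Fin.last n)) h2
    linarith

/-- Weak majorization (increasing convex order) and symmetric functions with nonnegative
subgradients. -/
theorem icx_le_of_subgradient {N : ℕ} (F : (Fin N → ℝ) → ℝ)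
    (hsymm : ∀ (π : Equiv.Perm (Fin N)) (a : Fin N → ℝ), F (a ∘ π) = F a)
    (hsub : ∀ a : Fin N → ℝ, ∃ g : Fin N → ℝ, (∀ i, 0 ≤ g i) ∧
      ∀ b : Fin N → ℝ, F a + ∑ i, (b i - a i) * g i ≤ F b)
    (a b : Fin N → ℝ)
    (hab : ∀ t : ℝ, ∑ i, max (a i - t) 0 ≤ ∑ i, max (b i - t) 0) : F a ≤ F b := by
  obtain ⟨g, hg0, hg⟩ := hsub a
  set α : Equiv.Perm (Fin N) := Tuple.sort (fun i => - g i) with hα
  set γ : Equiv.Perm (Fin N) := Tuple.sort (fun i => - b i) with hγ
  have hαm : Antitone (fun k => g (α k)) := by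
    have := Tuple.monotone_sort (fun i => - g i)
    intro i j hij
    have := this hij
    simp only [Function.comp] at this
    simp only [hα]
    linarith
  have hγm : Antitone (fun k => b (γ k)) := by
    have := Tuple.monotone_sort (fun i => - b i)
    intro i j hij
    have := this hij
    simp only [Function.comp] at this
    simp only [hγ]
    linarith
  have h1 := hg (b ∘ (α.symm.trans γ))
  rw [hsymm] at h1
  have h2 : ∑ i, ((b ∘ (α.symm.trans γ)) i - a i) * g i =
      ∑ k, g (α k) * (b (γ k) - a (α k)) := by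
    rw [← Equiv.sum_comp α]
    apply Finset.sum_congr rfl
    intro k _
    simp [mul_comm]
  have h3 : 0 ≤ ∑ k, g (α k) * (b (γ k) - a (α k)) := by
    apply abel_nonneg N (fun k => g (α k)) (fun k => b (γ k) - a (α k)) hαm (fun k => hg0 _)
    intro j
    rcases Nat.eq_zero_or_pos j with hj | hj
    · subst hj; simp
    rcases Nat.eq_zero_or_pos N with hN | hN
    · subst hN; simp
    set j' : ℕ := min j N with hj'
    have hj'pos : 0 < j' := by omega
    have hj'N : j' ≤ N := by omega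
    have e1 : (∑ k : Fin N, if k.val < j then b (γ k) - a (α k) else 0) =
        ∑ k : Fin N, if k.val < j' then b (γ k) - a (α k) else 0 := by
      apply Finset.sum_congr rfl
      intro k _
      have : (k.val < j) ↔ (k.val < j') := by
        have := k.isLt
        omega
      simp [this]
    rw [e1]
    set t : ℝ := b (γ ⟨j' - 1, by omega⟩) with ht
    have e2 : ∑ i, max (b i - t) 0 = ∑ k : Fin N, if k.val < j' then b (γ k) - t else 0 := by
      rw [← Equiv.sum_comp γ]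
      apply Finset.sum_congr rfl
      intro k _
      split_ifs with hk
      · apply max_eq_left
        have : b (γ ⟨j' - 1, by omega⟩) ≤ b (γ k) := hγm (by
          rw [Fin.le_def]; simp only; omega)
        linarith
      · apply max_eq_right
        have : b (γ k) ≤ b (γ ⟨j' - 1, by omega⟩) := hγm (by
          rw [Fin.le_def]; simp only; omega)
        linarith
    have e3 : (∑ k : Fin N, if k.val < j' then a (α k) - t else 0) ≤ ∑ i, max (a i - t) 0 := by
      rw [← Equiv.sum_comp α (fun i => max (a i - t) 0)]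
      apply Finset.sum_le_sum
      intro k _
      split_ifs with hk
      · exact le_max_left (a (α k) - t) 0
      · exact le_max_right (a (α k) - t) 0
    have e4 : (∑ k : Fin N, if k.val < j' then b (γ k) - a (α k) else 0) =
        (∑ k : Fin N, if k.val < j' then b (γ k) - t else 0) -
        ∑ k : Fin N, if k.val < j' then a (α k) - t else 0 := by
      rw [← Finset.sum_sub_distrib]
      apply Finset.sum_congr rfl
      intro k _
      split_ifs <;> ring
    have := hab t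
    rw [e4]
    linarith
  rw [h2] at h1
  linarith

end Abel

end Vale.Agent.P166
end
end

section

section

namespace Vale.Agent.P166

open MeasureTheory Matrix Filter Topology

/-- The cube of sign vectors. -/
noncomputable abbrev cube (N : ℕ) : Finset (Fin N → ℝ) :=
  Fintype.piFinset (fun _ : Fin N => ({-1, 1} : Finset ℝ))

/-- Energy. -/
noncomputable def en {N : ℕ} (β : ℝ) (a : Fin N → ℝ) (U : Matrix (Fin N) (Fin N) ℝ)
    (σ : Fin N → ℝ) : ℝ :=
  β / 2 * ∑ i, a i * ((U *ᵥ σ) i) ^ 2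

/-- Logarithm of the unnormalised partition function. -/
noncomputable def LZ {N : ℕ} (β : ℝ) (a : Fin N → ℝ) (U : Matrix (Fin N) (Fin N) ℝ) : ℝ :=
  Real.log (∑ σ ∈ cube N, Real.exp (en β a U σ))

/-- Gradient. -/
noncomputable def GZ {N : ℕ} (β : ℝ) (a : Fin N → ℝ) (U : Matrix (Fin N) (Fin N) ℝ) (i : Fin N) :
    ℝ :=
  (∑ σ ∈ cube N, Real.exp (en β a U σ) * (β / 2 * ((U *ᵥ σ) i) ^ 2)) /
    (∑ σ ∈ cube N, Real.exp (en β a U σ))

theorem cube_nonempty (N : ℕ) : (cube N).Nonempty := by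
  refine ⟨fun _ => 1, ?_⟩
  simp [cube, Fintype.mem_piFinset]

theorem sq_of_mem_cube {N : ℕ} {σ : Fin N → ℝ} (hσ : σ ∈ cube N) (i : Fin N) : σ i ^ 2 = 1 := by
  have := (Fintype.mem_piFinset.mp hσ) i
  simp only [Finset.mem_insert, Finset.mem_singleton] at this
  rcases this with h | h <;> rw [h] <;> norm_num

theorem quad_form {N : ℕ} (U : Matrix (Fin N) (Fin N) ℝ) (a σ : Fin N → ℝ) :
    σ ⬝ᵥ ((Uᵀ * diagonal a * U) *ᵥ σ) = ∑ i, a i * ((U *ᵥ σ) i) ^ 2 := by
  rw [← Matrix.mulVec_mulVec, ← Matrix.mulVec_mulVec, Matrix.dotProduct_mulVec,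
    Matrix.vecMul_transpose]
  simp only [dotProduct, Matrix.mulVec_diagonal]
  apply Finset.sum_congr rfl
  intro i _
  ring

theorem norm_rot {N : ℕ} (U : Matrix.orthogonalGroup (Fin N) ℝ) {σ : Fin N → ℝ}
    (hσ : σ ∈ cube N) : ∑ i, ((U.1 *ᵥ σ) i) ^ 2 = N := by
  have h1 := quad_form U.1 (fun _ => 1) σ
  simp only [one_mul] at h1
  rw [← h1]
  have h2 : (U.1)ᵀ * diagonal (fun _ => (1 : ℝ)) * U.1 = 1 := by
    rw [Matrix.diagonal_one, Matrix.mul_one]
    exact (Matrix.mem_orthogonalGroup_iff' (Fin N) ℝ).mp U.2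
  rw [h2, Matrix.one_mulVec]
  simp only [dotProduct]
  have : ∀ i ∈ Finset.univ, σ i * σ i = (1 : ℝ) := by
    intro i _
    have := sq_of_mem_cube hσ i
    nlinarith
  rw [Finset.sum_congr rfl this]
  simp

theorem pressure_eq {N : ℕ} (hN : 0 < N) (β : ℝ) (a : Fin N → ℝ)
    (U : Matrix (Fin N) (Fin N) ℝ) :
    pressure N β (Uᵀ * diagonal a * U) = (1 / (N : ℝ)) * LZ β a U - Real.log 2 := by
  unfold pressure LZ en
  have hpos : 0 < ∑ σ ∈ cube N, Real.exp (β / 2 * ∑ i, a i * ((U *ᵥ σ) i) ^ 2) :=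
    Finset.sum_pos (fun s _ => Real.exp_pos _) (cube_nonempty N)
  simp only [quad_form]
  rw [Real.log_mul (by positivity) hpos.ne', Real.log_pow, Real.log_inv]
  have : (N : ℝ) ≠ 0 := by positivity
  field_simp
  ring

theorem GZ_nonneg {N : ℕ} {β : ℝ} (hβ : 0 ≤ β) (a : Fin N → ℝ) (U : Matrix (Fin N) (Fin N) ℝ)
    (i : Fin N) : 0 ≤ GZ β a U i := by
  unfold GZ
  apply div_nonneg
  · apply Finset.sum_nonneg; intro σ _; positivity
  · apply Finset.sum_nonneg; intro σ _; positivity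

theorem LZ_tangent {N : ℕ} (β : ℝ) (a b : Fin N → ℝ) (U : Matrix (Fin N) (Fin N) ℝ) :
    LZ β a U + ∑ i, (b i - a i) * GZ β a U i ≤ LZ β b U := by
  have h := log_sum_exp_tangent (cube N) (cube_nonempty N) (en β a U) (en β b U)
  have h2 : (∑ s ∈ cube N, Real.exp (en β a U s) * (en β b U s - en β a U s)) /
      (∑ s ∈ cube N, Real.exp (en β a U s)) = ∑ i, (b i - a i) * GZ β a U i := by
    unfold GZ
    have : ∀ i ∈ Finset.univ, (b i - a i) * ((∑ σ ∈ cube N, Real.exp (en β a U σ) *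
        (β / 2 * ((U *ᵥ σ) i) ^ 2)) / (∑ σ ∈ cube N, Real.exp (en β a U σ))) =
        ((b i - a i) * (∑ σ ∈ cube N, Real.exp (en β a U σ) *
        (β / 2 * ((U *ᵥ σ) i) ^ 2))) / (∑ σ ∈ cube N, Real.exp (en β a U σ)) := by
      intro i _; ring
    rw [Finset.sum_congr rfl this, ← Finset.sum_div]
    congr 1
    simp_rw [Finset.mul_sum]
    rw [Finset.sum_comm]
    apply Finset.sum_congr rfl
    intro σ _
    have e1 : en β b U σ - en β a U σ = ∑ i, β / 2 * ((b i - a i) * ((U *ᵥ σ) i) ^ 2) := by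
      unfold en
      rw [← mul_sub, ← Finset.sum_sub_distrib, Finset.mul_sum]
      apply Finset.sum_congr rfl
      intro i _
      ring
    rw [e1, Finset.mul_sum]
    apply Finset.sum_congr rfl
    intro i _
    ring
  rw [h2] at h
  exact h

theorem LZ_mono {N : ℕ} {β : ℝ} (hβ : 0 ≤ β) (a b : Fin N → ℝ) (hab : ∀ i, a i ≤ b i)
    (U : Matrix (Fin N) (Fin N) ℝ) : LZ β a U ≤ LZ β b U := by
  apply log_sum_exp_mono (cube N) (cube_nonempty N)
  intro σ _
  unfold en
  gcongr with i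
  exact hab i

theorem LZ_shift {N : ℕ} (β : ℝ) (a : Fin N → ℝ) (c : ℝ)
    (U : Matrix.orthogonalGroup (Fin N) ℝ) :
    LZ β (fun i => a i + c) U.1 = LZ β a U.1 + β / 2 * c * N := by
  unfold LZ
  have hpos : 0 < ∑ σ ∈ cube N, Real.exp (en β a U.1 σ) :=
    Finset.sum_pos (fun s _ => Real.exp_pos _) (cube_nonempty N)
  have h1 : ∀ σ ∈ cube N, Real.exp (en β (fun i => a i + c) U.1 σ) =
      Real.exp (en β a U.1 σ) * Real.exp (β / 2 * c * N) := by
    intro σ hσ
    rw [← Real.exp_add]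
    congr 1
    unfold en
    have := norm_rot U hσ
    rw [← this]
    rw [Finset.mul_sum, Finset.mul_sum, Finset.mul_sum, ← Finset.sum_add_distrib]
    apply Finset.sum_congr rfl
    intro i _
    ring
  rw [Finset.sum_congr rfl h1, ← Finset.sum_mul, Real.log_mul hpos.ne' (Real.exp_pos _).ne',
    Real.log_exp]

/-- The permutation matrix as an element of the orthogonal group. -/
noncomputable def permO {N : ℕ} (π : Equiv.Perm (Fin N)) : Matrix.orthogonalGroup (Fin N) ℝ :=
  ⟨Equiv.Perm.permMatrix ℝ π, by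
    rw [Matrix.mem_orthogonalGroup_iff, Matrix.transpose_permMatrix, ← Matrix.permMatrix_mul,
      inv_mul_cancel, Matrix.permMatrix_one]⟩

theorem LZ_perm {N : ℕ} (β : ℝ) (π : Equiv.Perm (Fin N)) (a : Fin N → ℝ)
    (U : Matrix.orthogonalGroup (Fin N) ℝ) :
    LZ β a (permO π * U : Matrix.orthogonalGroup (Fin N) ℝ).1 = LZ β (a ∘ π.symm) U.1 := by
  unfold LZ
  congr 1
  apply Finset.sum_congr rfl
  intro σ _
  congr 1
  unfold en
  congr 1
  have h1 : (permO π * U : Matrix.orthogonalGroup (Fin N) ℝ).1 *ᵥ σ = (U.1 *ᵥ σ) ∘ π := by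
    have : (permO π * U : Matrix.orthogonalGroup (Fin N) ℝ).1 =
        Equiv.Perm.permMatrix ℝ π * U.1 := rfl
    rw [this, ← Matrix.mulVec_mulVec, Matrix.permMatrix_mulVec]
  rw [h1, ← Equiv.sum_comp π.symm]
  apply Finset.sum_congr rfl
  intro i _
  simp

end Vale.Agent.P166
end
end

section

section

namespace Vale.Agent.P166

open MeasureTheory Matrix Filter Topology

variable {N : ℕ}

theorem continuous_en (β : ℝ) (a : Fin N → ℝ) (σ : Fin N → ℝ) :
    Continuous (fun U : Matrix.orthogonalGroup (Fin N) ℝ => en β a U.1 σ) := by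
  unfold en
  have : Continuous (fun U : Matrix.orthogonalGroup (Fin N) ℝ => U.1 *ᵥ σ) :=
    Continuous.matrix_mulVec continuous_subtype_val continuous_const
  fun_prop

theorem continuous_LZ (β : ℝ) (a : Fin N → ℝ) :
    Continuous (fun U : Matrix.orthogonalGroup (Fin N) ℝ => LZ β a U.1) := by
  unfold LZ
  apply Continuous.log
  · apply continuous_finsetSum
    intro σ _
    exact Real.continuous_exp.comp (continuous_en β a σ)
  · intro U
    exact (Finset.sum_pos (fun s _ => Real.exp_pos _) (cube_nonempty N)).ne'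

theorem continuous_GZ (β : ℝ) (a : Fin N → ℝ) (i : Fin N) :
    Continuous (fun U : Matrix.orthogonalGroup (Fin N) ℝ => GZ β a U.1 i) := by
  unfold GZ
  apply Continuous.div
  · apply continuous_finsetSum
    intro σ _
    have : Continuous (fun U : Matrix.orthogonalGroup (Fin N) ℝ => U.1 *ᵥ σ) :=
      Continuous.matrix_mulVec continuous_subtype_val continuous_const
    have h2 := continuous_en β a σ
    fun_prop
  · apply continuous_finsetSum
    intro σ _
    exact Real.continuous_exp.comp (continuous_en β a σ)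
  · intro U
    exact (Finset.sum_pos (fun s _ => Real.exp_pos _) (cube_nonempty N)).ne'

theorem en_le (β : ℝ) (hβ : 0 ≤ β) (a : Fin N → ℝ) (R : ℝ) (ha : ∀ i, |a i| ≤ R)
    (U : Matrix.orthogonalGroup (Fin N) ℝ) {σ : Fin N → ℝ} (hσ : σ ∈ cube N) :
    |en β a U.1 σ| ≤ β / 2 * (R * N) := by
  unfold en
  rw [abs_mul, abs_of_nonneg (by positivity : 0 ≤ β / 2)]
  gcongr
  calc |∑ i, a i * ((U.1 *ᵥ σ) i) ^ 2| ≤ ∑ i, |a i * ((U.1 *ᵥ σ) i) ^ 2| :=
        Finset.abs_sum_le_sum_abs _ _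
    _ ≤ ∑ i, R * ((U.1 *ᵥ σ) i) ^ 2 := by
        apply Finset.sum_le_sum
        intro i _
        rw [abs_mul, abs_of_nonneg (sq_nonneg ((U.1 *ᵥ σ) i))]
        gcongr
        exact ha i
    _ = R * N := by rw [← Finset.mul_sum, norm_rot U hσ]

theorem card_cube : (cube N).card = 2 ^ N := by
  unfold cube
  rw [Fintype.card_piFinset]
  simp only [Finset.prod_const, Finset.card_univ, Fintype.card_fin]
  congr 1
  rw [Finset.card_pair]
  norm_num

theorem LZ_bound (β : ℝ) (hβ : 0 ≤ β) (a : Fin N → ℝ) (R : ℝ) (ha : ∀ i, |a i| ≤ R)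
    (U : Matrix.orthogonalGroup (Fin N) ℝ) :
    |LZ β a U.1| ≤ N * Real.log 2 + β / 2 * (R * N) := by
  have hlow : ∀ σ ∈ cube N, Real.exp (-(β / 2 * (R * N))) ≤ Real.exp (en β a U.1 σ) := by
    intro σ hσ
    apply Real.exp_le_exp.mpr
    exact (abs_le.mp (en_le β hβ a R ha U hσ)).1
  have hup : ∀ σ ∈ cube N, Real.exp (en β a U.1 σ) ≤ Real.exp (β / 2 * (R * N)) := by
    intro σ hσ
    apply Real.exp_le_exp.mpr
    exact (abs_le.mp (en_le β hβ a R ha U hσ)).2
  have h1 : (2 : ℝ) ^ N * Real.exp (-(β / 2 * (R * N))) ≤ ∑ σ ∈ cube N, Real.exp (en β a U.1 σ) := by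
    have := Finset.sum_le_sum hlow
    rw [Finset.sum_const, card_cube] at this
    simpa only [ge_iff_le, nsmul_eq_mul, Nat.cast_pow, Nat.cast_ofNat] using this
  have h2 : ∑ σ ∈ cube N, Real.exp (en β a U.1 σ) ≤ (2 : ℝ) ^ N * Real.exp (β / 2 * (R * N)) := by
    have := Finset.sum_le_sum hup
    rw [Finset.sum_const, card_cube] at this
    simpa only [ge_iff_le, nsmul_eq_mul, Nat.cast_pow, Nat.cast_ofNat] using this
  have hpos : 0 < ∑ σ ∈ cube N, Real.exp (en β a U.1 σ) :=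
    Finset.sum_pos (fun s _ => Real.exp_pos _) (cube_nonempty N)
  have h3 := Real.log_le_log (by positivity) h1
  have h4 := Real.log_le_log hpos h2
  rw [Real.log_mul (by positivity) (Real.exp_pos _).ne', Real.log_exp, Real.log_pow] at h3 h4
  have h5 : 0 ≤ (N : ℝ) * Real.log 2 := by (clear * -; positivity)
  unfold LZ
  rw [abs_le]
  constructor
  · linarith only [h3, h5]
  · linarith only [h4]

theorem exists_abs_bound (a : Fin N → ℝ) : ∃ R : ℝ, ∀ i, |a i| ≤ R := by
  refine ⟨∑ i, |a i|, fun i => ?_⟩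
  exact Finset.single_le_sum (f := fun i => |a i|) (fun j _ => abs_nonneg _) (Finset.mem_univ i)

section Measure

variable [MeasurableSpace (Matrix.orthogonalGroup (Fin N) ℝ)]
  [BorelSpace (Matrix.orthogonalGroup (Fin N) ℝ)]
  (ν : Measure (Matrix.orthogonalGroup (Fin N) ℝ)) [IsProbabilityMeasure ν]

theorem integrable_LZ {β : ℝ} (hβ : 0 ≤ β) (a : Fin N → ℝ) :
    Integrable (fun U : Matrix.orthogonalGroup (Fin N) ℝ => LZ β a U.1) ν := by
  obtain ⟨R, hR⟩ := exists_abs_bound a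
  apply Integrable.of_bound (continuous_LZ β a).measurable.aestronglyMeasurable
    (N * Real.log 2 + β / 2 * (R * N))
  filter_upwards with U
  rw [Real.norm_eq_abs]
  exact LZ_bound β hβ a R hR U

theorem GZ_le {β : ℝ} (hβ : 0 ≤ β) (a : Fin N → ℝ) (U : Matrix.orthogonalGroup (Fin N) ℝ)
    (i : Fin N) : GZ β a U.1 i ≤ β / 2 * N := by
  unfold GZ
  have hpos : 0 < ∑ σ ∈ cube N, Real.exp (en β a U.1 σ) :=
    Finset.sum_pos (fun s _ => Real.exp_pos _) (cube_nonempty N)
  rw [div_le_iff₀ hpos, Finset.mul_sum]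
  apply Finset.sum_le_sum
  intro σ hσ
  rw [mul_comm]
  gcongr
  rw [← norm_rot U hσ]
  exact Finset.single_le_sum (f := fun i => ((U.1 *ᵥ σ) i) ^ 2) (fun j _ => sq_nonneg _)
    (Finset.mem_univ i)

theorem integrable_GZ {β : ℝ} (hβ : 0 ≤ β) (a : Fin N → ℝ) (i : Fin N) :
    Integrable (fun U : Matrix.orthogonalGroup (Fin N) ℝ => GZ β a U.1 i) ν := by
  apply Integrable.of_bound (continuous_GZ β a i).measurable.aestronglyMeasurable
    (β / 2 * N)
  filter_upwards with U
  rw [Real.norm_eq_abs, abs_of_nonneg (GZ_nonneg hβ a U.1 i)]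
  exact GZ_le hβ a U i

/-- Expected logarithm of the partition function. -/
noncomputable def FZ (β : ℝ) (a : Fin N → ℝ) : ℝ := ∫ U, LZ β a U.1 ∂ν

theorem FZ_perm [ν.IsMulLeftInvariant] (β : ℝ) (π : Equiv.Perm (Fin N)) (a : Fin N → ℝ) :
    FZ ν β (a ∘ π) = FZ ν β a := by
  unfold FZ
  have h := MeasureTheory.integral_mul_left_eq_self (μ := ν)
    (fun U : Matrix.orthogonalGroup (Fin N) ℝ => LZ β a U.1) (permO π.symm)
  rw [← h]
  congr 1
  ext U
  rw [LZ_perm]
  rfl

theorem FZ_sub {β : ℝ} (hβ : 0 ≤ β) (a : Fin N → ℝ) : ∃ g : Fin N → ℝ, (∀ i, 0 ≤ g i) ∧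
      ∀ b : Fin N → ℝ, FZ ν β a + ∑ i, (b i - a i) * g i ≤ FZ ν β b := by
  refine ⟨fun i => ∫ U, GZ β a U.1 i ∂ν, fun i => ?_, fun b => ?_⟩
  · apply integral_nonneg
    intro U
    exact GZ_nonneg hβ a U.1 i
  · have h1 : ∀ i ∈ Finset.univ, (b i - a i) * ∫ U, GZ β a U.1 i ∂ν =
        ∫ U, (b i - a i) * GZ β a U.1 i ∂ν := by
      intro i _
      rw [integral_const_mul]
    rw [Finset.sum_congr rfl h1, ← integral_finsetSum]
    · unfold FZ
      rw [← integral_add (integrable_LZ ν hβ a)]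
      · apply integral_mono
        · apply (integrable_LZ ν hβ a).add
          apply integrable_finsetSum
          intro i _
          exact (integrable_GZ ν hβ a i).const_mul _
        · exact integrable_LZ ν hβ b
        · intro U
          exact LZ_tangent β a b U.1
      · apply integrable_finsetSum
        intro i _
        exact (integrable_GZ ν hβ a i).const_mul _
    · intro i _
      exact (integrable_GZ ν hβ a i).const_mul _

theorem FZ_mono {β : ℝ} (hβ : 0 ≤ β) (a b : Fin N → ℝ) (hab : ∀ i, a i ≤ b i) :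
    FZ ν β a ≤ FZ ν β b := by
  unfold FZ
  apply integral_mono (integrable_LZ ν hβ a) (integrable_LZ ν hβ b)
  intro U
  exact LZ_mono hβ a b hab U.1

theorem FZ_shift {β : ℝ} (hβ : 0 ≤ β) (a : Fin N → ℝ) (c : ℝ) :
    FZ ν β (fun i => a i + c) = FZ ν β a + β / 2 * c * N := by
  unfold FZ
  have : (fun U : Matrix.orthogonalGroup (Fin N) ℝ => LZ β (fun i => a i + c) U.1) =
      fun U => LZ β a U.1 + β / 2 * c * N := by
    ext U
    exact LZ_shift β a c U
  rw [this, integral_add (integrable_LZ ν hβ a) (integrable_const _)]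
  simp only [integral_const, probReal_univ, smul_eq_mul, one_mul]

/-- Finite-size comparison principle: the mean pressure is monotone for the increasing convex
order of the spectra. -/
theorem FZ_icx [ν.IsMulLeftInvariant] {β : ℝ} (hβ : 0 ≤ β) (a b : Fin N → ℝ)
    (hab : ∀ t : ℝ, ∑ i, max (a i - t) 0 ≤ ∑ i, max (b i - t) 0) : FZ ν β a ≤ FZ ν β b :=
  icx_le_of_subgradient (FZ ν β) (fun π a => FZ_perm ν β π a) (fun a => FZ_sub ν hβ a) a b hab

end Measure

end Vale.Agent.P166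
end
end

section

section

/-!
Synchronization for block fields: if the fields of a set `A` of coordinates and the self-overlap
of `A` are concentrated, then the overlap on `A` of two replicas is concentrated given the level
at which they split. (Same proofs as in `LvPair`, with restricted sums and a self-overlap which is
not constant.)
-/

open MeasureTheory ProbabilityTheory

namespace Vale.Agent.P166.U

set_option linter.unusedSectionVars false

open Vale.Agent.P157.Lv

variable {ι X : Type} [Fintype ι] [DecidableEq ι] [Fintype X] [DecidableEq X] [Nonempty X]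
  {S : Sy ι X} {D : ι → (ι → ℝ) → X → ℝ} {N : ℕ}

/-- The overlap on the set `A`. -/
noncomputable def Rk (φ : X → Fin N → ℝ) (A : Finset (Fin N)) (x x' : X) : ℝ :=
  1 / N * ∑ i ∈ A, φ x i * φ x' i

/-- The field of the level `l` on the set `A`, divided by `N`. -/
noncomputable def hk (φ : X → Fin N → ℝ) (zc : ℕ → Fin N → ι) (A : Finset (Fin N))
    (l : ℕ) (z : ι → ℝ) (x : X) : ℝ :=
  1 / N * ∑ i ∈ A, z (zc l i) * φ x i

/-- The overlap, on the set `A`, of the configuration and of the magnetization of level `l`. -/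
noncomputable def ov (S : Sy ι X) (φ : X → Fin N → ℝ) (A : Finset (Fin N))
    (l : ℕ) (z : ι → ℝ) (x : X) : ℝ :=
  1 / N * ∑ i ∈ A, S.mg φ l i z * φ x i

/-- The system contains the fields `∑_{i ∈ A} u_l z_{l,i} φ_i(x)`. -/
structure BFld (S : Sy ι X) (D : ι → (ι → ℝ) → X → ℝ) (φ : X → Fin N → ℝ) (zc : ℕ → Fin N → ι)
    (A : Finset (Fin N)) (u : ℕ → ℝ) : Prop where
  reg : S.RegD D
  N0 : 0 < N
  norm : ∀ x, ∑ i ∈ A, φ x i ^ 2 ≤ N
  lev : ∀ l ≤ S.K, ∀ i ∈ A, S.lev (zc l i) = l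
  D : ∀ l ≤ S.K, ∀ i ∈ A, ∀ z x, D (zc l i) z x = u l * φ x i

namespace BFld

open Vale.Agent.P157.Lv.Sy

variable {φ : X → Fin N → ℝ} {zc : ℕ → Fin N → ι} {A : Finset (Fin N)} {u : ℕ → ℝ}
  (F : BFld S D φ zc A u)

include F

lemma sy_Npos : (0 : ℝ) < N := by exact_mod_cast F.N0

lemma sy_reg : S.Reg := F.reg.toReg

lemma abs_Rk_le (x x' : X) : |Rk φ A x x'| ≤ 1 := by
  have hN := F.sy_Npos
  have h := Finset.sum_mul_sq_le_sq_mul_sq A (φ x) (φ x')
  have h0 : (∑ i ∈ A, φ x i ^ 2) * (∑ i ∈ A, φ x' i ^ 2) ≤ N * N :=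
    mul_le_mul (F.norm x) (F.norm x') (Finset.sum_nonneg fun i _ => sq_nonneg _) hN.le
  have h1 : Rk φ A x x' ^ 2 ≤ 1 := by
    rw [Rk, mul_pow, one_div, inv_pow, inv_mul_le_iff₀ (by positivity)]
    linarith only [h, h0]
  exact abs_le_one_iff_mul_self_le_one.mpr (by linarith only [h1])

lemma Rk_self_nonneg (x : X) : 0 ≤ Rk φ A x x := by
  have hN := F.sy_Npos
  unfold Rk
  exact mul_nonneg (by positivity) (Finset.sum_nonneg fun i _ => mul_self_nonneg _)

omit F in
lemma sy_sum_mg_sq (hS : S.Reg) {l : ℕ} (hl : l ≤ S.K) (z : ι → ℝ) :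
    1 / N * ∑ i ∈ A, S.mg φ l i z ^ 2 = ∑ x, ∑ x', S.pr l z x * S.pr l z x' * Rk φ A x x' := by
  have e : ∀ i, S.mg φ l i z ^ 2 =
      ∑ x, ∑ x', S.pr l z x * S.pr l z x' * (φ x i * φ x' i) := by
    intro i
    rw [Fld.mg_eq hS hl, sq, Finset.sum_mul_sum]
    refine Finset.sum_congr rfl fun x _ => Finset.sum_congr rfl fun x' _ => ?_
    ring
  simp_rw [e]
  rw [Finset.sum_comm, Finset.mul_sum]
  refine Finset.sum_congr rfl fun x _ => ?_
  rw [Finset.sum_comm, Finset.mul_sum]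
  refine Finset.sum_congr rfl fun x' _ => ?_
  rw [← Finset.mul_sum, Rk]
  ring

/-- The pair average of the overlap in terms of the magnetizations. -/
lemma pairEx_Rk {l : ℕ} (hl : l ≤ S.K) : S.pairEx l (Rk φ A) =
    1 / N * S.Ex (fun z _ => ∑ i ∈ A, S.mg φ l i z ^ 2) := by
  rw [Sy.pairEx, ← Sy.Ex_const_mul]
  congr 1
  funext z _
  exact (sy_sum_mg_sq F.sy_reg hl z).symm

lemma pairEx_Rk_nonneg {l : ℕ} (hl : l ≤ S.K) : 0 ≤ S.pairEx l (Rk φ A) := by
  rw [F.pairEx_Rk hl, ← Sy.Ex_const_mul, ← F.sy_reg.Ex_const 0]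
  refine F.sy_reg.Ex_mono (Nh.fst (EG.const 0)) (Nh.fst (EG.const_mul _ (EG.sum _ fun i _ =>
    (Fld.eg_mg F.sy_reg hl i).pow 2))) fun z _ => ?_
  have := F.sy_Npos
  have h0 : 0 ≤ ∑ i ∈ A, S.mg φ l i z ^ 2 := Finset.sum_nonneg fun i _ => sq_nonneg _
  positivity

lemma sy_pairEx_le_one {l : ℕ} (hl : l ≤ S.K) : S.pairEx l (Rk φ A) ≤ 1 := by
  rw [← F.sy_reg.pairEx_const hl 1]
  exact F.sy_reg.pairEx_mono hl fun x x' => (le_abs_self _).trans (F.abs_Rk_le x x')

/-- The overlaps increase: `E|m_{l+1} - m_l|² = N (R_{l+1} - R_l)`. -/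
lemma sy_Rl_sub {l : ℕ} (hl : l < S.K) :
    1 / N * S.Ex (fun z _ => ∑ i ∈ A, (S.mg φ (l + 1) i z - S.mg φ l i z) ^ 2) =
      S.pairEx (l + 1) (Rk φ A) - S.pairEx l (Rk φ A) := by
  have hS := F.sy_reg
  have e1 := Fld.eg_mg (φ := φ) hS (l := l + 1) hl
  have e0 := Fld.eg_mg (φ := φ) hS (l := l) hl.le
  rw [F.pairEx_Rk hl, F.pairEx_Rk hl.le, ← mul_sub]
  congr 1
  rw [hS.Ex_sum _ fun i _ => Nh.fst (((e1 i).sub (e0 i)).pow 2),
    hS.Ex_sum _ fun i _ => Nh.fst ((e1 i).pow 2), hS.Ex_sum _ fun i _ => Nh.fst ((e0 i).pow 2),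
    ← Finset.sum_sub_distrib]
  refine Finset.sum_congr rfl fun i _ => ?_
  have h1 : (fun (z : ι → ℝ) (_ : X) => (S.mg φ (l + 1) i z - S.mg φ l i z) ^ 2) =
      fun z x => ((fun (z : ι → ℝ) (_ : X) => S.mg φ (l + 1) i z ^ 2) z x -
        (fun (z : ι → ℝ) (_ : X) => 2 * (S.mg φ l i z * S.mg φ (l + 1) i z)) z x) +
        (fun (z : ι → ℝ) (_ : X) => S.mg φ l i z ^ 2) z x := by
    funext z _
    ring
  rw [h1, hS.Ex_add (Nh.sub (Nh.fst ((e1 i).pow 2))
    (Nh.fst (EG.const_mul 2 ((e0 i).mul (e1 i))))) (Nh.fst ((e0 i).pow 2)),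
    hS.Ex_sub (Nh.fst ((e1 i).pow 2)) (Nh.fst (EG.const_mul 2 ((e0 i).mul (e1 i)))),
    Sy.Ex_const_mul, Fld.Ex_mg_mul hS (Nat.le_succ l) hl]
  ring

lemma pairEx_Rk_mono {l : ℕ} (hl : l < S.K) :
    S.pairEx l (Rk φ A) ≤ S.pairEx (l + 1) (Rk φ A) := by
  rw [← sub_nonneg, ← F.sy_Rl_sub hl, ← Sy.Ex_const_mul, ← F.sy_reg.Ex_const 0]
  refine F.sy_reg.Ex_mono (Nh.fst (EG.const 0)) (Nh.fst (EG.const_mul _ (EG.sum _ fun i _ =>
    ((Fld.eg_mg F.sy_reg (show l + 1 ≤ S.K from hl) i).sub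
      (Fld.eg_mg F.sy_reg hl.le i)).pow 2))) fun z _ => ?_
  have := F.sy_Npos
  have h0 : 0 ≤ ∑ i ∈ A, (S.mg φ (l + 1) i z - S.mg φ l i z) ^ 2 :=
    Finset.sum_nonneg fun i _ => sq_nonneg _
  positivity

lemma pairEx_Rk_le {l : ℕ} (hl : l ≤ S.K) :
    S.pairEx l (Rk φ A) ≤ S.Ex (fun _ x => Rk φ A x x) := by
  have hS := F.sy_reg
  have e0 := fun i => Fld.eg_mg (φ := φ) hS (l := l) hl i
  have ns : ∀ i, Nh (ι := ι) (fun (_ : ι → ℝ) (x : X) => φ x i ^ 2) := fun i =>
    Nh.snd fun x => φ x i ^ 2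
  have e1 : S.Ex (fun _ x => Rk φ A x x) = 1 / N * S.Ex (fun _ x => ∑ i ∈ A, φ x i ^ 2) := by
    rw [← Sy.Ex_const_mul]
    congr 1
    funext z x
    unfold Rk
    congr 1
    exact Finset.sum_congr rfl fun i _ => (sq _).symm
  rw [F.pairEx_Rk hl, e1]
  have := F.sy_Npos
  refine mul_le_mul_of_nonneg_left ?_ (by (clear * - this; positivity))
  rw [hS.Ex_sum _ fun i _ => Nh.fst ((e0 i).pow 2), hS.Ex_sum _ fun i _ => ns i]
  refine Finset.sum_le_sum fun i _ => ?_
  rw [← hS.Ex_T hl (ns i)]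
  refine hS.Ex_mono (Nh.fst ((e0 i).pow 2)) (Nh.fst (hS.eg_T hl (ns i))) fun z _ => ?_
  exact hS.sq_T_le hl (Nh.snd fun x => φ x i) z

omit F in
lemma sy_nh_ov (hS : S.Reg) {l : ℕ} (hl : l ≤ S.K) : Nh (ov S φ A l) :=
  Nh.const_mul _ (Nh.sum _ fun a _ => Nh.mul (Nh.fst (Fld.eg_mg hS hl a)) (Nh.snd fun x => φ x a))

lemma sy_Ex_ov {l : ℕ} (hl : l ≤ S.K) : S.Ex (ov S φ A l) = S.pairEx l (Rk φ A) := by
  have hS := F.sy_reg
  have e : ov S φ A l = fun z x => 1 / N * ∑ a ∈ A, S.mg φ l a z * φ x a := rfl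
  rw [e, Sy.Ex_const_mul, F.pairEx_Rk hl, hS.Ex_sum _ fun a _ =>
    Nh.mul (Nh.fst (Fld.eg_mg hS hl a)) (Nh.snd fun x => φ x a),
    hS.Ex_sum _ fun a _ => Nh.fst ((Fld.eg_mg hS hl a).pow 2)]
  congr 1
  refine Finset.sum_congr rfl fun a _ => ?_
  have h2 := hS.Ex_mul_T hl (S.dep_T l (fun _ x => φ x a)) (Fld.eg_mg hS hl a)
    (Nh.snd fun x => φ x a)
  rw [← Fld.Ex_mg_mul hS le_rfl hl]
  exact h2.symm

omit F in
lemma sy_nh_hk (j : ℕ) : Nh (hk φ zc A j) :=
  Nh.const_mul _ (Nh.sum _ fun i _ => Nh.mul (Nh.fst (EG.coord (zc j i)))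
    (Nh.snd fun x => φ x i))

omit F in
lemma sy_nh_Rk : Nh (ι := ι) (fun (_ : ι → ℝ) (x : X) => Rk φ A x x) :=
  Nh.snd fun x => Rk φ A x x

/-- integration by parts for the coordinates of the fields -/
lemma sy_ibp {j : ℕ} (hj : j ≤ S.K) {i : Fin N} (hi : i ∈ A) {h h' : (ι → ℝ) → X → ℝ}
    (hd : ∀ x, PD (zc j i) (fun z => h z x) (fun z => h' z x)) (hh : Nh h) (hh' : Nh h') :
    S.Ex (fun z x => z (zc j i) * h z x) = S.Ex (fun z x => h' z x + h z x * (u j * φ x i -
      ∑ k ∈ Finset.Ico j (S.K + 1), S.p k * (u j * S.mg φ k i z))) := by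
  rw [F.reg.ibp (zc j i) hd hh hh', F.lev j hj i hi]
  congr 1
  funext z x
  rw [F.D j hj i hi]
  have e : D (zc j i) = fun z x => u j * φ x i := by
    funext z x
    exact F.D j hj i hi z x
  rw [e]
  simp only [Sy.T_const_mul]
  rfl

/-- the average of the field of the level `j` against an observable -/
lemma sy_Ex_hk_mul {j : ℕ} (hj : j ≤ S.K) {w : (ι → ℝ) → X → ℝ} {w' : Fin N → (ι → ℝ) → X → ℝ}
    (hd : ∀ i ∈ A, ∀ x, PD (zc j i) (fun z => w z x) (fun z => w' i z x)) (hu : Nh w)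
    (hu' : ∀ i, Nh (w' i)) :
    S.Ex (fun z x => hk φ zc A j z x * w z x) =
      S.Ex (fun z x => 1 / N * ∑ i ∈ A, φ x i * w' i z x) +
        u j * (S.Ex (fun z x => w z x * Rk φ A x x) - ∑ k ∈ Finset.Ico j (S.K + 1), S.p k *
          S.Ex (fun z x => w z x * ov S φ A k z x)) := by
  have hS := F.sy_reg
  have hN := F.sy_Npos
  have hk : ∀ k ∈ Finset.Ico j (S.K + 1), k ≤ S.K := fun k hk => by
    rw [Finset.mem_Ico] at hk; omega
  -- termwise integration by parts
  have h1 : ∀ i ∈ A, S.Ex (fun z x => z (zc j i) * (φ x i * w z x)) =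
      S.Ex (fun z x => φ x i * w' i z x + φ x i * w z x * (u j * φ x i -
        ∑ k ∈ Finset.Ico j (S.K + 1), S.p k * (u j * S.mg φ k i z))) := fun i hi =>
    F.sy_ibp hj hi (h := fun z x => φ x i * w z x) (h' := fun z x => φ x i * w' i z x)
      (fun x => (hd i hi x).const_mul (φ x i)) (Nh.mul (Nh.snd fun x => φ x i) hu)
      (Nh.mul (Nh.snd fun x => φ x i) (hu' i))
  have nz : ∀ i, Nh (fun (z : ι → ℝ) (x : X) => z (zc j i) * (φ x i * w z x)) := fun i =>
    Nh.mul (Nh.fst (EG.coord _)) (Nh.mul (Nh.snd fun x => φ x i) hu)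
  have nk : ∀ k ∈ Finset.Ico j (S.K + 1), ∀ i, Nh (fun (z : ι → ℝ) (_ : X) =>
      S.p k * (u j * S.mg φ k i z)) := fun k hk' i =>
    Nh.fst (EG.const_mul _ (EG.const_mul _ (Fld.eg_mg hS (hk k hk') i)))
  have nr : ∀ i, Nh (fun (z : ι → ℝ) (x : X) => φ x i * w' i z x + φ x i * w z x * (u j * φ x i -
        ∑ k ∈ Finset.Ico j (S.K + 1), S.p k * (u j * S.mg φ k i z))) := fun i =>
    Nh.add (Nh.mul (Nh.snd fun x => φ x i) (hu' i)) (Nh.mul (Nh.mul (Nh.snd fun x => φ x i) hu)
      (Nh.sub (Nh.const_mul _ (Nh.snd fun x => φ x i)) (Nh.sum _ fun k hk' => nk k hk' i)))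
  have e1 : S.Ex (fun z x => U.hk φ zc A j z x * w z x) =
      1 / N * ∑ i ∈ A, S.Ex (fun z x => z (zc j i) * (φ x i * w z x)) := by
    rw [← hS.Ex_sum _ fun i _ => nz i, ← Sy.Ex_const_mul]
    congr 1
    funext z x
    rw [U.hk, mul_assoc, Finset.sum_mul]
    congr 1
    refine Finset.sum_congr rfl fun i _ => ?_
    ring
  rw [e1, Finset.sum_congr rfl h1, ← hS.Ex_sum _ fun i _ => nr i, ← Sy.Ex_const_mul]
  have e2 : (fun (z : ι → ℝ) (x : X) => 1 / (N : ℝ) * ∑ i ∈ A, (φ x i * w' i z x +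
      φ x i * w z x * (u j * φ x i -
        ∑ k ∈ Finset.Ico j (S.K + 1), S.p k * (u j * S.mg φ k i z)))) =
      fun z x => (fun (z : ι → ℝ) (x : X) => 1 / (N : ℝ) * ∑ i ∈ A, φ x i * w' i z x) z x +
        (fun (z : ι → ℝ) (x : X) => u j * (w z x * Rk φ A x x - ∑ k ∈ Finset.Ico j (S.K + 1),
          S.p k * (w z x * ov S φ A k z x))) z x := by
    funext z x
    rw [Finset.sum_add_distrib, mul_add]
    congr 1
    have e3 : ∑ i ∈ A, φ x i * w z x * (u j * φ x i -
        ∑ k ∈ Finset.Ico j (S.K + 1), S.p k * (u j * S.mg φ k i z)) =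
        u j * (w z x * ∑ i ∈ A, φ x i * φ x i) - u j * ∑ k ∈ Finset.Ico j (S.K + 1), S.p k *
          (w z x * ∑ i ∈ A, S.mg φ k i z * φ x i) := by
      simp_rw [mul_sub]
      rw [Finset.sum_sub_distrib]
      congr 1
      · rw [Finset.mul_sum, Finset.mul_sum]
        refine Finset.sum_congr rfl fun i _ => ?_
        ring
      · simp_rw [Finset.mul_sum]
        rw [Finset.sum_comm]
        refine Finset.sum_congr rfl fun k _ => Finset.sum_congr rfl fun i _ => ?_
        ring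
    rw [e3]
    have e4 : ∀ k, S.p k * (w z x * ov S φ A k z x) =
        1 / N * (S.p k * (w z x * ∑ i ∈ A, S.mg φ k i z * φ x i)) := by
      intro k
      rw [ov]
      ring
    simp_rw [e4]
    rw [← Finset.mul_sum, Rk]
    ring
  rw [e2]
  have nu : ∀ k ∈ Finset.Ico j (S.K + 1), Nh (fun (z : ι → ℝ) (x : X) =>
      S.p k * (w z x * ov S φ A k z x)) := fun k hk' =>
    Nh.const_mul _ (Nh.mul hu (sy_nh_ov hS (hk k hk')))
  have nR : Nh (fun (z : ι → ℝ) (x : X) => w z x * Rk φ A x x) := Nh.mul hu sy_nh_Rk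
  rw [hS.Ex_add (Nh.const_mul _ (Nh.sum _ fun i _ => Nh.mul (Nh.snd fun x => φ x i) (hu' i)))
    (Nh.const_mul _ (Nh.sub nR (Nh.sum _ nu)))]
  congr 1
  rw [Sy.Ex_const_mul, hS.Ex_sub nR (Nh.sum _ nu), hS.Ex_sum _ nu]
  congr 2
  refine Finset.sum_congr rfl fun k _ => ?_
  rw [Sy.Ex_const_mul]

/-- The mean of the field. -/
theorem Ex_hk {j : ℕ} (hj : j ≤ S.K) : S.Ex (hk φ zc A j) =
    u j * (S.Ex (fun _ x => Rk φ A x x) -
      ∑ i ∈ Finset.Ico j (S.K + 1), S.p i * S.pairEx i (Rk φ A)) := by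
  have hS := F.sy_reg
  have h := F.sy_Ex_hk_mul hj (w := fun _ _ => 1) (w' := fun _ _ _ => 0)
    (fun i _ x => PD.const 1) (Nh.fst (EG.const 1)) (fun i => Nh.fst (EG.const 0))
  simp only [mul_one, one_mul, mul_zero, Finset.sum_const_zero, hS.Ex_const, zero_add] at h
  rw [show S.Ex (hk φ zc A j) = S.Ex (fun z x => hk φ zc A j z x) from rfl, h]
  congr 2
  refine Finset.sum_congr rfl fun k hk => ?_
  rw [Finset.mem_Ico] at hk
  rw [← F.sy_Ex_ov (by omega : k ≤ S.K)]

/-- (A). -/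
theorem ident_A {l j : ℕ} (hlj : l < j) (hj : j ≤ S.K) :
    S.Ex (fun z x => hk φ zc A j z x * ov S φ A l z x) =
      u j * (S.Ex (fun z x => ov S φ A l z x * Rk φ A x x) -
        ∑ i ∈ Finset.Ico j (S.K + 1), S.p i *
          S.Ex (fun z x => ov S φ A l z x * ov S φ A i z x)) := by
  have hS := F.sy_reg
  have hl : l ≤ S.K := hlj.le.trans hj
  have hd : ∀ i ∈ A, ∀ x, PD (zc j i) (fun z => ov S φ A l z x) (fun _ => 0) := by
    intro i hi x
    refine Dep.pd (lev := S.lev) (l := l) ?_ (by rw [F.lev j hj i hi]; exact hlj)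
    intro z w
    simp only [ov]
    congr 1
    refine Finset.sum_congr rfl fun a _ => ?_
    congr 1
    exact S.dep_T l (fun _ x => φ x a) z w
  have h := F.sy_Ex_hk_mul hj (w := ov S φ A l) (w' := fun _ _ _ => 0) hd (sy_nh_ov hS hl)
    (fun i => Nh.fst (EG.const 0))
  simp only [mul_zero, Finset.sum_const_zero, hS.Ex_const, zero_add] at h
  exact h

/-- the derivative of the magnetization -/
lemma sy_pd_mg {l : ℕ} (hl : l ≤ S.K) (a : Fin N) {b : Fin N} (hb : b ∈ A) :
    PD (zc l b) (S.mg φ l a) (fun z => u l * (S.T l (fun _ x => φ x a * φ x b) z -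
      ∑ k ∈ Finset.Ico (l + 1) (S.K + 1), S.p k * S.T l (fun z _ => S.mg φ k a z * S.mg φ k b z) z -
      S.m (l + 1) * (S.mg φ l a z * S.mg φ l b z))) := by
  have hS := F.sy_reg
  have h := F.reg.pd_T hl (e := zc l b) (F.lev l hl b hb).le (h := fun _ x => φ x a)
    (h' := fun _ _ => 0) (fun x => PD.const _) (Nh.snd fun x => φ x a) (Nh.fst (EG.const 0))
  refine h.congr fun z => ?_
  have hD : D (zc l b) = fun z x => u l * φ x b := by
    funext z x
    exact F.D l hl b hb z x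
  have hk : ∀ k ∈ Finset.Ico (l + 1) (S.K + 1), k ≤ S.K := fun k hk => by
    rw [Finset.mem_Ico] at hk; omega
  have hlk : ∀ k ∈ Finset.Ico (l + 1) (S.K + 1), l ≤ k := fun k hk => by
    rw [Finset.mem_Ico] at hk; omega
  have na : Nh (ι := ι) (fun _ x => φ x a) := Nh.snd fun x => φ x a
  have nab : Nh (ι := ι) (fun _ x => φ x a * φ x b) := Nh.snd fun x => φ x a * φ x b
  have nk : ∀ k ∈ Finset.Ico (l + 1) (S.K + 1), Nh (fun (z : ι → ℝ) (x : X) =>
      S.p k * (φ x a * S.mg φ k b z)) := fun k hk' =>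
    Nh.const_mul _ (Nh.mul na (Nh.fst (Fld.eg_mg hS (hk k hk') b)))
  have nl : Nh (fun (z : ι → ℝ) (x : X) => S.m (l + 1) * (S.mg φ l b z * φ x a)) :=
    Nh.const_mul _ (Nh.mul (Nh.fst (Fld.eg_mg hS hl b)) na)
  have e : (fun (z : ι → ℝ) (x : X) => (0 : ℝ) + φ x a * (D (zc l b) z x -
      ∑ i ∈ Finset.Ico (l + 1) (S.K + 1), S.p i * S.T i (D (zc l b)) z -
        S.m (l + 1) * S.T l (D (zc l b)) z)) =
      fun z x => u l * ((φ x a * φ x b - ∑ k ∈ Finset.Ico (l + 1) (S.K + 1),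
        S.p k * (φ x a * S.mg φ k b z)) - S.m (l + 1) * (S.mg φ l b z * φ x a)) := by
    funext z x
    rw [hD]
    simp only [Sy.T_const_mul]
    have e1 : ∀ k, S.T k (fun _ x => φ x b) z = S.mg φ k b z := fun k => rfl
    simp only [e1]
    have e2 : ∑ i ∈ Finset.Ico (l + 1) (S.K + 1), S.p i * (u l * S.mg φ i b z) =
        u l * ∑ i ∈ Finset.Ico (l + 1) (S.K + 1), S.p i * S.mg φ i b z := by
      rw [Finset.mul_sum]
      refine Finset.sum_congr rfl fun i _ => ?_
      ring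
    have e3 : ∑ k ∈ Finset.Ico (l + 1) (S.K + 1), S.p k * (φ x a * S.mg φ k b z) =
        φ x a * ∑ i ∈ Finset.Ico (l + 1) (S.K + 1), S.p i * S.mg φ i b z := by
      rw [Finset.mul_sum]
      refine Finset.sum_congr rfl fun i _ => ?_
      ring
    rw [e2, e3]
    ring
  rw [e, Sy.T_const_mul, hS.T_sub hl (Nh.sub nab (Nh.sum _ nk)) nl,
    hS.T_sub hl nab (Nh.sum _ nk), hS.T_sum hl _ nk, Sy.T_const_mul,
    T_mul_left S (Fld.dep_mg S φ l b)]
  congr 2
  · congr 1
    refine Finset.sum_congr rfl fun k hk' => ?_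
    rw [Sy.T_const_mul]
    congr 1
    rw [← hS.T_T (hlk k hk') (hk k hk') (Nh.mul na (Nh.fst (Fld.eg_mg hS (hk k hk') b)))]
    congr 1
    funext z' _
    have e4 : (fun (z : ι → ℝ) (x : X) => φ x a * S.mg φ k b z) =
        fun z x => S.mg φ k b z * (fun (_ : ι → ℝ) (x : X) => φ x a) z x := by
      funext z x
      exact mul_comm _ _
    rw [e4, T_mul_left S (Fld.dep_mg S φ k b), mul_comm]
    rfl
  · rw [mul_comm (S.mg φ l a z)]
    rfl

/-- the covariance matrix of two replicas -/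
lemma sy_pairEx_sq {l : ℕ} (hl : l ≤ S.K) :
    S.pairEx l (fun x x' => Rk φ A x x' ^ 2) = 1 / N ^ 2 * S.Ex (fun z _ => ∑ a ∈ A, ∑ b ∈ A,
      S.T l (fun _ x => φ x a * φ x b) z * S.T l (fun _ x => φ x a * φ x b) z) := by
  have hS := F.sy_reg
  rw [Sy.pairEx, ← Sy.Ex_const_mul]
  congr 1
  funext z _
  have e : ∀ a b, S.T l (fun _ x => φ x a * φ x b) z * S.T l (fun _ x => φ x a * φ x b) z =
      ∑ x, ∑ x', S.pr l z x * S.pr l z x' * ((φ x a * φ x b) * (φ x' a * φ x' b)) := by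
    intro a b
    rw [hS.T_pr hl (fun x => φ x a * φ x b), Finset.sum_mul_sum]
    refine Finset.sum_congr rfl fun x _ => Finset.sum_congr rfl fun x' _ => ?_
    ring
  have e2 : ∀ x x', Rk φ A x x' ^ 2 =
      1 / (N : ℝ) ^ 2 * ∑ a ∈ A, ∑ b ∈ A, (φ x a * φ x b) * (φ x' a * φ x' b) := by
    intro x x'
    rw [Rk, mul_pow, sq (∑ i ∈ A, φ x i * φ x' i), Finset.sum_mul_sum, div_pow, one_pow]
    congr 1
    refine Finset.sum_congr rfl fun a _ => Finset.sum_congr rfl fun b _ => ?_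
    ring
  simp_rw [e, e2]
  have e3 : ∑ a ∈ A, ∑ b ∈ A, ∑ x, ∑ x', S.pr l z x * S.pr l z x' *
      ((φ x a * φ x b) * (φ x' a * φ x' b)) =
      ∑ x, ∑ x', S.pr l z x * S.pr l z x' * ∑ a ∈ A, ∑ b ∈ A, (φ x a * φ x b) * (φ x' a * φ x' b) := by
    calc ∑ a ∈ A, ∑ b ∈ A, ∑ x, ∑ x', S.pr l z x * S.pr l z x' *
          ((φ x a * φ x b) * (φ x' a * φ x' b))
        = ∑ a ∈ A, ∑ x, ∑ b ∈ A, ∑ x', S.pr l z x * S.pr l z x' *
          ((φ x a * φ x b) * (φ x' a * φ x' b)) :=
          Finset.sum_congr rfl fun a _ => Finset.sum_comm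
      _ = ∑ x, ∑ a ∈ A, ∑ b ∈ A, ∑ x', S.pr l z x * S.pr l z x' *
          ((φ x a * φ x b) * (φ x' a * φ x' b)) := Finset.sum_comm
      _ = ∑ x, ∑ x', ∑ a ∈ A, ∑ b ∈ A, S.pr l z x * S.pr l z x' *
          ((φ x a * φ x b) * (φ x' a * φ x' b)) := by
          refine Finset.sum_congr rfl fun x _ => ?_
          calc ∑ a ∈ A, ∑ b ∈ A, ∑ x', S.pr l z x * S.pr l z x' *
                ((φ x a * φ x b) * (φ x' a * φ x' b))
              = ∑ a ∈ A, ∑ x', ∑ b ∈ A, S.pr l z x * S.pr l z x' *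
                ((φ x a * φ x b) * (φ x' a * φ x' b)) :=
                Finset.sum_congr rfl fun a _ => Finset.sum_comm
            _ = _ := Finset.sum_comm
      _ = _ := by
          refine Finset.sum_congr rfl fun x _ => Finset.sum_congr rfl fun x' _ => ?_
          simp_rw [Finset.mul_sum]
  rw [e3, Finset.mul_sum]
  refine Finset.sum_congr rfl fun x _ => ?_
  rw [Finset.mul_sum]
  refine Finset.sum_congr rfl fun x' _ => ?_
  ring

/-- (B). -/
theorem ident_B {l : ℕ} (hl : l ≤ S.K) :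
    S.Ex (fun z x => hk φ zc A l z x * ov S φ A l z x) =
      u l * (S.pairEx l (fun x x' => Rk φ A x x' ^ 2) -
        ∑ i ∈ Finset.Ico (l + 1) (S.K + 1), S.p i * (1 / N ^ 2 * S.Ex (fun z _ =>
          ∑ a ∈ A, ∑ b ∈ A, S.T l (fun _ x => φ x a * φ x b) z *
            S.T l (fun z _ => S.mg φ i a z * S.mg φ i b z) z)) -
        S.m (l + 1) * S.Ex (fun z x => ov S φ A l z x ^ 2) +
        S.Ex (fun z x => ov S φ A l z x * Rk φ A x x) -
        ∑ i ∈ Finset.Ico l (S.K + 1), S.p i *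
          S.Ex (fun z x => ov S φ A l z x * ov S φ A i z x)) := by
  have hS := F.sy_reg
  have hk : ∀ k ∈ Finset.Ico (l + 1) (S.K + 1), k ≤ S.K := fun k hk => by
    rw [Finset.mem_Ico] at hk; omega
  -- the derivative of the magnetization
  set d : Fin N → Fin N → (ι → ℝ) → ℝ := fun a b z =>
    u l * (S.T l (fun _ x => φ x a * φ x b) z -
      ∑ k ∈ Finset.Ico (l + 1) (S.K + 1), S.p k * S.T l (fun z _ => S.mg φ k a z * S.mg φ k b z) z -
      S.m (l + 1) * (S.mg φ l a z * S.mg φ l b z)) with hd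
  have nab : ∀ a b, Nh (ι := ι) (fun (_ : ι → ℝ) (x : X) => φ x a * φ x b) := fun a b =>
    Nh.snd fun x => φ x a * φ x b
  have eB : ∀ k ∈ Finset.Ico (l + 1) (S.K + 1), ∀ a b,
      EG (S.T l (fun z _ => S.mg φ k a z * S.mg φ k b z)) := fun k hk' a b =>
    hS.eg_T hl (Nh.fst ((Fld.eg_mg hS (hk k hk') a).mul (Fld.eg_mg hS (hk k hk') b)))
  have eA : ∀ a b, EG (S.T l (fun _ x => φ x a * φ x b)) := fun a b => hS.eg_T hl (nab a b)
  have ed : ∀ a b, EG (d a b) := fun a b =>
    EG.const_mul _ (((eA a b).sub (EG.sum _ fun k hk' => EG.const_mul _ (eB k hk' a b))).sub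
      (EG.const_mul _ ((Fld.eg_mg hS hl a).mul (Fld.eg_mg hS hl b))))
  have dB : ∀ k a b, Dep S.lev l (S.T l (fun z _ => S.mg φ k a z * S.mg φ k b z)) :=
    fun k a b => S.dep_T l _
  have dA : ∀ a b, Dep S.lev l (S.T l (fun _ x => φ x a * φ x b)) := fun a b => S.dep_T l _
  have dd : ∀ a b, Dep S.lev l (d a b) := by
    intro a b z w
    simp only [hd]
    rw [dA a b z w, Fld.dep_mg S φ l a z w, Fld.dep_mg S φ l b z w]
    simp only [fun k => dB k a b z w]
  -- integration by parts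
  have h := F.sy_Ex_hk_mul hl (w := ov S φ A l) (w' := fun b z x => 1 / N * ∑ a ∈ A, d a b z * φ x a)
    (fun b hb x => (PD.sum A fun a _ =>
      ((F.sy_pd_mg hl a hb).mul (PD.const (φ x a))).congr fun y => by
        rw [mul_zero, add_zero]).const_mul _) (sy_nh_ov hS hl)
    (fun b => Nh.const_mul _ (Nh.sum _ fun a _ => Nh.mul (Nh.fst (ed a b))
      (Nh.snd fun x => φ x a)))
  have h2 : S.Ex (fun z x => 1 / N * ∑ b ∈ A, φ x b * (1 / N * ∑ a ∈ A, d a b z * φ x a)) =
      u l * (S.pairEx l (fun x x' => Rk φ A x x' ^ 2) -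
        ∑ i ∈ Finset.Ico (l + 1) (S.K + 1), S.p i * (1 / N ^ 2 * S.Ex (fun z _ => ∑ a ∈ A, ∑ b ∈ A,
          S.T l (fun _ x => φ x a * φ x b) z * S.T l (fun z _ => S.mg φ i a z * S.mg φ i b z) z)) -
        S.m (l + 1) * S.Ex (fun z x => (1 / N * ∑ a ∈ A, S.mg φ l a z * φ x a) ^ 2)) := by
    -- replace `φ_a φ_b` by its conditional average
    have g1 : S.Ex (fun z x => 1 / N * ∑ b ∈ A, φ x b * (1 / N * ∑ a ∈ A, d a b z * φ x a)) =
        1 / N ^ 2 * ∑ a ∈ A, ∑ b ∈ A, S.Ex (fun z _ => d a b z * S.T l (fun _ x => φ x a * φ x b) z) := by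
      have e1 : (fun (z : ι → ℝ) (x : X) => 1 / (N : ℝ) * ∑ b ∈ A, φ x b *
          (1 / N * ∑ a ∈ A, d a b z * φ x a)) =
          fun z x => 1 / N ^ 2 * ∑ a ∈ A, ∑ b ∈ A, d a b z * (φ x a * φ x b) := by
        funext z x
        simp_rw [Finset.mul_sum]
        rw [Finset.sum_comm]
        refine Finset.sum_congr rfl fun a _ => Finset.sum_congr rfl fun b _ => ?_
        ring
      rw [e1, Sy.Ex_const_mul, hS.Ex_sum _ fun a _ => Nh.sum _ fun b _ =>
        Nh.mul (Nh.fst (ed a b)) (nab a b)]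
      congr 1
      refine Finset.sum_congr rfl fun a _ => ?_
      rw [hS.Ex_sum _ fun b _ => Nh.mul (Nh.fst (ed a b)) (nab a b)]
      refine Finset.sum_congr rfl fun b _ => ?_
      exact (hS.Ex_mul_T hl (dd a b) (ed a b) (nab a b)).symm
    have g2 : S.Ex (fun z x => (1 / N * ∑ a ∈ A, S.mg φ l a z * φ x a) ^ 2) =
        1 / N ^ 2 * ∑ a ∈ A, ∑ b ∈ A, S.Ex (fun z _ => (S.mg φ l a z * S.mg φ l b z) *
          S.T l (fun _ x => φ x a * φ x b) z) := by
      have e1 : (fun (z : ι → ℝ) (x : X) => (1 / (N : ℝ) * ∑ a ∈ A, S.mg φ l a z * φ x a) ^ 2) =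
          fun z x => 1 / N ^ 2 * ∑ a ∈ A, ∑ b ∈ A, (S.mg φ l a z * S.mg φ l b z) * (φ x a * φ x b) := by
        funext z x
        rw [mul_pow, sq (∑ a ∈ A, S.mg φ l a z * φ x a), Finset.sum_mul_sum, div_pow, one_pow]
        congr 1
        refine Finset.sum_congr rfl fun a _ => Finset.sum_congr rfl fun b _ => ?_
        ring
      have em : ∀ a b, EG (fun z => S.mg φ l a z * S.mg φ l b z) := fun a b =>
        (Fld.eg_mg hS hl a).mul (Fld.eg_mg hS hl b)
      rw [e1, Sy.Ex_const_mul, hS.Ex_sum _ fun a _ => Nh.sum _ fun b _ =>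
        Nh.mul (Nh.fst (em a b)) (nab a b)]
      congr 1
      refine Finset.sum_congr rfl fun a _ => ?_
      rw [hS.Ex_sum _ fun b _ => Nh.mul (Nh.fst (em a b)) (nab a b)]
      refine Finset.sum_congr rfl fun b _ => ?_
      refine (hS.Ex_mul_T hl (φ := fun z => S.mg φ l a z * S.mg φ l b z) ?_ (em a b)
        (nab a b)).symm
      intro z w
      exact congrArg₂ (· * ·) (Fld.dep_mg S φ l a z w) (Fld.dep_mg S φ l b z w)
    have g3 : ∀ k ∈ Finset.Ico (l + 1) (S.K + 1), S.Ex (fun z _ => ∑ a ∈ A, ∑ b ∈ A,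
          S.T l (fun _ x => φ x a * φ x b) z * S.T l (fun z _ => S.mg φ k a z * S.mg φ k b z) z) =
        ∑ a ∈ A, ∑ b ∈ A, S.Ex (fun z _ =>
          S.T l (fun _ x => φ x a * φ x b) z * S.T l (fun z _ => S.mg φ k a z * S.mg φ k b z) z) := by
      intro k hk'
      rw [hS.Ex_sum _ fun a _ => Nh.sum _ fun b _ => Nh.fst ((eA a b).mul (eB k hk' a b))]
      refine Finset.sum_congr rfl fun a _ => ?_
      rw [hS.Ex_sum _ fun b _ => Nh.fst ((eA a b).mul (eB k hk' a b))]
    have g4 : S.Ex (fun z _ => ∑ a ∈ A, ∑ b ∈ A,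
          S.T l (fun _ x => φ x a * φ x b) z * S.T l (fun _ x => φ x a * φ x b) z) =
        ∑ a ∈ A, ∑ b ∈ A, S.Ex (fun z _ =>
          S.T l (fun _ x => φ x a * φ x b) z * S.T l (fun _ x => φ x a * φ x b) z) := by
      rw [hS.Ex_sum _ fun a _ => Nh.sum _ fun b _ => Nh.fst ((eA a b).mul (eA a b))]
      refine Finset.sum_congr rfl fun a _ => ?_
      rw [hS.Ex_sum _ fun b _ => Nh.fst ((eA a b).mul (eA a b))]
    have g5 : ∀ a b, S.Ex (fun z _ => d a b z * S.T l (fun _ x => φ x a * φ x b) z) =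
        u l * (S.Ex (fun z _ => S.T l (fun _ x => φ x a * φ x b) z *
            S.T l (fun _ x => φ x a * φ x b) z) -
          ∑ k ∈ Finset.Ico (l + 1) (S.K + 1), S.p k * S.Ex (fun z _ =>
            S.T l (fun _ x => φ x a * φ x b) z *
              S.T l (fun z _ => S.mg φ k a z * S.mg φ k b z) z) -
          S.m (l + 1) * S.Ex (fun z _ => (S.mg φ l a z * S.mg φ l b z) *
            S.T l (fun _ x => φ x a * φ x b) z)) := by
      intro a b
      have n1 : Nh (X := X) (fun z _ => S.T l (fun _ x => φ x a * φ x b) z *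
            S.T l (fun _ x => φ x a * φ x b) z) := Nh.fst ((eA a b).mul (eA a b))
      have n2 : ∀ k ∈ Finset.Ico (l + 1) (S.K + 1), Nh (X := X) (fun z _ => S.p k *
          (S.T l (fun _ x => φ x a * φ x b) z *
              S.T l (fun z _ => S.mg φ k a z * S.mg φ k b z) z)) := fun k hk' =>
        Nh.fst (EG.const_mul _ ((eA a b).mul (eB k hk' a b)))
      have n3 : Nh (X := X) (fun z _ => S.m (l + 1) * ((S.mg φ l a z * S.mg φ l b z) *
            S.T l (fun _ x => φ x a * φ x b) z)) :=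
        Nh.fst (EG.const_mul _ (((Fld.eg_mg hS hl a).mul (Fld.eg_mg hS hl b)).mul (eA a b)))
      have e1 : (fun (z : ι → ℝ) (_ : X) => d a b z * S.T l (fun _ x => φ x a * φ x b) z) =
          fun z _ => u l * ((S.T l (fun _ x => φ x a * φ x b) z *
            S.T l (fun _ x => φ x a * φ x b) z - ∑ k ∈ Finset.Ico (l + 1) (S.K + 1), S.p k *
          (S.T l (fun _ x => φ x a * φ x b) z *
              S.T l (fun z _ => S.mg φ k a z * S.mg φ k b z) z)) -
              S.m (l + 1) * ((S.mg φ l a z * S.mg φ l b z) *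
            S.T l (fun _ x => φ x a * φ x b) z)) := by
        funext z _
        simp only [hd]
        have e2 : ∑ k ∈ Finset.Ico (l + 1) (S.K + 1), S.p k *
          (S.T l (fun _ x => φ x a * φ x b) z *
              S.T l (fun z _ => S.mg φ k a z * S.mg φ k b z) z) =
            S.T l (fun _ x => φ x a * φ x b) z * ∑ k ∈ Finset.Ico (l + 1) (S.K + 1), S.p k *
              S.T l (fun z _ => S.mg φ k a z * S.mg φ k b z) z := by
          rw [Finset.mul_sum]
          refine Finset.sum_congr rfl fun k _ => ?_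
          ring
        rw [e2]
        ring
      rw [e1, Sy.Ex_const_mul, hS.Ex_sub (Nh.sub n1 (Nh.sum _ n2)) n3,
        hS.Ex_sub n1 (Nh.sum _ n2), hS.Ex_sum _ n2, Sy.Ex_const_mul]
      congr 3
      refine Finset.sum_congr rfl fun k _ => ?_
      rw [Sy.Ex_const_mul]
    rw [g1, g2, F.sy_pairEx_sq hl, g4]
    simp_rw [g5]
    have g6 : ∑ i ∈ Finset.Ico (l + 1) (S.K + 1), S.p i * (1 / (N : ℝ) ^ 2 *
        S.Ex (fun z _ => ∑ a ∈ A, ∑ b ∈ A, S.T l (fun _ x => φ x a * φ x b) z *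
          S.T l (fun z _ => S.mg φ i a z * S.mg φ i b z) z)) =
        1 / (N : ℝ) ^ 2 * ∑ a ∈ A, ∑ b ∈ A, ∑ k ∈ Finset.Ico (l + 1) (S.K + 1), S.p k * S.Ex (fun z _ =>
            S.T l (fun _ x => φ x a * φ x b) z *
              S.T l (fun z _ => S.mg φ k a z * S.mg φ k b z) z) := by
      rw [Finset.sum_congr rfl fun k hk' => by rw [g3 k hk']]
      simp_rw [Finset.mul_sum]
      rw [Finset.sum_comm]
      refine Finset.sum_congr rfl fun a _ => ?_
      rw [Finset.sum_comm]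
      refine Finset.sum_congr rfl fun b _ => Finset.sum_congr rfl fun k _ => ?_
      ring
    rw [g6]
    simp_rw [mul_sub, Finset.sum_sub_distrib, ← Finset.mul_sum]
    ring
  rw [h2] at h
  refine Eq.trans h ?_
  rw [← mul_add]
  congr 1
  have e5 : S.Ex (fun z x => ov S φ A l z x ^ 2) =
      S.Ex (fun z x => (1 / N * ∑ a ∈ A, S.mg φ l a z * φ x a) ^ 2) := rfl
  rw [e5]
  ring

/-- In (B), the averages over three replicas are at most the average over two replicas. -/
theorem three_le_two {l i : ℕ} (hl : l ≤ i) (hi : i ≤ S.K) :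
    1 / N ^ 2 * S.Ex (fun z _ => ∑ a ∈ A, ∑ b ∈ A,
      S.T l (fun _ x => φ x a * φ x b) z * S.T l (fun z _ => S.mg φ i a z * S.mg φ i b z) z) ≤
        S.pairEx l (fun x x' => Rk φ A x x' ^ 2) := by
  have hS := F.sy_reg
  have hlK : l ≤ S.K := hl.trans hi
  rw [F.sy_pairEx_sq hlK]
  refine mul_le_mul_of_nonneg_left ?_ (by positivity)
  have na : ∀ a, Nh (ι := ι) (fun (_ : ι → ℝ) (x : X) => φ x a) := fun a => Nh.snd fun x => φ x a
  have nab : ∀ a b, Nh (ι := ι) (fun (_ : ι → ℝ) (x : X) => φ x a * φ x b) := fun a b =>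
    Nh.snd fun x => φ x a * φ x b
  have em : ∀ a, EG (S.mg φ i a) := fun a => Fld.eg_mg hS hi a
  have emm : ∀ a b, EG (fun z => S.mg φ i a z * S.mg φ i b z) := fun a b => (em a).mul (em b)
  have eA : ∀ a b, EG (S.T l (fun _ x => φ x a * φ x b)) := fun a b => hS.eg_T hlK (nab a b)
  have eB : ∀ a b, EG (S.T l (fun z _ => S.mg φ i a z * S.mg φ i b z)) := fun a b =>
    hS.eg_T hlK (Nh.fst (emm a b))
  refine hS.Ex_mono (Nh.sum _ fun a _ => Nh.sum _ fun b _ => Nh.fst ((eA a b).mul (eB a b)))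
    (Nh.sum _ fun a _ => Nh.sum _ fun b _ => Nh.fst ((eA a b).mul (eA a b))) fun z _ => ?_
  rw [← sub_nonneg, ← Finset.sum_sub_distrib]
  simp_rw [← Finset.sum_sub_distrib, ← mul_sub]
  -- the conditional covariance
  have nd : ∀ a, Nh (fun (z : ι → ℝ) (x : X) => φ x a - S.mg φ i a z) := fun a =>
    Nh.sub (na a) (Nh.fst (em a))
  have e1 : ∀ a b, S.T l (fun _ x => φ x a * φ x b) z -
      S.T l (fun z _ => S.mg φ i a z * S.mg φ i b z) z =
      S.T l (fun z x => (φ x a - S.mg φ i a z) * (φ x b - S.mg φ i b z)) z := by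
    intro a b
    have t1 : ∀ a b, S.T l (fun z x => S.mg φ i a z * φ x b) z =
        S.T l (fun z _ => S.mg φ i a z * S.mg φ i b z) z := by
      intro a b
      rw [← hS.T_T hl hi (Nh.mul (Nh.fst (em a)) (na b))]
      congr 1
      funext z' _
      rw [T_mul_left S (Fld.dep_mg S φ i a)]
      rfl
    have e2 : (fun (z : ι → ℝ) (x : X) => (φ x a - S.mg φ i a z) * (φ x b - S.mg φ i b z)) =
        fun z x => ((φ x a * φ x b - S.mg φ i a z * φ x b) - S.mg φ i b z * φ x a) +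
          S.mg φ i a z * S.mg φ i b z := by
      funext z x
      ring
    have n1 := Nh.mul (Nh.fst (em a)) (na b)
    have n2 := Nh.mul (Nh.fst (em b)) (na a)
    rw [e2, hS.T_add hlK (Nh.sub (Nh.sub (nab a b) n1) n2) (Nh.fst (emm a b)),
      hS.T_sub hlK (Nh.sub (nab a b) n1) n2, hS.T_sub hlK (nab a b) n1, t1, t1]
    have e3 : (fun (z : ι → ℝ) (_ : X) => S.mg φ i b z * S.mg φ i a z) =
        fun z _ => S.mg φ i a z * S.mg φ i b z := by
      funext z _
      exact mul_comm _ _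
    rw [e3]
    ring
  simp_rw [e1]
  have e4 : ∑ a ∈ A, ∑ b ∈ A, S.T l (fun _ x => φ x a * φ x b) z *
      S.T l (fun z x => (φ x a - S.mg φ i a z) * (φ x b - S.mg φ i b z)) z =
      ∑ x, S.pr l z x * S.T l (fun z y => (∑ a ∈ A, φ x a * (φ y a - S.mg φ i a z)) ^ 2) z := by
    have e5 : ∀ x, S.T l (fun z y => (∑ a ∈ A, φ x a * (φ y a - S.mg φ i a z)) ^ 2) z =
        ∑ a ∈ A, ∑ b ∈ A, (φ x a * φ x b) *
          S.T l (fun z x => (φ x a - S.mg φ i a z) * (φ x b - S.mg φ i b z)) z := by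
      intro x
      have e6 : (fun (z : ι → ℝ) (y : X) => (∑ a ∈ A, φ x a * (φ y a - S.mg φ i a z)) ^ 2) =
          fun z y => ∑ a ∈ A, ∑ b ∈ A, (φ x a * φ x b) *
            ((fun (z : ι → ℝ) (x : X) => (φ x a - S.mg φ i a z) * (φ x b - S.mg φ i b z)) z y) := by
        funext z y
        rw [sq, Finset.sum_mul_sum]
        refine Finset.sum_congr rfl fun a _ => Finset.sum_congr rfl fun b _ => ?_
        ring
      rw [e6, hS.T_sum hlK _ fun a _ => Nh.sum _ fun b _ =>
        Nh.const_mul _ (Nh.mul (nd a) (nd b))]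
      refine Finset.sum_congr rfl fun a _ => ?_
      rw [hS.T_sum hlK _ fun b _ => Nh.const_mul _ (Nh.mul (nd a) (nd b))]
      refine Finset.sum_congr rfl fun b _ => ?_
      rw [Sy.T_const_mul]
    simp_rw [e5, Finset.mul_sum]
    rw [Finset.sum_comm]
    rw [Finset.sum_comm (s := (Finset.univ : Finset X))]
    rw [Finset.sum_comm]
    refine Finset.sum_congr rfl fun a _ => ?_
    rw [Finset.sum_comm (s := (Finset.univ : Finset X))]
    refine Finset.sum_congr rfl fun b _ => ?_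
    rw [hS.T_pr hlK (fun x => φ x a * φ x b), Finset.sum_mul]
    refine Finset.sum_congr rfl fun x _ => ?_
    ring
  rw [e4]
  refine Finset.sum_nonneg fun x _ => mul_nonneg (hS.pr_nonneg hlK z x) ?_
  have h0 := hS.T_mono hlK (f := fun _ _ => (0 : ℝ))
    (g := fun z y => (∑ a ∈ A, φ x a * (φ y a - S.mg φ i a z)) ^ 2) (Nh.snd fun _ => 0)
    (Nh.pow (Nh.sum _ fun a _ => Nh.const_mul _ (nd a)) 2) (fun z y => sq_nonneg _) z
  rwa [hS.T_const hlK] at h0

lemma sy_ov_eq {l : ℕ} (hl : l ≤ S.K) (z : ι → ℝ) (x : X) :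
    ov S φ A l z x = ∑ x', S.pr l z x' * Rk φ A x' x := by
  have hS := F.sy_reg
  simp_rw [ov, Fld.mg_eq hS hl, Rk, Finset.sum_mul]
  rw [Finset.sum_comm, Finset.mul_sum]
  refine Finset.sum_congr rfl fun x' _ => ?_
  rw [Finset.mul_sum, Finset.mul_sum, Finset.mul_sum]
  refine Finset.sum_congr rfl fun a _ => ?_
  ring

lemma sy_abs_ov_le {l : ℕ} (hl : l ≤ S.K) (z : ι → ℝ) (x : X) : |ov S φ A l z x| ≤ 1 := by
  have hS := F.sy_reg
  rw [F.sy_ov_eq hl]
  refine (Finset.abs_sum_le_sum_abs _ _).trans ?_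
  rw [← hS.sum_pr hl z]
  refine Finset.sum_le_sum fun x' _ => ?_
  rw [abs_mul, abs_of_nonneg (hS.pr_nonneg hl z x')]
  exact mul_le_of_le_one_right (hS.pr_nonneg hl z x') (F.abs_Rk_le x' x)

/-- a concentrated observable is almost uncorrelated with the overlap -/
lemma sy_dev_gen {l : ℕ} (hl : l ≤ S.K) {ε c : ℝ} {h : (ι → ℝ) → X → ℝ} (nh : Nh h)
    (hc : S.Ex (fun z x => |h z x - c|) ≤ ε) :
    |S.Ex (fun z x => h z x * ov S φ A l z x) - S.Ex h * S.pairEx l (Rk φ A)| ≤ 2 * ε := by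
  have hS := F.sy_reg
  have nu := sy_nh_ov (φ := φ) (A := A) hS hl
  have nc : ∀ c : ℝ, Nh (ι := ι) (X := X) (fun _ _ => c) := fun c => Nh.fst (EG.const c)
  have n1 : Nh (fun z x => h z x - c) := Nh.sub nh (nc c)
  have n2 : Nh (fun z x => ov S φ A l z x - S.pairEx l (Rk φ A)) := Nh.sub nu (nc _)
  have e : S.Ex (fun z x => h z x * ov S φ A l z x) - S.Ex h * S.pairEx l (Rk φ A) =
      S.Ex (fun z x => (h z x - c) * (ov S φ A l z x - S.pairEx l (Rk φ A))) := by
    have e1 : (fun z x => (h z x - c) * (ov S φ A l z x - S.pairEx l (Rk φ A))) =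
        fun z x => (h z x * ov S φ A l z x - S.pairEx l (Rk φ A) * h z x) -
          c * (ov S φ A l z x - S.pairEx l (Rk φ A)) := by
      funext z x
      ring
    rw [e1, hS.Ex_sub (Nh.sub (Nh.mul nh nu) (Nh.const_mul _ nh)) (Nh.const_mul _ n2),
      hS.Ex_sub (Nh.mul nh nu) (Nh.const_mul _ nh), Sy.Ex_const_mul, Sy.Ex_const_mul,
      hS.Ex_sub nu (nc _), hS.Ex_const, F.sy_Ex_ov hl, sub_self, mul_zero, sub_zero,
      mul_comm (S.pairEx l (Rk φ A))]
  rw [e]
  refine (hS.abs_Ex_le (Nh.mul n1 n2)).trans ?_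
  have h2 : S.Ex (fun z x => |(h z x - c) * (ov S φ A l z x - S.pairEx l (Rk φ A))|) ≤
      S.Ex (fun z x => 2 * |h z x - c|) := by
    refine hS.Ex_mono (Nh.abs (Nh.mul n1 n2)) (Nh.const_mul _ (Nh.abs n1)) fun z x => ?_
    rw [abs_mul, mul_comm]
    refine mul_le_mul_of_nonneg_right ?_ (abs_nonneg _)
    have h3 := abs_le.mp (F.sy_abs_ov_le hl z x)
    have h4 := F.pairEx_Rk_nonneg hl
    have h5 := F.sy_pairEx_le_one hl
    rw [abs_le]
    constructor <;> linarith only [h3, h4, h5]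
  refine h2.trans ?_
  rw [Sy.Ex_const_mul]
  linarith only [hc]

/-- **Synchronization.** -/
theorem sync {ε σ π ρ : ℝ} (hε : 0 ≤ ε) (hσ : 0 < σ) (hσ1 : σ ≤ 1)
    (hu : ∀ l, 1 ≤ l → l ≤ S.K → σ ≤ u l) (hπ : 0 < π) (hp : ∀ l ≤ S.K, π ≤ S.p l)
    (hρ : S.Ex (fun _ x => |Rk φ A x x - ρ|) ≤ ε)
    (hc : ∀ l, 1 ≤ l → l ≤ S.K → ∃ C, S.Ex (fun z x => |hk φ zc A l z x - C|) ≤ ε)
    {l : ℕ} (hl0 : 1 ≤ l) (hl : l < S.K) :
    S.pairEx l (fun x x' => (Rk φ A x x' - S.pairEx l (Rk φ A)) ^ 2) ≤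
      2 * (S.pairEx (l + 1) (Rk φ A) - S.pairEx l (Rk φ A)) + 100 * ε / (σ * π) := by
  have hS := F.sy_reg
  have hN := F.sy_Npos
  have hlK := hl.le
  set R : ℕ → ℝ := fun k => S.pairEx k (Rk φ A) with hR
  set W : ℕ → ℝ := fun k => S.Ex (fun z x => ov S φ A l z x * ov S φ A k z x) with hW
  set G : ℕ → ℝ := fun k => W k - R l * R k with hG
  set B : ℕ → ℝ := fun j => ∑ k ∈ Finset.Ico j (S.K + 1), S.p k * G k with hB'
  set E0 : ℝ := S.Ex (fun _ x => Rk φ A x x) with hE0
  set E1 : ℝ := S.Ex (fun z x => ov S φ A l z x * Rk φ A x x) with hE1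
  have hδ : 0 ≤ 4 * ε / σ := by (clear * - hε hσ; positivity)
  have hεσ : ε ≤ ε / σ := by
    rw [le_div_iff₀ hσ]
    exact mul_le_of_le_one_right hε hσ1
  -- the self-overlap
  have hdev2 : |E1 - E0 * R l| ≤ 2 * ε := by
    have h1 := F.sy_dev_gen hlK (h := fun _ x => Rk φ A x x) sy_nh_Rk hρ
    have e : S.Ex (fun z x => Rk φ A x x * ov S φ A l z x) = E1 := by
      rw [hE1]
      congr 1
      funext z x
      exact mul_comm _ _
    rw [e] at h1
    exact h1
  have e3 : ∀ j, B j = ∑ i ∈ Finset.Ico j (S.K + 1), S.p i * W i -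
      R l * ∑ i ∈ Finset.Ico j (S.K + 1), S.p i * R i := by
    intro j
    simp only [hB', hG]
    rw [Finset.mul_sum, ← Finset.sum_sub_distrib]
    refine Finset.sum_congr rfl fun i _ => ?_
    ring
  -- consequences of (A)
  have cA : ∀ j, l < j → j ≤ S.K + 1 → |B j| ≤ 4 * ε / σ := by
    intro j hlj hj
    rcases Nat.lt_or_ge j (S.K + 1) with hj' | hj'
    · have hjK : j ≤ S.K := by omega
      have hj1 : 1 ≤ j := by omega
      obtain ⟨c, hc'⟩ := hc j hj1 hjK
      have h1 := F.sy_dev_gen hlK (sy_nh_hk j) hc'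
      have h2 := F.ident_A hlj hjK
      have h3 := F.Ex_hk hjK
      have e1 : S.Ex (fun z x => hk φ zc A j z x * ov S φ A l z x) -
          S.Ex (hk φ zc A j) * S.pairEx l (Rk φ A) = u j * ((E1 - E0 * R l) - B j) := by
        have e2 : S.Ex (fun z x => hk φ zc A j z x * ov S φ A l z x) =
            u j * (E1 - ∑ i ∈ Finset.Ico j (S.K + 1), S.p i * W i) := h2
        rw [e2, h3, e3 j]
        simp only [hR, ← hE0]
        ring
      have huj := hu j hj1 hjK
      have huj0 : 0 < u j := lt_of_lt_of_le hσ huj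
      rw [e1, abs_mul, abs_of_pos huj0] at h1
      have h4 : |E1 - E0 * R l - B j| ≤ 2 * ε / σ := by
        rw [le_div_iff₀ hσ]
        have h5 := mul_le_mul_of_nonneg_left huj (abs_nonneg (E1 - E0 * R l - B j))
        rw [mul_comm (|E1 - E0 * R l - B j|) (u j)] at h5
        exact h5.trans h1
      have h6 := abs_le.1 h4
      have h7 := abs_le.1 hdev2
      have h8 : 4 * ε / σ = 2 * ε / σ + 2 * (ε / σ) := by ring
      rw [abs_le, h8]
      constructor <;> linarith only [hεσ, h6, h7]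
    · have : B j = 0 := by
        simp only [hB']
        rw [Finset.Ico_eq_empty (by omega), Finset.sum_empty]
      rw [this, abs_zero]
      exact hδ
  -- the covariance with the next level
  have hG1 : G (l + 1) ≤ 8 * ε / (σ * π) := by
    have e1 : B (l + 1) = S.p (l + 1) * G (l + 1) + B (l + 1 + 1) := by
      simp only [hB']
      rw [Finset.sum_eq_sum_Ico_succ_bot (by omega : l + 1 < S.K + 1)]
    have h1 := abs_le.mp (cA (l + 1) (by omega) (by omega))
    have h2 := abs_le.mp (cA (l + 1 + 1) (by omega) (by omega))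
    have h3 := hp (l + 1) (by omega)
    have h4 : S.p (l + 1) * G (l + 1) ≤ 8 * ε / σ := by
      have : 8 * ε / σ = 4 * ε / σ + 4 * ε / σ := by ring
      rw [this]
      linarith only [e1, h1, h2]
    by_cases hg : G (l + 1) ≤ 0
    · exact hg.trans (by (clear * - hε hσ hπ; positivity))
    · push Not at hg
      rw [← div_div, le_div_iff₀ hπ]
      have h5 := mul_le_mul_of_nonneg_left h3 hg.le
      rw [mul_comm (G (l + 1)) (S.p (l + 1))] at h5
      exact h5.trans h4
  -- the variance of the overlap with the magnetization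
  have nu := sy_nh_ov (φ := φ) (A := A) hS hlK
  have nu' := sy_nh_ov (φ := φ) (A := A) hS (show l + 1 ≤ S.K from hl)
  have nc : ∀ c : ℝ, Nh (ι := ι) (X := X) (fun _ _ => c) := fun c => Nh.fst (EG.const c)
  set V : ℝ := W l - R l * R l with hV
  have hV1 : S.Ex (fun z x => (ov S φ A l z x - R l) ^ 2) = V := by
    have e1 : (fun z x => (ov S φ A l z x - R l) ^ 2) =
        fun z x => (ov S φ A l z x * ov S φ A l z x - 2 * R l * ov S φ A l z x) + R l ^ 2 := by
      funext z x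
      ring
    rw [e1, hS.Ex_add (Nh.sub (Nh.mul nu nu) (Nh.const_mul _ nu)) (nc _),
      hS.Ex_sub (Nh.mul nu nu) (Nh.const_mul _ nu), Sy.Ex_const_mul, hS.Ex_const, F.sy_Ex_ov hlK]
    simp only [hV, hR, hW]
    ring
  have hV0 : 0 ≤ V := by
    rw [← hV1, ← hS.Ex_const 0]
    exact hS.Ex_mono (nc 0) (Nh.pow (Nh.sub nu (nc _)) 2) fun z x => sq_nonneg _
  have hdif : S.Ex (fun z x => (ov S φ A l z x - ov S φ A (l + 1) z x) ^ 2) ≤
      R (l + 1) - R l := by
    simp only [hR]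
    rw [← F.sy_Rl_sub hl, ← Sy.Ex_const_mul]
    refine hS.Ex_mono (Nh.pow (Nh.sub nu nu') 2) (Nh.fst (EG.const_mul _ (EG.sum _ fun i _ =>
      ((Fld.eg_mg hS (show l + 1 ≤ S.K from hl) i).sub (Fld.eg_mg hS hlK i)).pow 2)))
      fun z x => ?_
    have e1 : ov S φ A l z x - ov S φ A (l + 1) z x =
        -(1 / N * ∑ a ∈ A, (S.mg φ (l + 1) a z - S.mg φ l a z) * φ x a) := by
      simp_rw [ov, sub_mul]
      rw [Finset.sum_sub_distrib]
      ring
    rw [e1, neg_sq, mul_pow]
    have h1 := Finset.sum_mul_sq_le_sq_mul_sq A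
      (fun a => S.mg φ (l + 1) a z - S.mg φ l a z) (φ x)
    have h0 : 0 ≤ ∑ a ∈ A, (S.mg φ (l + 1) a z - S.mg φ l a z) ^ 2 :=
      Finset.sum_nonneg fun a _ => sq_nonneg _
    have h2 := h1.trans (mul_le_mul_of_nonneg_left (F.norm x) h0)
    calc (1 / (N : ℝ)) ^ 2 * (∑ a ∈ A, (S.mg φ (l + 1) a z - S.mg φ l a z) * φ x a) ^ 2
        ≤ (1 / (N : ℝ)) ^ 2 * ((∑ a ∈ A, (S.mg φ (l + 1) a z - S.mg φ l a z) ^ 2) * N) :=
          mul_le_mul_of_nonneg_left h2 (by (clear * - hN; positivity))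
      _ = 1 / N * ∑ i ∈ A, (S.mg φ (l + 1) i z - S.mg φ l i z) ^ 2 := by
          (clear * - hN; field_simp)
  have hV2 : V ≤ (R (l + 1) - R l) + 2 * G (l + 1) := by
    have e1 : V - G (l + 1) =
        S.Ex (fun z x => (ov S φ A l z x - R l) * (ov S φ A l z x - ov S φ A (l + 1) z x)) := by
      have e2 : (fun z x => (ov S φ A l z x - R l) * (ov S φ A l z x - ov S φ A (l + 1) z x)) =
          fun z x => (ov S φ A l z x * ov S φ A l z x - ov S φ A l z x * ov S φ A (l + 1) z x) -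
            (R l * ov S φ A l z x - R l * ov S φ A (l + 1) z x) := by
        funext z x
        ring
      rw [e2, hS.Ex_sub (Nh.sub (Nh.mul nu nu) (Nh.mul nu nu'))
        (Nh.sub (Nh.const_mul _ nu) (Nh.const_mul _ nu')), hS.Ex_sub (Nh.mul nu nu) (Nh.mul nu nu'),
        hS.Ex_sub (Nh.const_mul _ nu) (Nh.const_mul _ nu'), Sy.Ex_const_mul, Sy.Ex_const_mul,
        F.sy_Ex_ov hlK, F.sy_Ex_ov (show l + 1 ≤ S.K from hl)]
      simp only [hV, hG, hR, hW]
      ring
    have h1 : S.Ex (fun z x => (ov S φ A l z x - R l) * (ov S φ A l z x - ov S φ A (l + 1) z x)) ≤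
        S.Ex (fun z x => 1 / 2 * (ov S φ A l z x - R l) ^ 2 +
          1 / 2 * (ov S φ A l z x - ov S φ A (l + 1) z x) ^ 2) := by
      refine hS.Ex_mono (Nh.mul (Nh.sub nu (nc _)) (Nh.sub nu nu'))
        (Nh.add (Nh.const_mul _ (Nh.pow (Nh.sub nu (nc _)) 2))
          (Nh.const_mul _ (Nh.pow (Nh.sub nu nu') 2))) fun z x => ?_
      have := two_mul_le_add_sq (ov S φ A l z x - R l) (ov S φ A l z x - ov S φ A (l + 1) z x)
      linarith only [this]
    rw [hS.Ex_add (Nh.const_mul _ (Nh.pow (Nh.sub nu (nc _)) 2))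
      (Nh.const_mul _ (Nh.pow (Nh.sub nu nu') 2)), Sy.Ex_const_mul, Sy.Ex_const_mul, hV1] at h1
    linarith only [hdif, e1, h1]
  -- (B)
  set Q : ℝ := S.pairEx l (fun x x' => Rk φ A x x' ^ 2) with hQ
  set a : ℕ → ℝ := fun i => 1 / (N : ℝ) ^ 2 * S.Ex (fun z _ => ∑ a ∈ A, ∑ b ∈ A,
          S.T l (fun _ x => φ x a * φ x b) z * S.T l (fun z _ => S.mg φ i a z * S.mg φ i b z) z)
    with ha
  have hp0 : ∀ i ≤ S.K, 0 ≤ S.p i := fun i hi => by
    rw [Sy.p]
    linarith only [hS.mono i hi]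
  have hsum : ∑ i ∈ Finset.Ico (l + 1) (S.K + 1), S.p i = 1 - S.m (l + 1) := by
    have h1 : ∀ n, l + 1 ≤ n → ∑ i ∈ Finset.Ico (l + 1) n, S.p i = S.m n - S.m (l + 1) := by
      intro n hn
      induction n, hn using Nat.le_induction with
      | base => simp
      | succ n hn ih =>
        rw [Finset.sum_Ico_succ_top hn, ih, Sy.p]
        ring
    rw [h1 _ (by omega), hS.mK]
  have ha1 : ∑ i ∈ Finset.Ico (l + 1) (S.K + 1), S.p i * a i ≤ Q * (1 - S.m (l + 1)) := by
    rw [← hsum, Finset.mul_sum]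
    refine Finset.sum_le_sum fun i hi => ?_
    rw [Finset.mem_Ico] at hi
    rw [mul_comm Q]
    exact mul_le_mul_of_nonneg_left (F.three_le_two (by omega) (by omega)) (hp0 i (by omega))
  have hB : Q - ∑ i ∈ Finset.Ico (l + 1) (S.K + 1), S.p i * a i - S.m (l + 1) * W l - B l ≤
      4 * ε / σ := by
    obtain ⟨c, hc'⟩ := hc l hl0 hlK
    have h1 := F.sy_dev_gen hlK (sy_nh_hk l) hc'
    have h2 := F.ident_B hlK
    have h3 := F.Ex_hk hlK
    have e1 : S.Ex (fun z x => hk φ zc A l z x * ov S φ A l z x) -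
        S.Ex (hk φ zc A l) * S.pairEx l (Rk φ A) =
        u l * ((Q - ∑ i ∈ Finset.Ico (l + 1) (S.K + 1), S.p i * a i - S.m (l + 1) * W l - B l) +
          (E1 - E0 * R l)) := by
      have e0 : W l = S.Ex (fun z x => ov S φ A l z x ^ 2) := by
        simp only [hW]
        congr 1
        funext z x
        rw [sq]
      have e2 : S.Ex (fun z x => hk φ zc A l z x * ov S φ A l z x) =
          u l * (Q - ∑ i ∈ Finset.Ico (l + 1) (S.K + 1), S.p i * a i - S.m (l + 1) * W l + E1 -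
            ∑ i ∈ Finset.Ico l (S.K + 1), S.p i * W i) := by
        rw [e0]
        exact h2
      rw [e2, h3, e3 l]
      simp only [hR, ← hE0]
      ring
    have huj := hu l hl0 hlK
    have huj0 : 0 < u l := lt_of_lt_of_le hσ huj
    rw [e1, abs_mul, abs_of_pos huj0] at h1
    set Z := Q - ∑ i ∈ Finset.Ico (l + 1) (S.K + 1), S.p i * a i - S.m (l + 1) * W l - B l with hZ
    have h4 : |Z + (E1 - E0 * R l)| ≤ 2 * ε / σ := by
      rw [le_div_iff₀ hσ]
      have h5 := mul_le_mul_of_nonneg_left huj (abs_nonneg (Z + (E1 - E0 * R l)))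
      rw [mul_comm (|Z + (E1 - E0 * R l)|) (u l)] at h5
      exact h5.trans h1
    have h6 := abs_le.1 h4
    have h7 := abs_le.1 hdev2
    have h8 : 4 * ε / σ = 2 * ε / σ + 2 * (ε / σ) := by ring
    rw [h8]
    linarith only [hεσ, h6, h7]
  have hAl : B l = S.p l * V + B (l + 1) := by
    simp only [hB', hV]
    rw [Finset.sum_eq_sum_Ico_succ_bot (by omega : l < S.K + 1)]
  have hA1 := (abs_le.mp (cA (l + 1) (by omega) (by omega))).2
  have hm0 : 0 ≤ S.m l := (hS.m_pos hl0 (by omega)).le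
  have hpl : S.p l ≤ S.m (l + 1) := by
    rw [Sy.p]
    linarith only [hm0]
  have hmπ : π ≤ S.m (l + 1) := (hp l hlK).trans hpl
  have hmain : S.m (l + 1) * (Q - R l * R l - 2 * V) ≤ 8 * ε / σ := by
    have e1 : 8 * ε / σ = 4 * ε / σ + 4 * ε / σ := by ring
    have e2 : W l = V + R l * R l := by simp only [hV]; ring
    rw [hAl, e2] at hB
    rw [e1]
    have h6 : S.p l * V ≤ S.m (l + 1) * V := mul_le_mul_of_nonneg_right hpl hV0
    have e3 : S.m (l + 1) * (V + R l * R l) = S.m (l + 1) * V + S.m (l + 1) * (R l * R l) :=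
      mul_add _ _ _
    have e4 : Q * (1 - S.m (l + 1)) = Q - S.m (l + 1) * Q := by ring
    have e5 : S.m (l + 1) * (Q - R l * R l - 2 * V) = S.m (l + 1) * Q -
        S.m (l + 1) * (R l * R l) - 2 * (S.m (l + 1) * V) := by ring
    rw [e3] at hB
    rw [e4] at ha1
    rw [e5]
    linarith only [ha1, hB, hA1, h6]
  have hfin : Q - R l * R l - 2 * V ≤ 8 * ε / (σ * π) := by
    by_cases hx : Q - R l * R l - 2 * V ≤ 0
    · exact hx.trans (by (clear * - hε hσ hπ; positivity))
    · push Not at hx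
      rw [← div_div, le_div_iff₀ hπ]
      have h5 := mul_le_mul_of_nonneg_left hmπ hx.le
      rw [mul_comm _ (S.m (l + 1))] at h5
      exact h5.trans hmain
  have hexp : S.pairEx l (fun x x' => (Rk φ A x x' - R l) ^ 2) = Q - R l * R l := by
    have e1 : (fun x x' => (Rk φ A x x' - R l) ^ 2) =
        fun x x' => Rk φ A x x' ^ 2 + ((-(2 * R l)) * Rk φ A x x' + R l * R l) := by
      funext x x'
      ring
    rw [e1, hS.pairEx_add hlK (fun x x' => Rk φ A x x' ^ 2)
      (fun x x' => (-(2 * R l)) * Rk φ A x x' + R l * R l),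
      hS.pairEx_add hlK (fun x x' => (-(2 * R l)) * Rk φ A x x') (fun _ _ => R l * R l),
      hS.pairEx_const_mul, hS.pairEx_const hlK]
    have e2 : S.pairEx l (fun x x' => Rk φ A x x') = R l := rfl
    rw [e2]
    simp only [hQ]
    ring
  have hexp' : S.pairEx l (fun x x' => (Rk φ A x x' - S.pairEx l (Rk φ A)) ^ 2) =
      Q - R l * R l := hexp
  rw [hexp']
  have e1 : 40 * ε / (σ * π) = 8 * ε / (σ * π) + 4 * (8 * ε / (σ * π)) := by ring
  have e4 : 40 * ε / (σ * π) ≤ 100 * ε / (σ * π) := by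
    apply div_le_div_of_nonneg_right _ (by positivity)
    linarith only [hε]
  have e5 : S.pairEx (l + 1) (Rk φ A) = R (l + 1) := rfl
  have e6 : S.pairEx l (Rk φ A) = R l := rfl
  rw [e5, e6]
  linarith only [hG1, hV2, hfin, e1, e4]

/-- The overlaps are determined by the means of the fields. -/
theorem pairEx_close {ε σ π : ℝ} (hσ : 0 < σ) (hπ : 0 < π) (hp : ∀ l ≤ S.K, π ≤ S.p l)
    {C : ℕ → ℝ} (hu : ∀ l, 1 ≤ l → l ≤ S.K → σ ≤ u l)
    (hc : ∀ l, 1 ≤ l → l ≤ S.K → S.Ex (fun z x => |hk φ zc A l z x - C l|) ≤ ε)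
    {l : ℕ} (hl0 : 1 ≤ l) (hl : l < S.K) :
    |S.pairEx l (Rk φ A) - (C (l + 1) / u (l + 1) - C l / u l) / S.p l| ≤
      2 * ε / (σ * π) := by
  have hS := F.sy_reg
  have nc : ∀ c : ℝ, Nh (ι := ι) (X := X) (fun _ _ => c) := fun c => Nh.fst (EG.const c)
  have key : ∀ j, 1 ≤ j → j ≤ S.K → |S.Ex (hk φ zc A j) / u j - C j / u j| ≤ ε / σ := by
    intro j h1 h2
    have hj : 0 < u j := lt_of_lt_of_le hσ (hu j h1 h2)
    have h3 : |S.Ex (hk φ zc A j) - C j| ≤ ε := by
      have e1 : S.Ex (hk φ zc A j) - C j = S.Ex (fun z x => hk φ zc A j z x - C j) := by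
        rw [hS.Ex_sub (sy_nh_hk j) (nc _), hS.Ex_const]
      rw [e1]
      exact (hS.abs_Ex_le (Nh.sub (sy_nh_hk j) (nc _))).trans (hc j h1 h2)
    rw [← sub_div, abs_div, abs_of_pos hj]
    have h4 : 0 ≤ ε := (abs_nonneg _).trans h3
    exact div_le_div₀ h4 h3 hσ (hu j h1 h2)
  have k1 := abs_le.1 (key l hl0 hl.le)
  have k2 := abs_le.1 (key (l + 1) (by omega) hl)
  have hul : 0 < u l := lt_of_lt_of_le hσ (hu l hl0 hl.le)
  have hul' : 0 < u (l + 1) := lt_of_lt_of_le hσ (hu (l + 1) (by omega) hl)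
  have e1 : S.Ex (hk φ zc A (l + 1)) / u (l + 1) - S.Ex (hk φ zc A l) / u l =
      S.p l * S.pairEx l (Rk φ A) := by
    rw [F.Ex_hk (show l + 1 ≤ S.K from hl), F.Ex_hk hl.le, mul_div_cancel_left₀ _ hul'.ne',
      mul_div_cancel_left₀ _ hul.ne', Finset.sum_eq_sum_Ico_succ_bot (by omega : l < S.K + 1)]
    ring
  have hpl : 0 < S.p l := lt_of_lt_of_le hπ (hp l hl.le)
  have e2 : S.pairEx l (Rk φ A) - (C (l + 1) / u (l + 1) - C l / u l) / S.p l =
      (S.p l * S.pairEx l (Rk φ A) - (C (l + 1) / u (l + 1) - C l / u l)) / S.p l := by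
    rw [eq_div_iff hpl.ne', sub_mul, div_mul_cancel₀ _ hpl.ne']
    ring
  rw [e2, abs_div, abs_of_pos hpl, ← div_div]
  have h3 : |S.p l * S.pairEx l (Rk φ A) - (C (l + 1) / u (l + 1) - C l / u l)| ≤ 2 * ε / σ := by
    rw [← e1, abs_le]
    have e3 : 2 * ε / σ = ε / σ + ε / σ := by ring
    rw [e3]
    constructor <;> linarith only [k1, k2]
  exact div_le_div₀ ((abs_nonneg _).trans h3) h3 hπ (hp l hl.le)

end BFld

end Vale.Agent.P166.U
end
end

section

section

/-!
Basic facts on the enriched model: regularity, tangent inequality of the mean free energy,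
first moments of the fields, values without fields.
-/

open MeasureTheory ProbabilityTheory Matrix Filter Topology

namespace Vale.Agent.P166.U

open Vale.Agent.P157 (spin)
open Vale.Agent.P157.Lv Vale.Agent.P157.Par Md

variable {N K κ : ℕ} {m : ℕ → ℝ} {c : Fin N → Fin κ} {P P' : Pm κ}
  {U : Matrix (Fin N) (Fin N) ℝ}

theorem spin_sq (x : Fin N → Bool) (i : Fin N) : spin x i ^ 2 = 1 := by
  unfold spin
  split_ifs <;> norm_num

theorem mdl_dot (hU : U ∈ orthogonalGroup (Fin N) ℝ) (a b : Fin N → ℝ) :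
    (U *ᵥ a) ⬝ᵥ (U *ᵥ b) = a ⬝ᵥ b := by
  have h1 : Uᵀ * U = 1 := by
    exact (mem_orthogonalGroup_iff' (Fin N) ℝ).1 hU
  rw [dotProduct_mulVec, ← mulVec_transpose, mulVec_mulVec, h1, one_mulVec]

theorem mdl_ph_mul (hU : U ∈ orthogonalGroup (Fin N) ℝ) (x x' : Fin N → Bool) :
    ∑ i, ph U x i * ph U x' i = ∑ i, spin x i * spin x' i :=
  mdl_dot hU (spin x) (spin x')

theorem mdl_spin_sum (x : Fin N → Bool) : ∑ i, spin x i ^ 2 = N := by
  simp only [spin_sq, Finset.sum_const, Finset.card_univ, Fintype.card_fin, nsmul_eq_mul, mul_one]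

theorem ph_sq (hU : U ∈ orthogonalGroup (Fin N) ℝ) (x : Fin N → Bool) :
    ∑ i, ph U x i ^ 2 = N := by
  have h := mdl_ph_mul hU x x
  simp only [← sq] at h
  rw [h, mdl_spin_sum]

theorem mdl_ofNat {l : ℕ} (hl : l ≤ K) : ((Fin.ofNat (K + 1) l : Fin (K + 1)) : ℕ) = l := by
  rw [Fin.val_ofNat]
  exact Nat.mod_eq_of_lt (by omega)

theorem mdl_sco_eq {l : ℕ} (hl : l ≤ K) (i : Fin N) (e : Ix N K) :
    sco l i = e ↔ l = e.1 ∧ e.2.1 = true ∧ i = e.2.2 := by
  obtain ⟨a, b, j⟩ := e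
  unfold sco
  rw [Prod.mk.injEq, Prod.mk.injEq, Fin.ext_iff, mdl_ofNat hl]
  constructor
  · rintro ⟨h1, h2, h3⟩; exact ⟨h1, h2.symm, h3⟩
  · rintro ⟨h1, h2, h3⟩; exact ⟨h1, h2.symm, h3⟩

theorem mdl_bco_eq {l : ℕ} (hl : l ≤ K) (i : Fin N) (e : Ix N K) :
    bco l i = e ↔ l = e.1 ∧ e.2.1 = false ∧ i = e.2.2 := by
  obtain ⟨a, b, j⟩ := e
  unfold bco
  rw [Prod.mk.injEq, Prod.mk.injEq, Fin.ext_iff, mdl_ofNat hl]
  constructor
  · rintro ⟨h1, h2, h3⟩; exact ⟨h1, h2.symm, h3⟩
  · rintro ⟨h1, h2, h3⟩; exact ⟨h1, h2.symm, h3⟩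

theorem mdl_lip (x : Fin N → Bool) : Lip fun z : Ix N K → ℝ => Md.en c P U z x := by
  unfold Md.en
  refine Lip.add (Lip.add (Lip.const _) (Lip.sum _ fun l _ => Lip.const_mul (Lip.sum _ fun i _ => ?_) _))
    (Lip.sum _ fun l _ => Lip.sum _ fun i _ => Lip.const_mul ?_ _)
  · have h := (Lip.coord (sco (K := K) l i)).const_mul (spin x i)
    simpa only [mul_comm] using h
  · have h := (Lip.coord (bco (K := K) l i)).const_mul (ph U x i)
    simpa only [mul_comm] using h

theorem mdl_pd (e : Ix N K) (x : Fin N → Bool) :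
    PD e (fun z => Md.en c P U z x) (fun z => enD c P U e z x) := by
  have h1 : PD e (fun z => Md.en c P U z x) (fun _ => 0 +
      ∑ l ∈ Finset.range (K + 1), P.s l * ∑ i, (if sco l i = e then (1 : ℝ) else 0) * spin x i +
      ∑ l ∈ Finset.range (K + 1), ∑ i, P.u (c i) l *
        ((if bco l i = e then (1 : ℝ) else 0) * ph U x i)) := by
    unfold Md.en
    refine PD.add (PD.add (PD.const _) (PD.sum _ fun l _ => PD.const_mul (PD.sum _ fun i _ => ?_) _))
      (PD.sum _ fun l _ => PD.sum _ fun i _ => PD.const_mul ?_ _)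
    · have h := (PD.coord (e := e) (sco (K := K) l i)).const_mul (spin x i)
      simpa only [mul_comm] using h
    · have h := (PD.coord (e := e) (bco (K := K) l i)).const_mul (ph U x i)
      simpa only [mul_comm] using h
  refine h1.congr fun z => ?_
  obtain ⟨a, b, j⟩ := e
  have hs : ∀ l ∈ Finset.range (K + 1), ∀ i : Fin N,
      (if sco l i = ((a, b, j) : Ix N K) then (1 : ℝ) else 0) =
        if (l = (a : ℕ) ∧ b = true ∧ i = j) then 1 else 0 := by
    intro l hl i
    rw [Finset.mem_range] at hl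
    exact if_congr (mdl_sco_eq (by omega) i _) rfl rfl
  have hb : ∀ l ∈ Finset.range (K + 1), ∀ i : Fin N,
      (if bco l i = ((a, b, j) : Ix N K) then (1 : ℝ) else 0) =
        if (l = (a : ℕ) ∧ b = false ∧ i = j) then 1 else 0 := by
    intro l hl i
    rw [Finset.mem_range] at hl
    exact if_congr (mdl_bco_eq (by omega) i _) rfl rfl
  have ha : (a : ℕ) ∈ Finset.range (K + 1) := Finset.mem_range.2 a.2
  have e1 : ∑ l ∈ Finset.range (K + 1), P.s l *
      ∑ i, (if sco l i = ((a, b, j) : Ix N K) then (1 : ℝ) else 0) * spin x i =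
      if b = true then P.s a * spin x j else 0 := by
    rw [Finset.sum_eq_single_of_mem (a : ℕ) ha]
    · rw [Finset.sum_eq_single_of_mem j (Finset.mem_univ j)]
      · rw [hs _ ha]
        by_cases h : b = true
        · simp [h]
        · simp [h]
      · intro i _ hi
        rw [hs _ ha]
        simp [hi]
    · intro l hl hne
      rw [Finset.sum_eq_zero, mul_zero]
      intro i _
      rw [hs _ hl]
      simp [hne]
  have e2 : ∑ l ∈ Finset.range (K + 1), ∑ i, P.u (c i) l *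
        ((if bco l i = ((a, b, j) : Ix N K) then (1 : ℝ) else 0) * ph U x i) =
      if b = true then 0 else P.u (c j) a * ph U x j := by
    rw [Finset.sum_eq_single_of_mem (a : ℕ) ha]
    · rw [Finset.sum_eq_single_of_mem j (Finset.mem_univ j)]
      · rw [hb _ ha]
        by_cases h : b = true
        · simp [h]
        · simp [h]
      · intro i _ hi
        rw [hb _ ha]
        simp [hi]
    · intro l hl hne
      refine Finset.sum_eq_zero fun i _ => ?_
      rw [hb _ hl]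
      simp [hne]
  rw [e1, e2]
  unfold enD
  by_cases h : b = true
  · simp [h]
  · simp [h]

theorem mdl_regD (hm : Exponents K m) : (mdl K m c P U).RegD (enD c P U) := by
  obtain ⟨h0, h1, h2⟩ := hm
  refine ⟨⟨h0, h1, fun l hl => (h2 l hl).le, ?_, fun e => ?_, fun x => mdl_lip x⟩,
    fun e x => mdl_pd e x, fun e x => measurable_const, ?_⟩
  · have h3 := h2 0 (Nat.zero_le _)
    rw [h0] at h3
    exact h3
  · exact Nat.lt_succ_iff.1 e.1.2
  · refine ⟨∑ e : Ix N K, ∑ x : Fin N → Bool, |enD c P U e 0 x|, fun e z x => ?_⟩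
    have h3 : |enD c P U e z x| = |enD c P U e 0 x| := rfl
    rw [h3]
    refine (Finset.single_le_sum (f := fun x => |enD c P U e 0 x|) (fun _ _ => abs_nonneg _)
      (Finset.mem_univ x)).trans ?_
    exact Finset.single_le_sum (f := fun e => ∑ x : Fin N → Bool, |enD c P U e 0 x|)
      (fun _ _ => Finset.sum_nonneg fun _ _ => abs_nonneg _) (Finset.mem_univ e)

theorem mdl_fld (hm : Exponents K m) (hN : 0 < N) (hs : ∀ l ≤ K, 0 ≤ P.s l) :
    Fld (mdl K m c P U) (enD c P U) spin sco P.s where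
  reg := mdl_regD hm
  N0 := hN
  norm := mdl_spin_sum
  lev := fun l hl i => mdl_ofNat hl
  D := fun l hl i z x => by
    show P.s ((Fin.ofNat (K + 1) l : Fin (K + 1)) : ℕ) * spin x i = _
    rw [mdl_ofNat (K := K) hl]
  pos := hs

/-- The coordinates of the block `k`. -/
def blk (c : Fin N → Fin κ) (k : Fin κ) : Finset (Fin N) := Finset.univ.filter fun i => c i = k

theorem Rb_eq (k : Fin κ) (x x' : Fin N → Bool) : Rb c U k x x' = Rk (ph U) (blk c k) x x' := by
  unfold Rb Rk blk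
  rw [Finset.sum_filter]

theorem hb_eq (k : Fin κ) (l : ℕ) (z : Ix N K → ℝ) (x : Fin N → Bool) :
    hb c U k l z x = hk (ph U) bco (blk c k) l z x := by
  unfold hb hk blk
  rw [Finset.sum_filter]

theorem mdl_bfld (hm : Exponents K m) (hN : 0 < N) (hU : U ∈ orthogonalGroup (Fin N) ℝ)
    (k : Fin κ) : BFld (mdl K m c P U) (enD c P U) (ph U) bco (blk c k) (P.u k) where
  reg := mdl_regD hm
  N0 := hN
  norm := fun x => by
    rw [← ph_sq hU x]
    exact Finset.sum_le_sum_of_subset_of_nonneg (Finset.filter_subset _ _)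
      fun i _ _ => sq_nonneg _
  lev := fun l hl i _ => mdl_ofNat hl
  D := fun l hl i hi z x => by
    have hi' : c i = k := (Finset.mem_filter.1 hi).2
    show P.u (c i) ((Fin.ofNat (K + 1) l : Fin (K + 1)) : ℕ) * ph U x i = _
    rw [mdl_ofNat (K := K) hl, hi']

/-- The overlap of the configurations is the sum of the overlaps of the blocks. -/
theorem Rov_eq (hU : U ∈ orthogonalGroup (Fin N) ℝ) (x x' : Fin N → Bool) :
    Rov spin x x' = ∑ k, Rb c U k x x' := by
  unfold Rov Rb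
  rw [← mdl_ph_mul hU x x', ← Finset.mul_sum, Finset.sum_comm]
  congr 1
  refine Finset.sum_congr rfl fun i _ => ?_
  simp only [Finset.sum_ite_eq, Finset.mem_univ, ↓reduceIte]

/-- The energy is affine in the parameters. -/
theorem en_sub (z : Ix N K → ℝ) (x : Fin N → Bool) (hN : 0 < N) :
    Md.en c P' U z x - Md.en c P U z x = N * (∑ k, (P'.b k - P.b k) / 2 * Rb c U k x x +
      ∑ l ∈ Finset.range (K + 1), (P'.s l - P.s l) * hz spin sco l z x +
      ∑ k, ∑ l ∈ Finset.range (K + 1), (P'.u k l - P.u k l) * hb c U k l z x) := by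
  have hN' : (N : ℝ) ≠ 0 := by exact_mod_cast hN.ne'
  have e1 : (N : ℝ) * ∑ k, (P'.b k - P.b k) / 2 * Rb c U k x x =
      ∑ i, (P'.b (c i) - P.b (c i)) / 2 * ph U x i ^ 2 := by
    unfold Rb
    rw [Finset.mul_sum]
    have h : ∀ k : Fin κ, (N : ℝ) * ((P'.b k - P.b k) / 2 *
        (1 / N * ∑ i, if c i = k then ph U x i * ph U x i else 0)) =
        ∑ i, if c i = k then (P'.b (c i) - P.b (c i)) / 2 * ph U x i ^ 2 else 0 := by
      intro k
      have h2 : (N : ℝ) * ((P'.b k - P.b k) / 2 *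
        (1 / N * ∑ i, if c i = k then ph U x i * ph U x i else 0)) =
        (P'.b k - P.b k) / 2 * ∑ i, if c i = k then ph U x i * ph U x i else 0 := by
        field_simp
      rw [h2, Finset.mul_sum]
      refine Finset.sum_congr rfl fun i _ => ?_
      by_cases hi : c i = k
      · rw [if_pos hi, if_pos hi, hi]; ring
      · rw [if_neg hi, if_neg hi, mul_zero]
    rw [Finset.sum_congr rfl fun k _ => h k, Finset.sum_comm]
    refine Finset.sum_congr rfl fun i _ => ?_
    simp only [Finset.sum_ite_eq, Finset.mem_univ, ↓reduceIte]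
  have e2 : (N : ℝ) * ∑ l ∈ Finset.range (K + 1), (P'.s l - P.s l) * hz spin sco l z x =
      ∑ l ∈ Finset.range (K + 1), (P'.s l - P.s l) * ∑ i, z (sco l i) * spin x i := by
    unfold hz
    rw [Finset.mul_sum]
    refine Finset.sum_congr rfl fun l _ => ?_
    field_simp
  have e3 : (N : ℝ) * ∑ k, ∑ l ∈ Finset.range (K + 1), (P'.u k l - P.u k l) * hb c U k l z x =
      ∑ l ∈ Finset.range (K + 1), ∑ i, (P'.u (c i) l - P.u (c i) l) * (z (bco l i) * ph U x i) := by
    rw [Finset.sum_comm, Finset.mul_sum]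
    refine Finset.sum_congr rfl fun l _ => ?_
    unfold hb
    rw [Finset.mul_sum]
    have h : ∀ k : Fin κ, (N : ℝ) * ((P'.u k l - P.u k l) *
        (1 / N * ∑ i, if c i = k then z (bco l i) * ph U x i else 0)) =
        ∑ i, if c i = k then (P'.u (c i) l - P.u (c i) l) * (z (bco l i) * ph U x i) else 0 := by
      intro k
      have h2 : (N : ℝ) * ((P'.u k l - P.u k l) *
        (1 / N * ∑ i, if c i = k then z (bco l i) * ph U x i else 0)) =
        (P'.u k l - P.u k l) * ∑ i, if c i = k then z (bco l i) * ph U x i else 0 := by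
        field_simp
      rw [h2, Finset.mul_sum]
      refine Finset.sum_congr rfl fun i _ => ?_
      by_cases hi : c i = k
      · rw [if_pos hi, if_pos hi, hi]
      · rw [if_neg hi, if_neg hi, mul_zero]
    rw [Finset.sum_congr rfl fun k _ => h k, Finset.sum_comm]
    refine Finset.sum_congr rfl fun i _ => ?_
    simp only [Finset.sum_ite_eq, Finset.mem_univ, ↓reduceIte]
  rw [mul_add, mul_add, e1, e2, e3]
  unfold Md.en
  have f1 : ∑ i, (P'.b (c i) - P.b (c i)) / 2 * ph U x i ^ 2 =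
      ∑ i, P'.b (c i) / 2 * ph U x i ^ 2 - ∑ i, P.b (c i) / 2 * ph U x i ^ 2 := by
    rw [← Finset.sum_sub_distrib]
    exact Finset.sum_congr rfl fun i _ => by ring
  have f2 : ∑ l ∈ Finset.range (K + 1), (P'.s l - P.s l) * ∑ i, z (sco l i) * spin x i =
      ∑ l ∈ Finset.range (K + 1), P'.s l * ∑ i, z (sco l i) * spin x i -
      ∑ l ∈ Finset.range (K + 1), P.s l * ∑ i, z (sco l i) * spin x i := by
    rw [← Finset.sum_sub_distrib]
    exact Finset.sum_congr rfl fun i _ => by ring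
  have f3 : ∑ l ∈ Finset.range (K + 1), ∑ i, (P'.u (c i) l - P.u (c i) l) *
        (z (bco l i) * ph U x i) =
      ∑ l ∈ Finset.range (K + 1), ∑ i, P'.u (c i) l * (z (bco l i) * ph U x i) -
      ∑ l ∈ Finset.range (K + 1), ∑ i, P.u (c i) l * (z (bco l i) * ph U x i) := by
    rw [← Finset.sum_sub_distrib]
    refine Finset.sum_congr rfl fun l _ => ?_
    rw [← Finset.sum_sub_distrib]
    exact Finset.sum_congr rfl fun i _ => by ring
  rw [f1, f2, f3]
  ring

section average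

variable [MeasurableSpace (orthogonalGroup (Fin N) ℝ)] [BorelSpace (orthogonalGroup (Fin N) ℝ)]
  {ν : Measure (orthogonalGroup (Fin N) ℝ)} [IsProbabilityMeasure ν]

omit [IsProbabilityMeasure ν] in
theorem meas_ph (x : Fin N → Bool) (i : Fin N) :
    Measurable fun U : orthogonalGroup (Fin N) ℝ => ph U.1 x i := by
  unfold ph
  simp only [mulVec, dotProduct]
  exact Finset.measurable_fun_sum _ fun j _ =>
    (Vale.Agent.P166.Conc.measurable_coe_OG i j).mul_const _

theorem meas_en (x : Fin N → Bool) :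
    Measurable fun p : orthogonalGroup (Fin N) ℝ × (Ix N K → ℝ) => Md.en c P p.1.1 p.2 x := by
  unfold Md.en
  have hp : ∀ i, Measurable fun p : orthogonalGroup (Fin N) ℝ × (Ix N K → ℝ) => ph p.1.1 x i :=
    fun i => (meas_ph x i).comp measurable_fst
  have hz : ∀ e : Ix N K, Measurable fun p : orthogonalGroup (Fin N) ℝ × (Ix N K → ℝ) => p.2 e :=
    fun e => (measurable_pi_apply e).comp measurable_snd
  refine Measurable.add (Measurable.add ?_ ?_) ?_
  · exact Finset.measurable_fun_sum _ fun i _ => ((hp i).pow_const 2).const_mul _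
  · exact Finset.measurable_fun_sum _ fun l _ => (Finset.measurable_fun_sum _ fun i _ =>
      (hz _).mul_const _).const_mul _
  · exact Finset.measurable_fun_sum _ fun l _ => Finset.measurable_fun_sum _ fun i _ =>
      ((hz _).mul (hp i)).const_mul _

theorem meas_Rb (k : Fin κ) (x x' : Fin N → Bool) :
    Measurable fun U : orthogonalGroup (Fin N) ℝ => Rb c U.1 k x x' := by
  simp only [Rb_eq]
  unfold Rk
  exact (Finset.measurable_fun_sum _ fun i _ => (meas_ph x i).mul (meas_ph x' i)).const_mul _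

theorem meas_hb (k : Fin κ) (l : ℕ) (x : Fin N → Bool) :
    Measurable fun p : orthogonalGroup (Fin N) ℝ × (Ix N K → ℝ) => hb c p.1.1 k l p.2 x := by
  simp only [hb_eq]
  unfold hk
  have hp : ∀ i, Measurable fun p : orthogonalGroup (Fin N) ℝ × (Ix N K → ℝ) => ph p.1.1 x i :=
    fun i => (meas_ph x i).comp measurable_fst
  have hz : ∀ e : Ix N K, Measurable fun p : orthogonalGroup (Fin N) ℝ × (Ix N K → ℝ) => p.2 e :=
    fun e => (measurable_pi_apply e).comp measurable_snd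
  exact (Finset.measurable_fun_sum _ fun i _ => (hz _).mul (hp i)).const_mul _

/-- Bounded measurable functions of `U` can be averaged. -/
theorem integrable_of_bdd {f : orthogonalGroup (Fin N) ℝ → ℝ} (hf : Measurable f) {C : ℝ}
    (hC : ∀ U, |f U| ≤ C) : Integrable f ν :=
  Integrable.of_bound hf.aestronglyMeasurable C (Filter.Eventually.of_forall fun U => by
    rw [Real.norm_eq_abs]; exact hC U)

end average

/-- site fields as block fields (no sign condition) -/
theorem mdl_sfld (hm : Exponents K m) (hN : 0 < N) :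
    BFld (mdl K m c P U) (enD c P U) spin sco (Finset.univ : Finset (Fin N)) P.s where
  reg := mdl_regD hm
  N0 := hN
  norm := fun x => (mdl_spin_sum x).le
  lev := fun l hl i _ => mdl_ofNat hl
  D := fun l hl i _ z x => by
    show P.s ((Fin.ofNat (K + 1) l : Fin (K + 1)) : ℕ) * spin x i = _
    rw [mdl_ofNat (K := K) hl]

theorem mdl_abs_Ex_hk {S : Sy (Ix N K) (Fin N → Bool)} {D : Ix N K → (Ix N K → ℝ) → (Fin N → Bool) → ℝ}
    {φ : (Fin N → Bool) → Fin N → ℝ} {zc : ℕ → Fin N → Ix N K} {A : Finset (Fin N)} {u : ℕ → ℝ}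
    (F : BFld S D φ zc A u) {j : ℕ} (hj : j ≤ S.K) : |S.Ex (hk φ zc A j)| ≤ |u j| := by
  have hS : S.Reg := F.reg.toReg
  rw [F.Ex_hk hj, abs_mul]
  refine mul_le_of_le_one_right (abs_nonneg _) ?_
  have hnh : Nh (ι := Ix N K) fun _ x => Rk φ A x x := Sy.Nh.snd fun x => Rk φ A x x
  have h1 : S.Ex (fun _ x => Rk φ A x x) ≤ 1 := by
    have h := hS.Ex_mono hnh (Sy.Nh.snd fun _ => (1 : ℝ)) fun z x =>
      (abs_le.1 (F.abs_Rk_le x x)).2
    rwa [hS.Ex_const] at h
  have hp : ∀ i ∈ Finset.Ico j (S.K + 1), 0 ≤ S.p i := by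
    intro i hi
    rw [Finset.mem_Ico] at hi
    exact sub_nonneg.2 (hS.mono i (by omega))
  have h2 : 0 ≤ ∑ i ∈ Finset.Ico j (S.K + 1), S.p i * S.pairEx i (Rk φ A) := by
    refine Finset.sum_nonneg fun i hi => mul_nonneg (hp i hi) ?_
    rw [Finset.mem_Ico] at hi
    exact F.pairEx_Rk_nonneg (by omega)
  have h3 : ∑ i ∈ Finset.Ico j (S.K + 1), S.p i * S.pairEx i (Rk φ A) ≤
      S.Ex (fun _ x => Rk φ A x x) := by
    have h4 : ∑ i ∈ Finset.Ico j (S.K + 1), S.p i = 1 - S.m j := by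
      unfold Sy.p
      rw [Finset.sum_Ico_sub S.m (by omega : j ≤ S.K + 1), hS.mK]
    have h5 : 0 ≤ S.m j := by
      rw [← hS.m0]; exact hS.m_mono (Nat.zero_le _) (by omega)
    have h6 : 0 ≤ S.Ex (fun _ x => Rk φ A x x) := by
      have h := hS.Ex_mono (Sy.Nh.snd fun _ => (0 : ℝ)) hnh fun z x => F.Rk_self_nonneg x
      rwa [hS.Ex_const] at h
    calc ∑ i ∈ Finset.Ico j (S.K + 1), S.p i * S.pairEx i (Rk φ A)
        ≤ ∑ i ∈ Finset.Ico j (S.K + 1), S.p i * S.Ex (fun _ x => Rk φ A x x) := by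
          refine Finset.sum_le_sum fun i hi => mul_le_mul_of_nonneg_left ?_ (hp i hi)
          rw [Finset.mem_Ico] at hi
          exact F.pairEx_Rk_le (by omega)
      _ = (1 - S.m j) * S.Ex (fun _ x => Rk φ A x x) := by rw [← Finset.sum_mul, h4]
      _ ≤ 1 * S.Ex (fun _ x => Rk φ A x x) := by
          refine mul_le_mul_of_nonneg_right (by linarith only [h5]) h6
      _ = _ := one_mul _
  rw [abs_le]
  constructor <;> linarith only [h1, h2, h3]

theorem mdl_en_eq (z : Ix N K → ℝ) (x : Fin N → Bool) (hN : 0 < N) :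
    Md.en c P U z x = N * (∑ k, P.b k / 2 * Rb c U k x x +
      ∑ l ∈ Finset.range (K + 1), P.s l * hz spin sco l z x +
      ∑ k, ∑ l ∈ Finset.range (K + 1), P.u k l * hb c U k l z x) := by
  have h := en_sub (c := c) (P := ⟨0, 0, 0⟩) (P' := P) (U := U) z x hN
  have h0 : Md.en c (⟨0, 0, 0⟩ : Pm κ) U z x = 0 := by
    unfold Md.en
    simp only [Pi.zero_apply, zero_div, zero_mul, Finset.sum_const_zero, add_zero]
  rw [h0, sub_zero] at h
  simpa only [Pi.zero_apply, sub_zero] using h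

theorem mdl_nh_hz (l : ℕ) : Nh (hz spin sco l : (Ix N K → ℝ) → (Fin N → Bool) → ℝ) :=
  Sy.Nh.const_mul _ (Sy.Nh.sum _ fun i _ => Sy.Nh.mul (Sy.Nh.fst (EG.coord (sco l i)))
    (Sy.Nh.snd fun x => spin x i))

theorem mdl_nh_hb (k : Fin κ) (l : ℕ) :
    Nh (hb c U k l : (Ix N K → ℝ) → (Fin N → Bool) → ℝ) := by
  have h : (hb c U k l : (Ix N K → ℝ) → (Fin N → Bool) → ℝ) = hk (ph U) bco (blk c k) l := by
    funext z x
    exact hb_eq k l z x
  rw [h]
  exact Sy.Nh.const_mul _ (Sy.Nh.sum _ fun i _ => Sy.Nh.mul (Sy.Nh.fst (EG.coord (bco l i)))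
    (Sy.Nh.snd fun x => ph U x i))

theorem mdl_Ex_en {S : Sy (Ix N K) (Fin N → Bool)} (hS : S.Reg) (hN : 0 < N) :
    S.Ex (Md.en c P U) = N * (∑ k, P.b k / 2 * S.Ex (fun _ x => Rb c U k x x) +
      ∑ l ∈ Finset.range (K + 1), P.s l * S.Ex (hz spin sco l) +
      ∑ k, ∑ l ∈ Finset.range (K + 1), P.u k l * S.Ex (hb c U k l)) := by
  have h0 : (Md.en c P U : (Ix N K → ℝ) → (Fin N → Bool) → ℝ) = fun z x => (N : ℝ) *
      (∑ k, P.b k / 2 * Rb c U k x x +
      ∑ l ∈ Finset.range (K + 1), P.s l * hz spin sco l z x +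
      ∑ k, ∑ l ∈ Finset.range (K + 1), P.u k l * hb c U k l z x) := by
    funext z x
    exact mdl_en_eq z x hN
  have n1 : ∀ k : Fin κ, Nh (ι := Ix N K) fun _ x => P.b k / 2 * Rb c U k x x :=
    fun k => Sy.Nh.snd fun x => P.b k / 2 * Rb c U k x x
  have n2 : ∀ l : ℕ, Nh fun (z : Ix N K → ℝ) (x : Fin N → Bool) => P.s l * hz spin sco l z x :=
    fun l => Sy.Nh.const_mul _ (mdl_nh_hz l)
  have n3 : ∀ (k : Fin κ) (l : ℕ),
      Nh fun (z : Ix N K → ℝ) (x : Fin N → Bool) => P.u k l * hb c U k l z x :=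
    fun k l => Sy.Nh.const_mul _ (mdl_nh_hb k l)
  rw [h0, Sy.Ex_const_mul, hS.Ex_add (Sy.Nh.add (Sy.Nh.sum _ fun k _ => n1 k)
    (Sy.Nh.sum _ fun l _ => n2 l)) (Sy.Nh.sum _ fun k _ => Sy.Nh.sum _ fun l _ => n3 k l),
    hS.Ex_add (Sy.Nh.sum _ fun k _ => n1 k) (Sy.Nh.sum _ fun l _ => n2 l),
    hS.Ex_sum _ (fun k _ => n1 k), hS.Ex_sum _ (fun l _ => n2 l),
    hS.Ex_sum _ (fun k _ => Sy.Nh.sum _ fun l _ => n3 k l)]
  congr 1
  congr 1
  · congr 1
    · refine Finset.sum_congr rfl fun k _ => ?_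
      exact Sy.Ex_const_mul S _ _
    · refine Finset.sum_congr rfl fun l _ => ?_
      exact Sy.Ex_const_mul S _ _
  · refine Finset.sum_congr rfl fun k _ => ?_
    rw [hS.Ex_sum _ (fun l _ => n3 k l)]
    refine Finset.sum_congr rfl fun l _ => ?_
    exact Sy.Ex_const_mul S _ _

/-- The mean energy in the model with other parameters. -/
theorem mdl_abs_Ex_en (hm : Exponents K m) (hN : 0 < N) (hU : U ∈ orthogonalGroup (Fin N) ℝ)
    (P P' : Pm κ) : |(mdl K m c P' U).Ex (Md.en c P U)| ≤ N * (∑ k, |P.b k| / 2 +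
      ∑ l ∈ Finset.range (K + 1), |P.s l| * |P'.s l| +
      ∑ k, ∑ l ∈ Finset.range (K + 1), |P.u k l| * |P'.u k l|) := by
  have hR := (mdl_regD (c := c) (P := P') (U := U) hm).toReg
  rw [mdl_Ex_en hR hN, abs_mul, abs_of_nonneg (Nat.cast_nonneg N : (0 : ℝ) ≤ N)]
  refine mul_le_mul_of_nonneg_left ?_ (Nat.cast_nonneg N)
  refine (abs_add_le _ _).trans (add_le_add ((abs_add_le _ _).trans (add_le_add ?_ ?_)) ?_)
  · refine (Finset.abs_sum_le_sum_abs _ _).trans (Finset.sum_le_sum fun k _ => ?_)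
    have F := mdl_bfld (c := c) (P := P') (U := U) hm hN hU k
    have h1 : |(mdl K m c P' U).Ex (fun _ x => Rb c U k x x)| ≤ 1 := by
      have e : (fun (_ : Ix N K → ℝ) (x : Fin N → Bool) => Rb c U k x x) =
          fun _ x => Rk (ph U) (blk c k) x x := by
        funext _ x
        exact Rb_eq k x x
      rw [e]
      refine (hR.abs_Ex_le (Sy.Nh.snd fun x => Rk (ph U) (blk c k) x x)).trans ?_
      have h := hR.Ex_mono (Sy.Nh.snd fun x => |Rk (ph U) (blk c k) x x|)
        (Sy.Nh.snd fun _ => (1 : ℝ)) fun z x => F.abs_Rk_le x x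
      rwa [hR.Ex_const] at h
    rw [abs_mul, abs_div, abs_of_pos (two_pos : (0 : ℝ) < 2)]
    exact mul_le_of_le_one_right (by (clear * -; positivity)) h1
  · refine (Finset.abs_sum_le_sum_abs _ _).trans (Finset.sum_le_sum fun l hl => ?_)
    rw [Finset.mem_range] at hl
    rw [abs_mul]
    refine mul_le_mul_of_nonneg_left ?_ (abs_nonneg _)
    have e : (hz spin sco l : (Ix N K → ℝ) → (Fin N → Bool) → ℝ) =
        hk spin sco (Finset.univ : Finset (Fin N)) l := rfl
    rw [e]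
    exact mdl_abs_Ex_hk (mdl_sfld (c := c) (P := P') (U := U) hm hN) (by
      show l ≤ K
      omega)
  · refine (Finset.abs_sum_le_sum_abs _ _).trans (Finset.sum_le_sum fun k _ => ?_)
    refine (Finset.abs_sum_le_sum_abs _ _).trans (Finset.sum_le_sum fun l hl => ?_)
    rw [Finset.mem_range] at hl
    rw [abs_mul]
    refine mul_le_mul_of_nonneg_left ?_ (abs_nonneg _)
    have e : (hb c U k l : (Ix N K → ℝ) → (Fin N → Bool) → ℝ) = hk (ph U) bco (blk c k) l := by
      funext z x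
      exact hb_eq k l z x
    rw [e]
    exact mdl_abs_Ex_hk (mdl_bfld (c := c) (P := P') (U := U) hm hN hU k) (by
      show l ≤ K
      omega)

theorem mdl_en_zero : (Md.en c (⟨0, 0, 0⟩ : Pm κ) U : (Ix N K → ℝ) → (Fin N → Bool) → ℝ) =
    fun _ _ => 0 := by
  funext z x
  unfold Md.en
  simp only [Pi.zero_apply, zero_div, zero_mul, Finset.sum_const_zero, add_zero]

/-- A bound of the free energy which does not depend on the matrix. -/
theorem mdl_abs_fe (hm : Exponents K m) (hN : 0 < N) (hU : U ∈ orthogonalGroup (Fin N) ℝ) :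
    |(mdl K m c P U).fe - (mdl K m c (⟨0, 0, 0⟩ : Pm κ) 1).fe| ≤ N * (∑ k, |P.b k| / 2 +
      ∑ l ∈ Finset.range (K + 1), |P.s l| * |P.s l| +
      ∑ k, ∑ l ∈ Finset.range (K + 1), |P.u k l| * |P.u k l|) := by
  have e0 : mdl K m c (⟨0, 0, 0⟩ : Pm κ) 1 = mdl K m c (⟨0, 0, 0⟩ : Pm κ) U := by
    unfold mdl
    rw [mdl_en_zero, mdl_en_zero]
  rw [e0]
  have hR := (mdl_regD (c := c) (P := P) (U := U) hm).toReg
  have hR0 := (mdl_regD (c := c) (P := (⟨0, 0, 0⟩ : Pm κ)) (U := U) hm).toReg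
  have j1 := hR0.jensen (H' := Md.en c P U) hR
  have j2 := hR.jensen (H' := Md.en c (⟨0, 0, 0⟩ : Pm κ) U) hR0
  have f1 : ((mdl K m c (⟨0, 0, 0⟩ : Pm κ) U).wH (Md.en c P U)).fe = (mdl K m c P U).fe := rfl
  have f2 : ((mdl K m c P U).wH (Md.en c (⟨0, 0, 0⟩ : Pm κ) U)).fe =
    (mdl K m c (⟨0, 0, 0⟩ : Pm κ) U).fe := rfl
  rw [f1] at j1
  rw [f2] at j2
  have g1 : (mdl K m c (⟨0, 0, 0⟩ : Pm κ) U).Ex (fun z x => Md.en c P U z x -
      (mdl K m c (⟨0, 0, 0⟩ : Pm κ) U).H z x) =
      (mdl K m c (⟨0, 0, 0⟩ : Pm κ) U).Ex (Md.en c P U) := by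
    congr 1
    funext z x
    have h : (mdl K m c (⟨0, 0, 0⟩ : Pm κ) U).H z x = 0 :=
      congrFun (congrFun (mdl_en_zero (c := c) (U := U)) z) x
    rw [h, sub_zero]
  have g2 : (mdl K m c P U).Ex (fun z x => Md.en c (⟨0, 0, 0⟩ : Pm κ) U z x -
      (mdl K m c P U).H z x) = - (mdl K m c P U).Ex (Md.en c P U) := by
    have e : (fun (z : Ix N K → ℝ) (x : Fin N → Bool) => Md.en c (⟨0, 0, 0⟩ : Pm κ) U z x -
      (mdl K m c P U).H z x) = fun z x => (-1 : ℝ) * Md.en c P U z x := by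
      funext z x
      rw [mdl_en_zero]
      show 0 - Md.en c P U z x = _
      ring
    rw [e, Sy.Ex_const_mul]
    ring
  rw [g1] at j1
  rw [g2] at j2
  have b1 := abs_le.1 (mdl_abs_Ex_en (c := c) (U := U) hm hN hU P (⟨0, 0, 0⟩ : Pm κ))
  have b2 := abs_le.1 (mdl_abs_Ex_en (c := c) (U := U) hm hN hU P P)
  simp only [Pi.zero_apply, abs_zero, mul_zero, Finset.sum_const_zero, add_zero] at b1
  have hN0 : (0 : ℝ) ≤ N := Nat.cast_nonneg N
  have p1 : (0 : ℝ) ≤ N * (∑ l ∈ Finset.range (K + 1), |P.s l| * |P.s l|) :=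
    mul_nonneg hN0 (Finset.sum_nonneg fun l _ => by (clear * -; positivity))
  have p2 : (0 : ℝ) ≤ N * (∑ k, ∑ l ∈ Finset.range (K + 1), |P.u k l| * |P.u k l|) :=
    mul_nonneg hN0 (Finset.sum_nonneg fun k _ => Finset.sum_nonneg fun l _ => by (clear * -; positivity))
  rw [mul_add, mul_add] at b2 ⊢
  rw [abs_le]
  constructor <;> linarith only [j1, b1, p1, p2, j2, b2]

section average2

variable [MeasurableSpace (orthogonalGroup (Fin N) ℝ)] [BorelSpace (orthogonalGroup (Fin N) ℝ)]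
  {ν : Measure (orthogonalGroup (Fin N) ℝ)} [IsProbabilityMeasure ν]

theorem integrable_fe (hm : Exponents K m) (hN : 0 < N) :
    Integrable (fun U : orthogonalGroup (Fin N) ℝ => (mdl K m c P U.1).fe) ν := by
  have h1 : Measurable fun U : orthogonalGroup (Fin N) ℝ => (mdl K m c P U.1).fe :=
    meas_fe (S := mdl K m c P 1) (H := fun U : orthogonalGroup (Fin N) ℝ => Md.en c P U.1)
      fun x => meas_en x
  refine integrable_of_bdd h1 (C := N * (∑ k, |P.b k| / 2 +
      ∑ l ∈ Finset.range (K + 1), |P.s l| * |P.s l| +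
      ∑ k, ∑ l ∈ Finset.range (K + 1), |P.u k l| * |P.u k l|) +
      |(mdl K m c (⟨0, 0, 0⟩ : Pm κ) (1 : Matrix (Fin N) (Fin N) ℝ)).fe|) fun U => ?_
  have h2 := mdl_abs_fe (c := c) (P := P) hm hN U.2
  have h3 := abs_add_le ((mdl K m c P U.1).fe -
    (mdl K m c (⟨0, 0, 0⟩ : Pm κ) (1 : Matrix (Fin N) (Fin N) ℝ)).fe)
    (mdl K m c (⟨0, 0, 0⟩ : Pm κ) (1 : Matrix (Fin N) (Fin N) ℝ)).fe
  rw [sub_add_cancel] at h3
  linarith

end average2

end Vale.Agent.P166.U
end
end

section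

section

open MeasureTheory ProbabilityTheory Filter Topology Finset

namespace Vale.Agent.P157.Par

set_option linter.unusedSectionVars false

open Vale.Agent.P367.GT (gM)

variable {J K : Type} [Fintype J] [DecidableEq J] [Fintype K] [DecidableEq K]

/-- The linear forms `Z_a(ξ) = ∑ U_{a c} ξ_c`. -/
def lin (U : J → K → ℝ) (ξ : K → ℝ) (a : J) : ℝ := ∑ c, U a c * ξ c

/-- `E ∏ f_a(Z_a)`. -/
noncomputable def gE (U : J → K → ℝ) (f : J → ℝ → ℝ) : ℝ :=
  ∫ ξ, ∏ a, f a (lin U ξ a) ∂(gM K)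

/-- A time dependent function with two space derivatives and one time derivative, all bounded. -/
structure Nice (T : Set ℝ) (C : ℝ) (h ht hx hxx : ℝ → ℝ → ℝ) : Prop where
  m0 : ∀ t ∈ T, Measurable (h t)
  mt : ∀ t ∈ T, Measurable (ht t)
  m1 : ∀ t ∈ T, Measurable (hx t)
  m2 : ∀ t ∈ T, Measurable (hxx t)
  b0 : ∀ t ∈ T, ∀ x, |h t x| ≤ C
  bt : ∀ t ∈ T, ∀ x, |ht t x| ≤ C
  b1 : ∀ t ∈ T, ∀ x, |hx t x| ≤ C
  b2 : ∀ t ∈ T, ∀ x, |hxx t x| ≤ C
  path : ∀ t ∈ T, ∀ (x : ℝ → ℝ) (x' : ℝ), HasDerivAt x x' t →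
    HasDerivAt (fun s => h s (x s)) (ht t (x t) + hx t (x t) * x') t
  d1 : ∀ t ∈ T, ∀ x, HasDerivAt (h t) (hx t x) x
  d2 : ∀ t ∈ T, ∀ x, HasDerivAt (hx t) (hxx t x) x

/-- The functions in the second derivative of a product. -/
def D2 (h hx hxx : J → ℝ → ℝ) (a b : J) : J → ℝ → ℝ :=
  if a = b then Function.update h a (hxx a)
  else Function.update (Function.update h a (hx a)) b (hx b)

end Vale.Agent.P157.Par
end
end

section

section

open MeasureTheory ProbabilityTheory Filter Topology Finset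

namespace Vale.Agent.P157.Par

set_option linter.unusedSectionVars false



variable {J K K' : Type} [Fintype J] [DecidableEq J] [Fintype K] [DecidableEq K] [Fintype K']
  [DecidableEq K']

end Vale.Agent.P157.Par
end
end

section

section

open MeasureTheory ProbabilityTheory Filter Topology Finset

namespace Vale.Agent.P157.Par

set_option linter.unusedSectionVars false



/-- Matrices of levels. -/
abbrev LM (k : ℕ) (J : Type) := J → J → Fin (k + 1)

/-- Ultrametric matrices of levels. -/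
structure Ultra {k : ℕ} {J : Type} (L : LM k J) : Prop where
  symm : ∀ a b, L a b = L b a
  diag : ∀ a, L a a = Fin.last k
  tri : ∀ a b c, min (L a b) (L b c) ≤ L a c

lemma Ultra.comp {k : ℕ} {J J' : Type} {L : LM k J} (hL : Ultra L) (e : J' → J) :
    Ultra fun a b => L (e a) (e b) :=
  ⟨fun _ _ => hL.symm _ _, fun _ => hL.diag _, fun _ _ _ => hL.tri _ _ _⟩

section Clusters

variable {k : ℕ} {J : Type}

/-- The cluster of `a` at the level `l`. -/
def cl (L : LM k J) (l : Fin (k + 1)) (a : J) : J → Bool := fun b => decide (l ≤ L a b)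

variable [Fintype J] [DecidableEq J]

/-- Coefficients of the tree-indexed Gaussian family with increments of variance `c l`. -/
noncomputable def UL (c : Fin (k + 1) → ℝ) (L : LM k J) : J → Fin (k + 1) × (J → Bool) → ℝ :=
  fun a p => if p.2 = cl L p.1 a then √(c p.1) else 0

end Clusters

/-- A (signed) functional on level matrices indexed by `δ ⊕ ι`, exchangeable in the index `ι`,
carried by the ultrametric matrices and satisfying the Ghirlanda-Guerra identities with the
weights `w`. -/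
structure Arr (k : ℕ) (w : Fin (k + 1) → ℝ) (δ : Type) [Fintype δ] where
  E : (ι : Type) → [Fintype ι] → (LM k (δ ⊕ ι) → ℝ) →ₗ[ℝ] ℝ
  C : ℝ
  bound : ∀ (ι : Type) [Fintype ι] (A : LM k (δ ⊕ ι) → ℝ) (a : ℝ), (∀ L, |A L| ≤ a) →
    |E ι A| ≤ C * a
  supp : ∀ (ι : Type) [Fintype ι] (A : LM k (δ ⊕ ι) → ℝ), (∀ L, Ultra L → A L = 0) → E ι A = 0
  reindex : ∀ (ι ι' : Type) [Fintype ι] [Fintype ι'] (e : ι ≃ ι') (A : LM k (δ ⊕ ι') → ℝ),
    E ι (fun L => A fun a b => L (Sum.map id e.symm a) (Sum.map id e.symm b)) = E ι' A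
  gg : ∀ (ι : Type) [Fintype ι] (A : LM k (δ ⊕ ι) → ℝ) (i : δ ⊕ ι) (l : Fin (k + 1)),
    ((Fintype.card δ : ℝ) + Fintype.card ι) * E (Option ι) (fun L =>
      A (fun a b => L (Sum.map id some a) (Sum.map id some b)) *
        if L (Sum.map id some i) (Sum.inr none) = l then 1 else 0) =
      w l * E ι A + (∑ j, E ι (fun L => A L * if L i j = l then 1 else 0) -
        E ι (fun L => A L * if L i i = l then 1 else 0))

namespace Arr

variable {k : ℕ} {w : Fin (k + 1) → ℝ} {δ : Type} [Fintype δ]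

/-- One of the exchangeable indices becomes special. -/
def tr {δ ι : Type} : Option δ ⊕ ι → δ ⊕ Option ι
  | Sum.inl none => Sum.inr none
  | Sum.inl (some i) => Sum.inl i
  | Sum.inr j => Sum.inr (some j)

/-- The inverse of `tr`. -/
def tr' {δ ι : Type} : δ ⊕ Option ι → Option δ ⊕ ι
  | Sum.inr none => Sum.inl none
  | Sum.inl i => Sum.inl (some i)
  | Sum.inr (some j) => Sum.inr j

end Arr

end Vale.Agent.P157.Par
end
end

section

section

open MeasureTheory ProbabilityTheory Filter Topology Finset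

namespace Vale.Agent.P157.Par

set_option linter.unusedSectionVars false



section

variable {k : ℕ} {J J' : Type} [Fintype J] [DecidableEq J] [Fintype J'] [DecidableEq J']

end

/-- The functions of the special indices and of the other indices. -/
def famA {δ ι : Type} (A : δ → ℝ → ℝ) (v : ℝ → ℝ) : δ ⊕ ι → ℝ → ℝ := Sum.elim A fun _ => v

/-- The functions of the special indices and of the new special index. -/
def ext {δ : Type} (g : ℝ → ℝ) (A : δ → ℝ → ℝ) : Option δ → ℝ → ℝ := fun o => o.elim g A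

namespace Arr

variable {k : ℕ} {w : Fin (k + 1) → ℝ} {δ : Type} [Fintype δ] [DecidableEq δ]

/-- Restriction to the special indices. -/
def res {ι : Type} (L : LM k (δ ⊕ ι)) : LM k δ := fun i j => L (Sum.inl i) (Sum.inl j)

/-- The functional applied to a product of Gaussian functions. -/
noncomputable def T (𝓐 : Arr k w δ) (c : Fin (k + 1) → ℝ) (χ : LM k δ → ℝ) (A : δ → ℝ → ℝ)
    (v : ℝ → ℝ) (ι : Type) [Fintype ι] [DecidableEq ι] : ℝ :=
  𝓐.E ι fun L => χ (res L) * gE (UL c L) (famA A v)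

end Arr

end Vale.Agent.P157.Par
end
end

section

section

open MeasureTheory ProbabilityTheory Filter Topology Finset

namespace Vale.Agent.P157.Par

set_option linter.unusedSectionVars false



/-- Bounded measurable functions. -/
structure BM (f : ℝ → ℝ) : Prop where
  meas : Measurable f
  bdd : ∃ C, ∀ x, |f x| ≤ C

lemma BM.const (c : ℝ) : BM fun _ => c := ⟨measurable_const, |c|, fun _ => le_rfl⟩

lemma BM.mul {f g : ℝ → ℝ} (hf : BM f) (hg : BM g) : BM fun x => f x * g x := by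
  obtain ⟨C, hC⟩ := hf.bdd
  obtain ⟨D, hD⟩ := hg.bdd
  refine ⟨hf.meas.mul hg.meas, C * D, fun x => ?_⟩
  rw [abs_mul]
  exact mul_le_mul (hC x) (hD x) (abs_nonneg _) ((abs_nonneg _).trans (hC x))

lemma BM.add {f g : ℝ → ℝ} (hf : BM f) (hg : BM g) : BM fun x => f x + g x := by
  obtain ⟨C, hC⟩ := hf.bdd
  obtain ⟨D, hD⟩ := hg.bdd
  exact ⟨hf.meas.add hg.meas, C + D, fun x => (abs_add_le _ _).trans (add_le_add (hC x) (hD x))⟩

lemma BM.neg {f : ℝ → ℝ} (hf : BM f) : BM fun x => -f x := by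
  obtain ⟨C, hC⟩ := hf.bdd
  exact ⟨hf.meas.neg, C, fun x => by rw [abs_neg]; exact hC x⟩

lemma BM.sub {f g : ℝ → ℝ} (hf : BM f) (hg : BM g) : BM fun x => f x - g x := by
  have := hf.add hg.neg
  simpa [sub_eq_add_neg] using this

section

variable {J K : Type} [Fintype J] [DecidableEq J] [Fintype K] [DecidableEq K]

lemma BM.update {f : J → ℝ → ℝ} (hf : ∀ a, BM (f a)) {a : J} {g : ℝ → ℝ} (hg : BM g) :
    ∀ b, BM (Function.update f a g b) := by
  intro b
  by_cases hb : b = a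
  · subst hb; simpa using hg
  · simpa [Function.update_of_ne hb] using hf b

end

namespace Arr

variable {k : ℕ} {w : Fin (k + 1) → ℝ} {δ : Type} [Fintype δ] [DecidableEq δ]

end Arr

end Vale.Agent.P157.Par
end
end

section

section

open MeasureTheory ProbabilityTheory Filter Topology Finset

namespace Vale.Agent.P157.Par

/-- Functions with two bounded continuous derivatives. -/
structure CB2 (g g' g'' : ℝ → ℝ) : Prop where
  d1 : ∀ x, HasDerivAt g (g' x) x
  d2 : ∀ x, HasDerivAt g' (g'' x) x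
  c2 : Continuous g''
  b0 : ∃ C, ∀ x, |g x| ≤ C
  b1 : ∃ C, ∀ x, |g' x| ≤ C
  b2 : ∃ C, ∀ x, |g'' x| ≤ C

/-- The heat semigroup. -/
noncomputable def heat (s : ℝ) (g : ℝ → ℝ) (x : ℝ) : ℝ :=
  ∫ z, g (x + √s * z) ∂(gaussianReal 0 1)

/-- A function of time and space which is regular inside and continuous up to the boundary. -/
structure Flow (σ C : ℝ) (h ht hx hxx : ℝ → ℝ → ℝ) : Prop where
  nice : Nice (Set.Ioo 0 σ) C h ht hx hxx
  cont : ContinuousOn (fun p : ℝ × ℝ => h p.1 p.2) (Set.Icc 0 σ ×ˢ Set.univ)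
  bdd : ∀ t ∈ Set.Icc 0 σ, ∀ x, |h t x| ≤ C

/-- The flow of the weight: `W_t = (P_{σ-t} W^m)^{1/m}`. -/
noncomputable def flowW (m σ : ℝ) (W : ℝ → ℝ) (t x : ℝ) : ℝ :=
  (heat (σ - t) (fun y => W y ^ m) x) ^ (1 / m)

end Vale.Agent.P157.Par
end
end

section

section

open MeasureTheory ProbabilityTheory Filter Topology Finset

namespace Vale.Agent.P157.Par



/-! ### Functions with two derivatives -/

lemma CB2.cont {g g' g'' : ℝ → ℝ} (h : CB2 g g' g'') : Continuous g :=
  continuous_iff_continuousAt.mpr fun x => (h.d1 x).continuousAt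

lemma CB2.cont1 {g g' g'' : ℝ → ℝ} (h : CB2 g g' g'') : Continuous g' :=
  continuous_iff_continuousAt.mpr fun x => (h.d2 x).continuousAt

/-- A smooth outer function on an interval. -/
structure Outer (A B : ℝ) (F F' F'' : ℝ → ℝ) : Prop where
  d1 : ∀ u ∈ Set.Icc A B, HasDerivAt F (F' u) u
  d2 : ∀ u ∈ Set.Icc A B, HasDerivAt F' (F'' u) u
  c2 : ContinuousOn F'' (Set.Icc A B)
  m0 : Measurable F
  m1 : Measurable F'
  m2 : Measurable F''

lemma CB2.mul {g g' g'' k k' k'' : ℝ → ℝ} (h : CB2 g g' g'') (l : CB2 k k' k'') :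
    CB2 (fun x => g x * k x) (fun x => g' x * k x + g x * k' x)
      (fun x => g'' x * k x + g' x * k' x + (g' x * k' x + g x * k'' x)) := by
  obtain ⟨G0, g0⟩ := h.b0
  obtain ⟨G1, g1⟩ := h.b1
  obtain ⟨G2, g2⟩ := h.b2
  obtain ⟨K0, k0⟩ := l.b0
  obtain ⟨K1, k1⟩ := l.b1
  obtain ⟨K2, k2⟩ := l.b2
  have n0 : 0 ≤ G0 := (abs_nonneg _).trans (g0 0)
  have n1 : 0 ≤ G1 := (abs_nonneg _).trans (g1 0)
  have n2 : 0 ≤ G2 := (abs_nonneg _).trans (g2 0)
  have hm : ∀ {a b A B : ℝ}, |a| ≤ A → |b| ≤ B → 0 ≤ A → |a * b| ≤ A * B := by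
    intro a b A B ha hb hA
    rw [abs_mul]
    exact mul_le_mul ha hb (abs_nonneg _) hA
  refine ⟨fun x => (h.d1 x).mul (l.d1 x), fun x => ?_, ?_, ⟨G0 * K0, fun x => hm (g0 x) (k0 x) n0⟩,
    ⟨G1 * K0 + G0 * K1, fun x => ?_⟩, ⟨G2 * K0 + G1 * K1 + (G1 * K1 + G0 * K2), fun x => ?_⟩⟩
  · exact ((h.d2 x).mul (l.d1 x)).add ((h.d1 x).mul (l.d2 x))
  · exact ((h.c2.mul l.cont).add (h.cont1.mul l.cont1)).add ((h.cont1.mul l.cont1).add
      (h.cont.mul l.c2))
  · exact (abs_add_le _ _).trans (add_le_add (hm (g1 x) (k0 x) n1) (hm (g0 x) (k1 x) n0))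
  · refine (abs_add_le _ _).trans (add_le_add ?_ ?_)
    · exact (abs_add_le _ _).trans (add_le_add (hm (g2 x) (k0 x) n2) (hm (g1 x) (k1 x) n1))
    · exact (abs_add_le _ _).trans (add_le_add (hm (g1 x) (k1 x) n1) (hm (g0 x) (k2 x) n0))

/-! ### The heat semigroup -/

lemma Flow.mul {σ C K : ℝ} {h ht hx hxx k kt kx kxx : ℝ → ℝ → ℝ}
    (hf : Flow σ C h ht hx hxx) (kf : Flow σ K k kt kx kxx) :
    ∃ C', Flow σ C' (fun t x => h t x * k t x) (fun t x => ht t x * k t x + h t x * kt t x)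
      (fun t x => hx t x * k t x + h t x * kx t x)
      (fun t x => hxx t x * k t x + hx t x * kx t x + (hx t x * kx t x + h t x * kxx t x)) := by
  have hn := hf.nice
  have kn := kf.nice
  have hC : C ≤ |C| := le_abs_self C
  have hK : K ≤ |K| := le_abs_self K
  have hC0 : 0 ≤ |C| := abs_nonneg C
  have hK0 : 0 ≤ |K| := abs_nonneg K
  have hP : 0 ≤ |C| * |K| := by positivity
  have hm : ∀ {a b : ℝ}, |a| ≤ C → |b| ≤ K → |a * b| ≤ |C| * |K| := by
    intro a b ha hb
    rw [abs_mul]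
    exact mul_le_mul (ha.trans hC) (hb.trans hK) (abs_nonneg _) hC0
  refine ⟨4 * (|C| * |K|), ⟨?_, ?_, ?_⟩⟩
  · refine ⟨fun t ht => (hn.m0 t ht).mul (kn.m0 t ht),
      fun t ht => ((hn.mt t ht).mul (kn.m0 t ht)).add ((hn.m0 t ht).mul (kn.mt t ht)),
      fun t ht => ((hn.m1 t ht).mul (kn.m0 t ht)).add ((hn.m0 t ht).mul (kn.m1 t ht)),
      fun t ht => (((hn.m2 t ht).mul (kn.m0 t ht)).add ((hn.m1 t ht).mul (kn.m1 t ht))).add
        (((hn.m1 t ht).mul (kn.m1 t ht)).add ((hn.m0 t ht).mul (kn.m2 t ht))),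
      fun t ht x => ?_, fun t ht x => ?_,
      fun t ht x => ?_, fun t ht x => ?_, fun t ht x x' hx' => ?_, fun t ht x => ?_,
      fun t ht x => ?_⟩
    · have := hm (hn.b0 t ht x) (kn.b0 t ht x)
      linarith
    · have e1 := hm (hn.bt t ht x) (kn.b0 t ht x)
      have e2 := hm (hn.b0 t ht x) (kn.bt t ht x)
      refine (abs_add_le _ _).trans ?_
      linarith
    · have e1 := hm (hn.b1 t ht x) (kn.b0 t ht x)
      have e2 := hm (hn.b0 t ht x) (kn.b1 t ht x)
      refine (abs_add_le _ _).trans ?_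
      linarith
    · have e1 := hm (hn.b2 t ht x) (kn.b0 t ht x)
      have e2 := hm (hn.b1 t ht x) (kn.b1 t ht x)
      have e3 := hm (hn.b0 t ht x) (kn.b2 t ht x)
      refine (abs_add_le _ _).trans ((add_le_add (abs_add_le _ _) (abs_add_le _ _)).trans ?_)
      linarith
    · have e1 := (hn.path t ht x x' hx').mul (kn.path t ht x x' hx')
      refine e1.congr_deriv ?_
      ring
    · exact (hn.d1 t ht x).mul (kn.d1 t ht x)
    · exact ((hn.d2 t ht x).mul (kn.d1 t ht x)).add ((hn.d1 t ht x).mul (kn.d2 t ht x))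
  · exact hf.cont.mul kf.cont
  · intro t ht x
    have := hm (hf.bdd t ht x) (kf.bdd t ht x)
    linarith

/-! ### Bounds -/

/-! ### Regularity -/

/-! ### The equations -/

end Vale.Agent.P157.Par
end
end

section

section

/-!
Trigonometric interpolation between two Gaussian fields with disjoint sets of coordinates, and the
step from the pattern field to the tree field.
-/

open MeasureTheory ProbabilityTheory Filter Topology

namespace Vale.Agent.P157.Lv

set_option linter.unusedSectionVars false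



/-- Potentials with bounded first and second derivatives. -/
structure Pot (f f' f'' : ℝ → ℝ) (C₁ C₂ : ℝ) : Prop where
  d1 : ∀ x, HasDerivAt f (f' x) x
  d2 : ∀ x, HasDerivAt f' (f'' x) x
  b1 : ∀ x, |f' x| ≤ C₁
  b2 : ∀ x, |f'' x| ≤ C₂

variable {ι X : Type} [Fintype ι] [DecidableEq ι] [Fintype X] [DecidableEq X] [Nonempty X]
  {S : Sy ι X} {D : ι → (ι → ℝ) → X → ℝ} {f f' f'' : ℝ → ℝ} {C₁ C₂ : ℝ} {α β : X → ι → ℝ}

/-- The linear field with the coefficients `a`. -/
def lin (a : ι → ℝ) (z : ι → ℝ) : ℝ := ∑ e, a e * z e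

/-- The interpolated field. -/
noncomputable def itU (α β : X → ι → ℝ) (θ : ℝ) (z : ι → ℝ) (x : X) : ℝ :=
  Real.sin θ * lin (α x) z + Real.cos θ * lin (β x) z

/-- The interpolated energy. -/
noncomputable def it (H : (ι → ℝ) → X → ℝ) (f : ℝ → ℝ) (α β : X → ι → ℝ) (θ : ℝ) :
    (ι → ℝ) → X → ℝ := fun z x => H z x + f (itU α β θ z x)

/-- The partial derivatives of the interpolated energy. -/
noncomputable def itD (D : ι → (ι → ℝ) → X → ℝ) (f' : ℝ → ℝ) (α β : X → ι → ℝ) (θ : ℝ) :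
    ι → (ι → ℝ) → X → ℝ := fun e z x =>
  D e z x + f' (itU α β θ z x) * (Real.sin θ * α x e + Real.cos θ * β x e)

/-- The two fields use disjoint sets of coordinates, and the energy does not depend on these. -/
structure Sep (D : ι → (ι → ℝ) → X → ℝ) (α β : X → ι → ℝ) : Prop where
  disj : ∀ e x x', α x e * β x' e = 0
  indep : ∀ e x, (α x e ≠ 0 ∨ β x e ≠ 0) → ∀ z y, D e z y = 0

/-- The bracket of the derivative of the free energy. -/
noncomputable def brk (S : Sy ι X) (f f' f'' : ℝ → ℝ) (α β : X → ι → ℝ) (θ : ℝ) : ℝ :=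
  (S.wH (it S.H f α β θ)).Ex (fun z x => (f'' (itU α β θ z x) + f' (itU α β θ z x) ^ 2) *
    (∑ e, α x e ^ 2 - ∑ e, β x e ^ 2)) -
  ∑ l ∈ Finset.range (S.K + 1), S.p l * ∑ e, if S.lev e ≤ l then
    ((S.wH (it S.H f α β θ)).Ex (fun z _ =>
        (S.wH (it S.H f α β θ)).T l (fun z x => f' (itU α β θ z x) * α x e) z ^ 2) -
      (S.wH (it S.H f α β θ)).Ex (fun z _ =>
        (S.wH (it S.H f α β θ)).T l (fun z x => f' (itU α β θ z x) * β x e) z ^ 2)) else 0

open Sy

lemma Pot.measurable (hf : Pot f f' f'' C₁ C₂) : Measurable f ∧ Measurable f' ∧ Measurable f'' := by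
  have h1 : Continuous f := continuous_iff_continuousAt.2 fun x => (hf.d1 x).continuousAt
  have h2 : Continuous f' := continuous_iff_continuousAt.2 fun x => (hf.d2 x).continuousAt
  have h3 : f'' = deriv f' := funext fun x => (hf.d2 x).deriv.symm
  refine ⟨h1.measurable, h2.measurable, ?_⟩
  rw [h3]
  exact measurable_deriv f'

lemma Pot.lip (hf : Pot f f' f'' C₁ C₂) (x y : ℝ) : |f x - f y| ≤ C₁ * |x - y| := by
  have h := Convex.norm_image_sub_le_of_norm_hasDerivWithin_le (s := Set.univ) (f := f) (f' := f')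
    (C := C₁) (x := y) (y := x) (fun t _ => (hf.d1 t).hasDerivWithinAt)
    (fun t _ => by rw [Real.norm_eq_abs]; exact hf.b1 t) convex_univ (Set.mem_univ _)
    (Set.mem_univ _)
  simpa only [Real.norm_eq_abs] using h

lemma Pot.lip' (hf : Pot f f' f'' C₁ C₂) (x y : ℝ) : |f' x - f' y| ≤ C₂ * |x - y| := by
  have h := Convex.norm_image_sub_le_of_norm_hasDerivWithin_le (s := Set.univ) (f := f')
    (f' := f'') (C := C₂) (x := y) (y := x) (fun t _ => (hf.d2 t).hasDerivWithinAt)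
    (fun t _ => by rw [Real.norm_eq_abs]; exact hf.b2 t) convex_univ (Set.mem_univ _)
    (Set.mem_univ _)
  simpa only [Real.norm_eq_abs] using h

lemma Pot.C1_nonneg (hf : Pot f f' f'' C₁ C₂) : 0 ≤ C₁ := (abs_nonneg _).trans (hf.b1 0)

lemma itU_lip (α β : X → ι → ℝ) (θ : ℝ) (x : X) : Lip fun z => itU α β θ z x := by
  have h1 : ∀ a : ι → ℝ, Lip fun z => lin a z := fun a =>
    Lip.sum Finset.univ fun e _ => (Lip.coord e).const_mul (a e)
  exact ((h1 (α x)).const_mul _).add ((h1 (β x)).const_mul _)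

lemma itU_measurable (α β : X → ι → ℝ) (θ : ℝ) (x : X) : Measurable fun z => itU α β θ z x :=
  (itU_lip α β θ x).measurable

lemma lin_pd (a : ι → ℝ) (e : ι) : PD e (fun z => lin a z) (fun _ => a e) := by
  have h1 : PD e (fun z : ι → ℝ => ∑ e', a e' * z e')
      (fun _ => ∑ e', a e' * (if e' = e then 1 else 0)) :=
    PD.sum Finset.univ fun e' _ => (PD.coord e').const_mul (a e')
  refine h1.congr fun _ => ?_
  simp

lemma itU_pd (α β : X → ι → ℝ) (θ : ℝ) (x : X) (e : ι) :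
    PD e (fun z => itU α β θ z x) (fun _ => Real.sin θ * α x e + Real.cos θ * β x e) :=
  ((lin_pd (α x) e).const_mul _).add ((lin_pd (β x) e).const_mul _)

lemma Pot.eg1 (hf : Pot f f' f'' C₁ C₂) (α β : X → ι → ℝ) (θ : ℝ) :
    Nh fun z x => f' (itU α β θ z x) := fun x =>
  EG.of_bdd (hf.measurable.2.1.comp (itU_measurable α β θ x)) fun _ => hf.b1 _

lemma Pot.eg2 (hf : Pot f f' f'' C₁ C₂) (α β : X → ι → ℝ) (θ : ℝ) :
    Nh fun z x => f'' (itU α β θ z x) := fun x =>
  EG.of_bdd (hf.measurable.2.2.comp (itU_measurable α β θ x)) fun _ => hf.b2 _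

theorem regD_it (hS : S.RegD D) (hf : Pot f f' f'' C₁ C₂) (θ : ℝ) :
    (S.wH (it S.H f α β θ)).RegD (itD D f' α β θ) := by
  refine { m0 := hS.m0, mK := hS.mK, mono := hS.mono, pos := hS.pos, lev := hS.lev, lip := ?_,
           pd := ?_, md := ?_, bd := ?_ }
  · intro x
    exact (hS.lip x).add ((itU_lip α β θ x).comp hf.C1_nonneg hf.lip)
  · intro e x
    exact (hS.pd e x).add ((itU_pd α β θ x e).comp hf.d1)
  · intro e x
    exact (hS.md e x).add ((hf.measurable.2.1.comp (itU_measurable α β θ x)).mul_const _)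
  · obtain ⟨C, hC⟩ := hS.bd
    refine ⟨C + C₁ * ∑ x, ∑ e, (|α x e| + |β x e|), fun e z x => ?_⟩
    refine (abs_add_le _ _).trans (add_le_add (hC e z x) ?_)
    rw [abs_mul]
    refine mul_le_mul (hf.b1 _) ?_ (abs_nonneg _) hf.C1_nonneg
    have h1 : |Real.sin θ * α x e + Real.cos θ * β x e| ≤ |α x e| + |β x e| := by
      refine (abs_add_le _ _).trans (add_le_add ?_ ?_)
      · rw [abs_mul]
        exact mul_le_of_le_one_left (abs_nonneg _) (Real.abs_sin_le_one θ)
      · rw [abs_mul]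
        exact mul_le_of_le_one_left (abs_nonneg _) (Real.abs_cos_le_one θ)
    refine h1.trans ?_
    have h2 : |α x e| + |β x e| ≤ ∑ e, (|α x e| + |β x e|) :=
      Finset.single_le_sum (f := fun e => |α x e| + |β x e|)
        (fun e _ => add_nonneg (abs_nonneg _) (abs_nonneg _)) (Finset.mem_univ e)
    exact h2.trans (Finset.single_le_sum (f := fun x => ∑ e, (|α x e| + |β x e|))
      (fun x _ => Finset.sum_nonneg fun e _ => add_nonneg (abs_nonneg _) (abs_nonneg _))
      (Finset.mem_univ x))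

/-- The term of the coordinate `e` and the level `l`. -/
lemma lvi_level {R : Sy ι X} (hR : R.Reg) {l : ℕ} (hl : l ≤ R.K) {A B : (ι → ℝ) → X → ℝ}
    (hA : Nh A) (hB : Nh B) (s c : ℝ) (h0 : (∀ z x, A z x = 0) ∨ ∀ z x, B z x = 0) :
    R.Ex (fun z x => (c * A z x - s * B z x) * R.T l (fun z x => s * A z x + c * B z x) z) =
      s * c * (R.Ex (fun z _ => R.T l A z ^ 2) - R.Ex (fun z _ => R.T l B z ^ 2)) := by
  have hN1 : Nh fun z x => c * A z x - s * B z x := Nh.sub (Nh.const_mul c hA) (Nh.const_mul s hB)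
  have hN2 : Nh fun z x => s * A z x + c * B z x := Nh.add (Nh.const_mul s hA) (Nh.const_mul c hB)
  have e1 : R.Ex (fun z x => (c * A z x - s * B z x) *
      R.T l (fun z x => s * A z x + c * B z x) z) =
      R.Ex (fun z _ => R.T l (fun z x => s * A z x + c * B z x) z *
        R.T l (fun z x => c * A z x - s * B z x) z) := by
    rw [hR.Ex_mul_T hl (R.dep_T l _) (hR.eg_T hl hN2) hN1]
    congr 1
    funext z x
    ring
  have e2 : ∀ z, R.T l (fun z x => s * A z x + c * B z x) z = s * R.T l A z + c * R.T l B z := by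
    intro z
    rw [hR.T_add hl (Nh.const_mul s hA) (Nh.const_mul c hB), R.T_const_mul, R.T_const_mul]
  have e3 : ∀ z, R.T l (fun z x => c * A z x - s * B z x) z = c * R.T l A z - s * R.T l B z := by
    intro z
    rw [hR.T_sub hl (Nh.const_mul c hA) (Nh.const_mul s hB), R.T_const_mul, R.T_const_mul]
  have e4 : ∀ z, R.T l A z * R.T l B z = 0 := by
    intro z
    rcases h0 with h | h
    · have : A = fun _ _ => (0 : ℝ) := by
        funext z x
        exact h z x
      rw [this, hR.T_const hl, zero_mul]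
    · have : B = fun _ _ => (0 : ℝ) := by
        funext z x
        exact h z x
      rw [this, hR.T_const hl, mul_zero]
  rw [e1, ← hR.Ex_sub (Nh.pow (Nh.fst (hR.eg_T hl hA)) 2) (Nh.pow (Nh.fst (hR.eg_T hl hB)) 2),
    ← R.Ex_const_mul]
  congr 1
  funext z _
  rw [e2, e3]
  linear_combination (c ^ 2 - s ^ 2) * e4 z

/-- The term of the coordinate `e`. -/
lemma lvi_coord (hS : S.RegD D) (hf : Pot f f' f'' C₁ C₂) (hs : Sep D α β) (θ : ℝ) (e : ι) :
    (S.wH (it S.H f α β θ)).Ex (fun z x => z e * (f' (itU α β θ z x) *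
      (Real.cos θ * α x e - Real.sin θ * β x e))) =
    Real.sin θ * Real.cos θ * ((S.wH (it S.H f α β θ)).Ex (fun z x =>
      (f'' (itU α β θ z x) + f' (itU α β θ z x) ^ 2) * (α x e ^ 2 - β x e ^ 2)) -
      ∑ l ∈ Finset.range (S.K + 1), S.p l * (if S.lev e ≤ l then
        ((S.wH (it S.H f α β θ)).Ex (fun z _ =>
            (S.wH (it S.H f α β θ)).T l (fun z x => f' (itU α β θ z x) * α x e) z ^ 2) -
          (S.wH (it S.H f α β θ)).Ex (fun z _ =>
            (S.wH (it S.H f α β θ)).T l (fun z x => f' (itU α β θ z x) * β x e) z ^ 2))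
        else 0)) := by
  obtain ⟨R, hRdef⟩ : ∃ R, R = S.wH (it S.H f α β θ) := ⟨_, rfl⟩
  have hR : R.RegD (itD D f' α β θ) := by rw [hRdef]; exact regD_it hS hf θ
  have hRK : R.K = S.K := by rw [hRdef]; rfl
  have hRp : R.p = S.p := by rw [hRdef]; rfl
  have hRlev : R.lev = S.lev := by rw [hRdef]; rfl
  rw [← hRdef]
  obtain ⟨s, hsd⟩ : ∃ s, s = Real.sin θ := ⟨_, rfl⟩
  obtain ⟨c, hcd⟩ : ∃ c, c = Real.cos θ := ⟨_, rfl⟩
  rw [← hsd, ← hcd]
  have hN1 := hf.eg1 α β θ
  have hN2 := hf.eg2 α β θ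
  have hNα : Nh fun z x => f' (itU α β θ z x) * α x e := Nh.mul hN1 (Nh.snd fun x => α x e)
  have hNβ : Nh fun z x => f' (itU α β θ z x) * β x e := Nh.mul hN1 (Nh.snd fun x => β x e)
  have hz : (∀ x, α x e = 0) ∨ ∀ x, β x e = 0 := by
    by_contra hcon
    push Not at hcon
    obtain ⟨⟨x, hx⟩, x', hx'⟩ := hcon
    exact mul_ne_zero hx hx' (hs.disj e x x')
  have h0 : (∀ (z : ι → ℝ) x, f' (itU α β θ z x) * α x e = 0) ∨
      ∀ (z : ι → ℝ) x, f' (itU α β θ z x) * β x e = 0 := by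
    rcases hz with h | h
    · left
      intro z x
      rw [h x, mul_zero]
    · right
      intro z x
      rw [h x, mul_zero]
  have hxy : ∀ x, α x e * β x e = 0 := fun x => hs.disj e x x
  -- the observable and its derivative
  have hh : Nh fun z x => f' (itU α β θ z x) * (c * α x e - s * β x e) :=
    Nh.mul hN1 (Nh.snd fun x => c * α x e - s * β x e)
  have hh' : Nh fun z x => f'' (itU α β θ z x) * (s * α x e + c * β x e) *
      (c * α x e - s * β x e) :=
    Nh.mul (Nh.mul hN2 (Nh.snd fun x => s * α x e + c * β x e))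
      (Nh.snd fun x => c * α x e - s * β x e)
  have hd : ∀ x, PD e (fun z => f' (itU α β θ z x) * (c * α x e - s * β x e))
      (fun z => f'' (itU α β θ z x) * (s * α x e + c * β x e) * (c * α x e - s * β x e)) := by
    intro x
    have h1 := ((itU_pd α β θ x e).comp hf.d2).mul (PD.const (c * α x e - s * β x e))
    refine h1.congr fun z => ?_
    rw [hsd, hcd]
    ring
  rw [hR.ibp e hd hh hh']
  -- the derivatives of the energy at the level `l`
  have hsupp : (∀ x, α x e = 0 ∧ β x e = 0) ∨ ∀ z y, D e z y = 0 := by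
    by_cases h : ∃ x, α x e ≠ 0 ∨ β x e ≠ 0
    · right
      obtain ⟨x, hx⟩ := h
      exact hs.indep e x hx
    · left
      push Not at h
      exact h
  have hlev : ∀ l ≤ R.K, R.Ex (fun z x => f' (itU α β θ z x) * (c * α x e - s * β x e) *
      R.T l (itD D f' α β θ e) z) =
      s * c * (R.Ex (fun z _ => R.T l (fun z x => f' (itU α β θ z x) * α x e) z ^ 2) -
        R.Ex (fun z _ => R.T l (fun z x => f' (itU α β θ z x) * β x e) z ^ 2)) := by
    intro l hl
    rcases hsupp with h | h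
    · have e1 : (fun (z : ι → ℝ) (x : X) => f' (itU α β θ z x) * (c * α x e - s * β x e) *
          R.T l (itD D f' α β θ e) z) = fun _ _ => 0 := by
        funext z x
        rw [(h x).1, (h x).2]
        ring
      have e2 : (fun (z : ι → ℝ) (x : X) => f' (itU α β θ z x) * α x e) = fun _ _ => 0 := by
        funext z x
        rw [(h x).1, mul_zero]
      have e3 : (fun (z : ι → ℝ) (x : X) => f' (itU α β θ z x) * β x e) = fun _ _ => 0 := by
        funext z x
        rw [(h x).2, mul_zero]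
      rw [e1, e2, e3, hR.toReg.Ex_const]
      ring
    · rw [← lvi_level hR.toReg hl hNα hNβ s c h0]
      have e1 : itD D f' α β θ e = fun z x => s * (f' (itU α β θ z x) * α x e) +
          c * (f' (itU α β θ z x) * β x e) := by
        funext z x
        simp only [itD]
        rw [h z x, hsd, hcd]
        ring
      rw [e1]
      congr 1
      funext z x
      ring
  have hNT : ∀ l ∈ Finset.Ico (R.lev e) (R.K + 1), Nh fun z x =>
      R.p l * (f' (itU α β θ z x) * (c * α x e - s * β x e) * R.T l (itD D f' α β θ e) z) := by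
    intro l hl
    have hl' := (Finset.mem_Ico.1 hl).2
    exact Nh.const_mul _ (Nh.mul hh (Nh.fst (hR.toReg.eg_T (by omega) (hR.nh e))))
  have hNm : Nh fun z x => s * c * ((f'' (itU α β θ z x) + f' (itU α β θ z x) ^ 2) *
      (α x e ^ 2 - β x e ^ 2)) :=
    Nh.const_mul _ (Nh.mul (Nh.add hN2 (Nh.pow hN1 2)) (Nh.snd fun x => α x e ^ 2 - β x e ^ 2))
  have e1 : (fun (z : ι → ℝ) (x : X) => f'' (itU α β θ z x) * (s * α x e + c * β x e) *
      (c * α x e - s * β x e) + f' (itU α β θ z x) * (c * α x e - s * β x e) *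
        (itD D f' α β θ e z x - ∑ l ∈ Finset.Ico (R.lev e) (R.K + 1), R.p l *
          R.T l (itD D f' α β θ e) z)) =
      fun z x => s * c * ((f'' (itU α β θ z x) + f' (itU α β θ z x) ^ 2) *
        (α x e ^ 2 - β x e ^ 2)) -
        ∑ l ∈ Finset.Ico (R.lev e) (R.K + 1), R.p l * (f' (itU α β θ z x) *
          (c * α x e - s * β x e) * R.T l (itD D f' α β θ e) z) := by
    funext z x
    have h1 : f' (itU α β θ z x) * (c * α x e - s * β x e) * D e z x = 0 := by
      rcases hsupp with h | h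
      · rw [(h x).1, (h x).2]
        ring
      · rw [h z x, mul_zero]
    have h2 : ∑ l ∈ Finset.Ico (R.lev e) (R.K + 1), R.p l * (f' (itU α β θ z x) *
          (c * α x e - s * β x e) * R.T l (itD D f' α β θ e) z) =
        f' (itU α β θ z x) * (c * α x e - s * β x e) *
          ∑ l ∈ Finset.Ico (R.lev e) (R.K + 1), R.p l * R.T l (itD D f' α β θ e) z := by
      rw [Finset.mul_sum]
      refine Finset.sum_congr rfl fun l _ => ?_
      ring
    have h3 := hxy x
    rw [h2]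
    have h4 : itD D f' α β θ e z x = D e z x + f' (itU α β θ z x) * (s * α x e + c * β x e) := by
      rw [hsd, hcd]
      rfl
    rw [h4]
    linear_combination h1 + (f'' (itU α β θ z x) + f' (itU α β θ z x) ^ 2) *
      (c ^ 2 - s ^ 2) * h3
  rw [e1, hR.toReg.Ex_sub hNm (Nh.sum _ hNT), R.Ex_const_mul, hR.toReg.Ex_sum _ hNT, mul_sub]
  congr 1
  have e2 : ∀ l ∈ Finset.Ico (R.lev e) (R.K + 1), R.Ex (fun z x => R.p l *
      (f' (itU α β θ z x) * (c * α x e - s * β x e) * R.T l (itD D f' α β θ e) z)) =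
      s * c * (R.p l * (R.Ex (fun z _ => R.T l (fun z x => f' (itU α β θ z x) * α x e) z ^ 2) -
        R.Ex (fun z _ => R.T l (fun z x => f' (itU α β θ z x) * β x e) z ^ 2))) := by
    intro l hl
    have hl' := (Finset.mem_Ico.1 hl).2
    rw [R.Ex_const_mul, hlev l (by omega)]
    ring
  rw [Finset.sum_congr rfl e2, ← Finset.mul_sum]
  congr 1
  have e3 : Finset.Ico (R.lev e) (R.K + 1) =
      (Finset.range (S.K + 1)).filter fun l => S.lev e ≤ l := by
    ext l
    simp only [Finset.mem_Ico, Finset.mem_filter, Finset.mem_range, hRK, hRlev]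
    omega
  rw [e3, Finset.sum_filter]
  refine Finset.sum_congr rfl fun l _ => ?_
  rw [hRp]
  split_ifs
  · rfl
  · rw [mul_zero]

/-- The derivative in the angle, integrated by parts (`RegD.ibp` for each coordinate `e`, the
observable `f'(u) (cos θ α_e - sin θ β_e)`). -/
theorem ex_deriv (hS : S.RegD D) (hf : Pot f f' f'' C₁ C₂) (hs : Sep D α β) (θ : ℝ) :
    (S.wH (it S.H f α β θ)).Ex (fun z x => f' (itU α β θ z x) *
      (Real.cos θ * lin (α x) z - Real.sin θ * lin (β x) z)) =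
    Real.sin θ * Real.cos θ * brk S f f' f'' α β θ := by
  have hR := (regD_it (α := α) (β := β) hS hf θ).toReg
  have hN1 := hf.eg1 α β θ
  have hN2 := hf.eg2 α β θ
  have e1 : (fun (z : ι → ℝ) (x : X) => f' (itU α β θ z x) *
      (Real.cos θ * lin (α x) z - Real.sin θ * lin (β x) z)) =
      fun z x => ∑ e, z e * (f' (itU α β θ z x) *
        (Real.cos θ * α x e - Real.sin θ * β x e)) := by
    funext z x
    simp only [lin, Finset.mul_sum]
    rw [← Finset.sum_sub_distrib, Finset.mul_sum]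
    refine Finset.sum_congr rfl fun e _ => ?_
    ring
  have hNe : ∀ e ∈ (Finset.univ : Finset ι), Nh fun z x => z e * (f' (itU α β θ z x) *
      (Real.cos θ * α x e - Real.sin θ * β x e)) := fun e _ =>
    Nh.mul (Nh.fst (EG.coord e)) (Nh.mul hN1 (Nh.snd fun x =>
      Real.cos θ * α x e - Real.sin θ * β x e))
  rw [e1, hR.Ex_sum _ hNe, Finset.sum_congr rfl fun e _ => lvi_coord hS hf hs θ e,
    ← Finset.mul_sum, Finset.sum_sub_distrib]
  unfold brk
  congr 2
  · have hNq : ∀ e ∈ (Finset.univ : Finset ι), Nh fun z x =>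
        (f'' (itU α β θ z x) + f' (itU α β θ z x) ^ 2) * (α x e ^ 2 - β x e ^ 2) := fun e _ =>
      Nh.mul (Nh.add hN2 (Nh.pow hN1 2)) (Nh.snd fun x => α x e ^ 2 - β x e ^ 2)
    rw [← hR.Ex_sum _ hNq]
    congr 1
    funext z x
    rw [← Finset.sum_sub_distrib, Finset.mul_sum]
  · rw [Finset.sum_comm]
    refine Finset.sum_congr rfl fun l _ => ?_
    rw [Finset.mul_sum]

end Vale.Agent.P157.Lv
end
end

section

section

/-!
P166, lower bound: definitions. Systems with one more spin `ε` (the new site) whose `y`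
coordinates are the ones of an orthogonal matrix of size `N`.
-/

open MeasureTheory ProbabilityTheory Matrix Filter Topology

namespace Vale.Agent.P166.L

open Vale.Agent.P157 (spin)
open Vale.Agent.P157.Lv Vale.Agent.P157.Par Md H


variable {N K n : ℕ}

/-- The coordinates of the systems with a new spin: the ones of the model of size `N + 1` and one
more Gaussian variable (the cavity field) at each level. -/
abbrev Ie (N K : ℕ) : Type := Ix (N + 1) K ⊕ Fin (K + 1)

/-- The configurations: the new spin and the other ones. -/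
abbrev Xe (N : ℕ) : Type := Bool × (Fin N → Bool)

/-- The value of a spin. -/
def sg1 (b : Bool) : ℝ := if b then 1 else -1

/-- The levels. -/
def lve : Ie N K → ℕ
  | Sum.inl e => lvl e
  | Sum.inr l => l

/-- The site fields of the old sites. -/
def scE (l : ℕ) (i : Fin N) : Ie N K := Sum.inl (sco l i.succ)

/-- The site field of the new site. -/
def ecE (N K : ℕ) (l : ℕ) : Ie N K := Sum.inl (sco l 0)

/-- The pattern fields. -/
def bcE (l : ℕ) (i : Fin N) : Ie N K := Sum.inl (bco l i.succ)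

/-- The cavity fields. -/
def zcE (N K : ℕ) (l : ℕ) : Ie N K := Sum.inr (Fin.ofNat (K + 1) l)

/-- The parameters of a system with a new spin: constant `c0`, strengths `s` of the site fields,
`s'` of the site field of the new spin, `t` of the cavity fields, potentials `lam`, couplings `kap`
to the new spin and strengths `u` of the fields of the patterns. -/
structure EPm (N : ℕ) where
  c0 : ℝ
  s : ℕ → ℝ
  s' : ℕ → ℝ
  t : ℕ → ℝ
  lam : Fin N → ℝ
  kap : Fin N → ℝ
  u : Fin N → ℕ → ℝ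

/-- The part of the energy which does not depend on the matrix. -/
noncomputable def eE0 (K : ℕ) (E : EPm N) (z : Ie N K → ℝ) (x : Xe N) : ℝ :=
  E.c0 + ∑ l ∈ Finset.range (K + 1), E.s l * ∑ i, z (scE l i) * spin x.2 i +
    sg1 x.1 * ∑ l ∈ Finset.range (K + 1), (E.s' l * z (ecE N K l) + E.t l * z (zcE N K l))

/-- The system with a new spin. -/
noncomputable def egs (K : ℕ) (m : ℕ → ℝ) (E : EPm N) : GS N (Ie N K) (Xe N) where
  lev := lve
  K := K
  m := m
  sg := fun x => spin x.2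
  E0 := eE0 K E
  lam := E.lam
  kap := fun i x => E.kap i * sg1 x.1
  u := E.u
  bc := bcE

/-- The model itself as a `GS`. -/
noncomputable def ngs {κ : ℕ} (K : ℕ) (m : ℕ → ℝ) (c : Fin N → Fin κ) (P : Pm κ) :
    GS N (Ix N K) (Fin N → Bool) where
  lev := lvl
  K := K
  m := m
  sg := spin
  E0 := fun z x => ∑ l ∈ Finset.range (K + 1), P.s l * ∑ i, z (sco l i) * spin x i
  lam := fun i => P.b (c i)
  kap := fun _ _ => 0
  u := fun i => P.u (c i)
  bc := bco

/-- The data of the outliers: the potentials `μ` of the outliers, their couplings `g` to the new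
spin, the orthogonal matrices `Q k0`. -/
structure Out (b α : Fin (n + 1) → ℝ) (μ g : Fin n → ℝ)
    (Q : Fin (n + 1) → Matrix (Fin (n + 1)) (Fin (n + 1)) ℝ) : Prop where
  lo : ∀ j, b j.castSucc < μ j
  hi : ∀ j, μ j < b j.succ
  orth : ∀ k0, Q k0 ∈ orthogonalGroup (Fin (n + 1)) ℝ
  col : ∀ k0 k, Q k0 k k0 = √(α k)
  e00 : ∀ k0, ((Q k0)ᵀ * diagonal b * Q k0) k0 k0 = ∑ k, α k * b k
  e0j : ∀ k0 j, ((Q k0)ᵀ * diagonal b * Q k0) k0 (k0.succAbove j) = g j
  ej0 : ∀ k0 j, ((Q k0)ᵀ * diagonal b * Q k0) (k0.succAbove j) k0 = g j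
  eij : ∀ k0 i j, ((Q k0)ᵀ * diagonal b * Q k0) (k0.succAbove i) (k0.succAbove j) =
    if i = j then μ j else 0
  prod : ∀ A, (∀ k, b k < A) → (∑ k, α k / (A - b k)) * ∏ k, (A - b k) = ∏ j, (A - μ j)
  sum : ∀ A, (∀ k, b k < A) →
    ∑ j, g j ^ 2 / (A - μ j) = A - ∑ k, α k * b k - 1 / ∑ k, α k / (A - b k)

/-- The patterns which are replaced by the outliers, when the new pattern has the type `k0`;
`r k` is a pattern of type `k`. -/
def wi (r : Fin (n + 1) → Fin N) (k0 : Fin (n + 1)) (j : Fin n) : Fin N := r (k0.succAbove j)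

/-- The strengths of the cavity fields of the covariances `r l`. -/
noncomputable def tcov (τ : ℝ) (r : ℕ → ℝ) : ℕ → ℝ
  | 0 => 0
  | l + 1 => τ * √(r (l + 1) - r l)

/-- The parameters of the interpolation: coupling `σ` of the outliers to the new spin, amplitude
`τ` of the cavity field (covariances `rr l`, diagonal entry `rd`), strengths `s'` of the site
field of the new spin. -/
noncomputable def MP (K : ℕ) (c : Fin N → Fin (n + 1)) (w : Fin n → Fin N) (P : Pm (n + 1))
    (μ g : Fin n → ℝ) (mb : ℝ) (rd : ℝ) (rr s' : ℕ → ℝ) (σ τ : ℝ) : EPm N where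
  c0 := 1 / 2 * mb + 1 / 2 * τ ^ 2 * (rd - rr K)
  s := P.s
  s' := s'
  t := tcov τ rr
  lam := Function.extend w μ fun i => P.b (c i)
  kap := Function.extend w (fun j => σ * g j) fun _ => 0
  u := Function.extend w (fun _ _ => 0) fun i => P.u (c i)

/-- Average over the orthogonal group of the free energy of a system with a new spin. -/
noncomputable def EF [MeasurableSpace (orthogonalGroup (Fin N) ℝ)]
    (ν : Measure (orthogonalGroup (Fin N) ℝ)) (K : ℕ) (m : ℕ → ℝ) (E : EPm N) : ℝ :=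
  EU ν fun U => ((egs K m E).sy U).fe

/-- The extensive mean free energy of the model. -/
noncomputable def Ph {κ : ℕ} [MeasurableSpace (orthogonalGroup (Fin N) ℝ)]
    (ν : Measure (orthogonalGroup (Fin N) ℝ)) (K : ℕ) (m : ℕ → ℝ) (c : Fin N → Fin κ)
    (P : Pm κ) : ℝ := EU ν fun U => (mdl K m c P U).fe

end Vale.Agent.P166.L
end
end

section

section

namespace Vale.Agent.P166.Conc

open Finset

/-- the hypercube `{-1,1}ⁿ`. -/
noncomputable def cube (n : ℕ) : Finset (Fin n → ℝ) := Fintype.piFinset fun _ => ({-1, 1} : Finset ℝ)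

variable {n : ℕ}

lemma mem_cube {s : Fin n → ℝ} : s ∈ cube n ↔ ∀ i, s i = -1 ∨ s i = 1 := by
  simp only [cube, Fintype.mem_piFinset, mem_insert, mem_singleton]

lemma cube_sq {s : Fin n → ℝ} (hs : s ∈ cube n) (i : Fin n) : s i ^ 2 = 1 := by
  rcases mem_cube.1 hs i with h | h <;> rw [h] <;> norm_num

lemma card_cube : ((cube n).card : ℝ) = 2 ^ n := by
  unfold cube
  rw [Fintype.card_piFinset]
  have : ({-1, 1} : Finset ℝ).card = 2 := by
    rw [Finset.card_pair (by norm_num)]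
  simp only [this, prod_const, card_univ, Fintype.card_fin, Nat.cast_pow, Nat.cast_ofNat]

lemma sum_exp_cube (c : Fin n → ℝ) :
    ∑ s ∈ cube n, Real.exp (∑ i, s i * c i) ≤ 2 ^ n * Real.exp ((∑ i, c i ^ 2) / 2) := by
  have h1 : ∀ s : Fin n → ℝ, Real.exp (∑ i, s i * c i) = ∏ i, Real.exp (s i * c i) := fun s =>
    Real.exp_sum _ _
  simp_rw [h1]
  unfold cube
  rw [← Finset.prod_univ_sum (fun _ => ({-1, 1} : Finset ℝ)) (fun i e => Real.exp (e * c i))]
  have h2 : ∀ i, ∑ e ∈ ({-1, 1} : Finset ℝ), Real.exp (e * c i) ≤ 2 * Real.exp (c i ^ 2 / 2) := by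
    intro i
    rw [Finset.sum_pair (by norm_num)]
    have := Real.cosh_le_exp_half_sq (c i)
    rw [Real.cosh_eq] at this
    rw [neg_one_mul, one_mul]
    linarith
  calc ∏ i, ∑ e ∈ ({-1, 1} : Finset ℝ), Real.exp (e * c i)
      ≤ ∏ i : Fin n, (2 * Real.exp (c i ^ 2 / 2)) := by
        refine Finset.prod_le_prod (fun i _ => ?_) fun i _ => h2 i
        exact Finset.sum_nonneg fun e _ => (Real.exp_pos _).le
    _ = 2 ^ n * Real.exp ((∑ i, c i ^ 2) / 2) := by
        rw [Finset.prod_mul_distrib, ← Real.exp_sum, ← Finset.sum_div]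
        simp only [prod_const, card_univ, Fintype.card_fin]

lemma neg_sum_exp_cube (c : Fin n → ℝ) :
    ∑ s ∈ cube n, Real.exp (-∑ i, s i * c i) ≤ 2 ^ n * Real.exp ((∑ i, c i ^ 2) / 2) := by
  have := sum_exp_cube (fun i => - c i)
  simpa only [ge_iff_le, mul_neg, sum_neg_distrib, even_two, Even.neg_pow] using this

lemma pow4_le (x : ℝ) : x ^ 4 ≤ 24 * (Real.exp x + Real.exp (-x)) := by
  have h := Real.pow_div_factorial_le_exp |x| (abs_nonneg x) 4
  have h1 : |x| ^ 4 = x ^ 4 := by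
    rw [← abs_pow]; exact abs_of_nonneg (by positivity)
  rw [h1] at h
  have h2 : Real.exp |x| ≤ Real.exp x + Real.exp (-x) := by
    rcases abs_cases x with ⟨h, _⟩ | ⟨h, _⟩ <;> rw [h]
    · linarith only [Real.exp_pos (-x)]
    · linarith only [Real.exp_pos x]
  have h3 : ((4 : ℕ).factorial : ℝ) = 24 := by norm_num [Nat.factorial]
  rw [h3] at h
  linarith

/-- fourth moment of Rademacher sums -/
lemma rad4 (c : Fin n → ℝ) :
    ∑ s ∈ cube n, (∑ i, s i * c i) ^ 4 ≤ 24 * 2 ^ n * (∑ i, c i ^ 2) ^ 2 := by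
  set q := ∑ i, c i ^ 2 with hq
  have hq0 : 0 ≤ q := Finset.sum_nonneg fun i _ => sq_nonneg _
  rcases hq0.lt_or_eq with hpos | hzero
  · -- scale by t with t^2 q = 4
    set t := 2 / √q with ht
    have hsq : √q ^ 2 = q := Real.sq_sqrt hq0
    have hsp : 0 < √q := Real.sqrt_pos.2 hpos
    have ht2 : t ^ 2 * q = 4 := by
      rw [ht, div_pow, hsq]; field_simp; norm_num
    have h1 := sum_exp_cube (fun i => t * c i)
    have h2 := neg_sum_exp_cube (fun i => t * c i)
    have h3 : ∀ s : Fin n → ℝ, ∑ i, s i * (t * c i) = t * ∑ i, s i * c i := by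
      intro s
      rw [Finset.mul_sum]
      refine Finset.sum_congr rfl fun i _ => by ring
    have h4 : (∑ i, (t * c i) ^ 2) / 2 = 2 := by
      have : ∑ i, (t * c i) ^ 2 = t ^ 2 * q := by
        rw [hq, Finset.mul_sum]
        refine Finset.sum_congr rfl fun i _ => by ring
      rw [this, ht2]; norm_num
    rw [h4] at h1 h2
    simp_rw [h3] at h1 h2
    have h5 : ∑ s ∈ cube n, (t * ∑ i, s i * c i) ^ 4 ≤ 24 * (2 * (2 ^ n * Real.exp 2)) := by
      calc ∑ s ∈ cube n, (t * ∑ i, s i * c i) ^ 4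
          ≤ ∑ s ∈ cube n, 24 * (Real.exp (t * ∑ i, s i * c i) + Real.exp (-(t * ∑ i, s i * c i))) :=
            Finset.sum_le_sum fun s _ => pow4_le _
        _ = 24 * (∑ s ∈ cube n, Real.exp (t * ∑ i, s i * c i) +
              ∑ s ∈ cube n, Real.exp (-(t * ∑ i, s i * c i))) := by
            rw [← Finset.mul_sum, Finset.sum_add_distrib]
        _ ≤ 24 * (2 * (2 ^ n * Real.exp 2)) := by linarith only [h1, h2]
    have h6 : ∑ s ∈ cube n, (t * ∑ i, s i * c i) ^ 4 = t ^ 4 * ∑ s ∈ cube n, (∑ i, s i * c i) ^ 4 := by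
      rw [Finset.mul_sum]
      refine Finset.sum_congr rfl fun s _ => by ring
    rw [h6] at h5
    have ht4 : t ^ 4 * q ^ 2 = 16 := by
      have : t ^ 4 * q ^ 2 = (t ^ 2 * q) ^ 2 := by ring
      rw [this, ht2]; norm_num
    have he : Real.exp 2 ≤ 8 := by
      have h := Real.exp_one_lt_d9
      have : Real.exp 2 = Real.exp 1 ^ 2 := by rw [← Real.exp_nat_mul]; norm_num
      rw [this]
      nlinarith only [h, Real.exp_pos 1]
    have h7 : t ^ 4 * ∑ s ∈ cube n, (∑ i, s i * c i) ^ 4 ≤ t ^ 4 * (24 * 2 ^ n * q ^ 2) := by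
      have : t ^ 4 * (24 * 2 ^ n * q ^ 2) = 24 * (2 * (2 ^ n * 8)) := by
        have : t ^ 4 * (24 * 2 ^ n * q ^ 2) = 24 * 2 ^ n * (t ^ 4 * q ^ 2) := by ring
        rw [this, ht4]; ring
      rw [this]
      refine h5.trans ?_
      have : (0 : ℝ) < 2 ^ n := by positivity
      nlinarith only [he, this]
    have ht4pos : 0 < t ^ 4 := by (clear * - hpos; positivity)
    exact le_of_mul_le_mul_left h7 ht4pos
  · have hc : ∀ i, c i = 0 := by
      intro i
      have := (Finset.sum_eq_zero_iff_of_nonneg (fun i _ => sq_nonneg (c i))).1 hzero.symm i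
        (Finset.mem_univ i)
      exact pow_eq_zero_iff (two_ne_zero) |>.1 this
    simp only [hc, mul_zero, sum_const_zero, ne_eq, OfNat.ofNat_ne_zero, not_false_eq_true, zero_pow, Nat.ofNat_pos, mul_pos_iff_of_pos_left, pow_pos, mul_nonneg_iff_of_pos_left, ge_iff_le]
    (clear * -; positivity)

lemma rad22 (a b : Fin n → ℝ) :
    ∑ s ∈ cube n, (∑ i, s i * a i) ^ 2 * (∑ i, s i * b i) ^ 2 ≤
      24 * 2 ^ n * ((∑ i, a i ^ 2) * (∑ i, b i ^ 2)) := by
  have h := Finset.sum_mul_sq_le_sq_mul_sq (cube n) (fun s => (∑ i, s i * a i) ^ 2)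
    (fun s => (∑ i, s i * b i) ^ 2)
  have h1 := rad4 a
  have h2 := rad4 b
  have ha : 0 ≤ ∑ i, a i ^ 2 := Finset.sum_nonneg fun i _ => sq_nonneg _
  have hb : 0 ≤ ∑ i, b i ^ 2 := Finset.sum_nonneg fun i _ => sq_nonneg _
  apply le_of_sq_le_sq _ (by (clear * -; positivity))
  refine h.trans ?_
  simp_rw [← pow_mul]
  calc (∑ s ∈ cube n, (∑ i, s i * a i) ^ (2 * 2)) * (∑ s ∈ cube n, (∑ i, s i * b i) ^ (2 * 2))
      ≤ (24 * 2 ^ n * (∑ i, a i ^ 2) ^ 2) * (24 * 2 ^ n * (∑ i, b i ^ 2) ^ 2) := by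
        apply mul_le_mul h1 h2
        · exact Finset.sum_nonneg fun s _ => by (clear * -; positivity)
        · (clear * -; positivity)
    _ = _ := by ring

lemma rad2 (c : Fin n → ℝ) :
    ∑ s ∈ cube n, (∑ i, s i * c i) ^ 2 ≤ 5 * 2 ^ n * (∑ i, c i ^ 2) := by
  have h := Finset.sum_mul_sq_le_sq_mul_sq (cube n) (fun s => (∑ i, s i * c i) ^ 2)
    (fun s => 1)
  have h1 := rad4 c
  have ha : 0 ≤ ∑ i, c i ^ 2 := Finset.sum_nonneg fun i _ => sq_nonneg _
  have hcard : ∑ s ∈ cube n, (1 : ℝ) ^ 2 = 2 ^ n := by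
    rw [one_pow, Finset.sum_const, nsmul_eq_mul, mul_one, card_cube]
  rw [hcard] at h
  simp only [mul_one] at h
  apply le_of_sq_le_sq _ (by (clear * -; positivity))
  refine h.trans ?_
  simp_rw [← pow_mul]
  have h2 : (0 : ℝ) < 2 ^ n := by positivity
  calc (∑ s ∈ cube n, (∑ i, s i * c i) ^ (2 * 2)) * 2 ^ n
      ≤ (24 * 2 ^ n * (∑ i, c i ^ 2) ^ 2) * 2 ^ n := by
        apply mul_le_mul_of_nonneg_right h1 h2.le
    _ ≤ _ := by
      have : (5 * 2 ^ n * ∑ i, c i ^ 2) ^ 2 = 25 * (2 ^ n * 2 ^ n * (∑ i, c i ^ 2) ^ 2) := by ring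
      rw [this]
      have h3 : 0 ≤ (2 : ℝ) ^ n * 2 ^ n * (∑ i, c i ^ 2) ^ 2 := by (clear * -; positivity)
      linarith

end Vale.Agent.P166.Conc
end
end

section

section

namespace Vale.Agent.P166.Conc

open Matrix MeasureTheory ProbabilityTheory

variable {n : ℕ}

/-- energy -/
noncomputable def en (J : Matrix (Fin n) (Fin n) ℝ) (s : Fin n → ℝ) : ℝ := s ⬝ᵥ (J *ᵥ s)

/-- partition function -/
noncomputable def Zf (β : ℝ) (J : Matrix (Fin n) (Fin n) ℝ) : ℝ :=
  ∑ s ∈ cube n, Real.exp (β / 2 * en J s)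

/-- Gibbs weights -/
noncomputable def gw (β : ℝ) (J : Matrix (Fin n) (Fin n) ℝ) (s : Fin n → ℝ) : ℝ :=
  Real.exp (β / 2 * en J s) / Zf β J

lemma cube_nonempty : (cube n).Nonempty := ⟨fun _ => 1, mem_cube.2 fun _ => Or.inr rfl⟩

lemma Zf_pos (β : ℝ) (J : Matrix (Fin n) (Fin n) ℝ) : 0 < Zf β J :=
  Finset.sum_pos (fun s _ => Real.exp_pos _) cube_nonempty

lemma gw_nonneg (β : ℝ) (J : Matrix (Fin n) (Fin n) ℝ) (s : Fin n → ℝ) : 0 ≤ gw β J s :=
  div_nonneg (Real.exp_pos _).le (Zf_pos β J).le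

lemma gw_sum (β : ℝ) (J : Matrix (Fin n) (Fin n) ℝ) : ∑ s ∈ cube n, gw β J s = 1 := by
  unfold gw
  rw [← Finset.sum_div]
  exact div_self (Zf_pos β J).ne'

/-- Gibbs variational inequality. -/
lemma lse_ge (β : ℝ) (J J' : Matrix (Fin n) (Fin n) ℝ) :
    ∑ s ∈ cube n, gw β J s * (β / 2 * (en J' s - en J s)) ≤
      Real.log (Zf β J') - Real.log (Zf β J) := by
  set m := ∑ s ∈ cube n, gw β J s * (β / 2 * (en J' s - en J s)) with hm
  rw [← Real.log_div (Zf_pos β J').ne' (Zf_pos β J).ne',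
    Real.le_log_iff_exp_le (div_pos (Zf_pos β J') (Zf_pos β J))]
  have h1 : Zf β J' / Zf β J = ∑ s ∈ cube n, gw β J s * Real.exp (β / 2 * (en J' s - en J s)) := by
    unfold gw
    rw [Zf, Finset.sum_div]
    refine Finset.sum_congr rfl fun s _ => ?_
    have e : Real.exp (β / 2 * en J' s) =
        Real.exp (β / 2 * en J s) * Real.exp (β / 2 * (en J' s - en J s)) := by
      rw [← Real.exp_add]; congr 1; ring
    rw [e]; ring
  rw [h1]
  have h2 : ∀ s ∈ cube n, gw β J s * (Real.exp m * (1 + (β / 2 * (en J' s - en J s) - m))) ≤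
      gw β J s * Real.exp (β / 2 * (en J' s - en J s)) := by
    intro s _
    apply mul_le_mul_of_nonneg_left _ (gw_nonneg _ _ _)
    have h := Real.add_one_le_exp (β / 2 * (en J' s - en J s) - m)
    have e : Real.exp (β / 2 * (en J' s - en J s)) =
        Real.exp m * Real.exp (β / 2 * (en J' s - en J s) - m) := by
      rw [← Real.exp_add]; congr 1; ring
    rw [e]
    apply mul_le_mul_of_nonneg_left _ (Real.exp_pos _).le
    linarith only [h]
  refine le_trans (le_of_eq ?_) (Finset.sum_le_sum h2)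
  have h3 : ∑ s ∈ cube n, gw β J s * (Real.exp m * (1 + (β / 2 * (en J' s - en J s) - m))) =
      Real.exp m * ((∑ s ∈ cube n, gw β J s) + ((∑ s ∈ cube n, gw β J s * (β / 2 * (en J' s - en J s)))
        - m * ∑ s ∈ cube n, gw β J s)) := by
    rw [Finset.mul_sum (cube n) _ m, ← Finset.sum_sub_distrib, ← Finset.sum_add_distrib,
      Finset.mul_sum]
    refine Finset.sum_congr rfl fun s _ => by ring
  rw [h3, gw_sum, ← hm]
  ring

/-- the change of energy under a reflection. -/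
noncomputable def Xf (β : ℝ) (J : Matrix (Fin n) (Fin n) ℝ) (w s : Fin n → ℝ) : ℝ :=
  β / 2 * (-(2 * (2 / (w ⬝ᵥ w) * (w ⬝ᵥ s))) * (w ⬝ᵥ (J *ᵥ s)) +
    (2 / (w ⬝ᵥ w) * (w ⬝ᵥ s)) ^ 2 * (w ⬝ᵥ (J *ᵥ w)))

lemma en_rfl (J : Matrix (Fin n) (Fin n) ℝ) (hJ : Jᵀ = J) (w s : Fin n → ℝ) :
    en (rfl' w * J * rfl' w) s = en J s +
      (-(2 * (2 / (w ⬝ᵥ w) * (w ⬝ᵥ s))) * (w ⬝ᵥ (J *ᵥ s)) +
    (2 / (w ⬝ᵥ w) * (w ⬝ᵥ s)) ^ 2 * (w ⬝ᵥ (J *ᵥ w))) := by
  have h1 : en (rfl' w * J * rfl' w) s = (rfl' w *ᵥ s) ⬝ᵥ (J *ᵥ (rfl' w *ᵥ s)) := by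
    unfold en
    rw [← Matrix.mulVec_mulVec, ← Matrix.mulVec_mulVec, Matrix.dotProduct_mulVec s (rfl' w)]
    congr 1
    rw [← Matrix.mulVec_transpose, rfl'_transpose]
  have hsym : s ⬝ᵥ (J *ᵥ w) = w ⬝ᵥ (J *ᵥ s) := by
    rw [Matrix.dotProduct_mulVec, dotProduct_comm, ← Matrix.mulVec_transpose, hJ]
  rw [h1, rfl'_mulVec]
  set c := 2 / (w ⬝ᵥ w) * (w ⬝ᵥ s) with hc
  unfold en
  rw [Matrix.mulVec_sub, Matrix.mulVec_smul, sub_dotProduct, dotProduct_sub, dotProduct_sub,
    smul_dotProduct, smul_dotProduct, dotProduct_smul, dotProduct_smul, hsym]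
  simp only [smul_eq_mul]
  ring

lemma Xf_eq (β : ℝ) (J : Matrix (Fin n) (Fin n) ℝ) (hJ : Jᵀ = J) (w s : Fin n → ℝ) :
    β / 2 * (en (rfl' w * J * rfl' w) s - en J s) = Xf β J w s := by
  rw [en_rfl J hJ]; unfold Xf; ring

/-- `J` is symmetric with `|w·Jw| ≤ K |w|²` and `|J w|² ≤ K² |w|²`. -/
structure Nice (K : ℝ) (J : Matrix (Fin n) (Fin n) ℝ) : Prop where
  symm : Jᵀ = J
  form : ∀ w, |w ⬝ᵥ (J *ᵥ w)| ≤ K * (w ⬝ᵥ w)
  norm : ∀ w, (J *ᵥ w) ⬝ᵥ (J *ᵥ w) ≤ K ^ 2 * (w ⬝ᵥ w)
  nonneg : 0 ≤ K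

lemma Xf_abs_le {β K : ℝ} {J : Matrix (Fin n) (Fin n) ℝ} (hJ : Nice K J) {w : Fin n → ℝ}
    (hw : 2 ≤ w ⬝ᵥ w) (s : Fin n → ℝ) :
    |Xf β J w s| ≤ |β| * (|w ⬝ᵥ s| * |w ⬝ᵥ (J *ᵥ s)| + K * (w ⬝ᵥ s) ^ 2) := by
  have hK := hJ.nonneg
  set q := w ⬝ᵥ w with hq
  have hq0 : 0 < q := by linarith
  set a := w ⬝ᵥ s
  set b := w ⬝ᵥ (J *ᵥ s)
  set c := w ⬝ᵥ (J *ᵥ w)
  have hc : |c| ≤ K * q := hJ.form w
  unfold Xf
  rw [abs_mul, abs_div, abs_two]
  have h1 : |-(2 * (2 / q * a)) * b + (2 / q * a) ^ 2 * c| ≤ 2 * (|a| * |b| + K * a ^ 2) := by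
    refine (abs_add_le _ _).trans ?_
    have e1 : |-(2 * (2 / q * a)) * b| = (4 / q) * (|a| * |b|) := by
      rw [abs_mul, abs_neg, abs_mul, abs_mul, abs_two, abs_of_pos (div_pos two_pos hq0)]; ring
    have e2 : |(2 / q * a) ^ 2 * c| ≤ (4 / q) * (K * a ^ 2) := by
      rw [abs_mul, abs_of_nonneg (sq_nonneg _)]
      calc (2 / q * a) ^ 2 * |c| ≤ (2 / q * a) ^ 2 * (K * q) :=
            mul_le_mul_of_nonneg_left hc (sq_nonneg _)
        _ = (4 / q) * (K * a ^ 2) := by field_simp; ring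
    have h4 : 4 / q ≤ 2 := by rw [div_le_iff₀ hq0]; linarith only [hw]
    have h5 : 0 ≤ |a| * |b| + K * a ^ 2 := by (clear * - hK; positivity)
    calc |-(2 * (2 / q * a)) * b| + |(2 / q * a) ^ 2 * c| ≤
        (4 / q) * (|a| * |b| + K * a ^ 2) := by rw [e1]; linarith only [e2]
      _ ≤ 2 * (|a| * |b| + K * a ^ 2) := mul_le_mul_of_nonneg_right h4 h5
  calc |β| / 2 * |-(2 * (2 / q * a)) * b + (2 / q * a) ^ 2 * c| ≤
      |β| / 2 * (2 * (|a| * |b| + K * a ^ 2)) :=
        mul_le_mul_of_nonneg_left h1 (by (clear * -; positivity))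
    _ = _ := by ring

/-- the reflection direction -/
noncomputable def Wv (k : Fin n) (v : Fin n → ℝ) : Fin n → ℝ :=
  if v k ≤ 0 then Pi.single k 1 - v else Pi.single k 1 + v

lemma Wv_sq (k : Fin n) {v : Fin n → ℝ} (hv : v ⬝ᵥ v = 1) : 2 ≤ Wv k v ⬝ᵥ Wv k v := by
  unfold Wv
  split_ifs with h
  · rw [dot_sub_self k v hv]; linarith
  · rw [dot_add_self k v hv]; linarith only [h]

lemma Wv_dot (k : Fin n) (v a : Fin n → ℝ) : |Wv k v ⬝ᵥ a| ≤ |a k| + |v ⬝ᵥ a| := by
  unfold Wv
  split_ifs with h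
  · rw [sub_dotProduct, single_dot]; exact abs_sub _ _
  · rw [add_dotProduct, single_dot]; exact abs_add_le _ _

lemma measurable_Wv (k : Fin n) : Measurable (Wv k) := by
  unfold Wv
  refine Measurable.ite ?_ ?_ ?_
  · exact measurableSet_le (measurable_pi_apply k) measurable_const
  · exact measurable_const.sub measurable_id
  · exact measurable_const.add measurable_id

lemma measurable_mulVec_const {α : Type*} [MeasurableSpace α] (J : Matrix (Fin n) (Fin n) ℝ)
    {f : α → (Fin n → ℝ)} (hf : Measurable f) : Measurable fun a => J *ᵥ f a := by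
  refine measurable_pi_iff.2 fun i => ?_
  exact measurable_dot measurable_const hf

lemma measurable_Xf (β : ℝ) (J : Matrix (Fin n) (Fin n) ℝ) (s : Fin n → ℝ) :
    Measurable fun w => Xf β J w s := by
  unfold Xf
  have h1 : Measurable fun w : Fin n → ℝ => w ⬝ᵥ w := measurable_dot measurable_id measurable_id
  have h2 : Measurable fun w : Fin n → ℝ => w ⬝ᵥ s := measurable_dot measurable_id measurable_const
  have h3 : Measurable fun w : Fin n → ℝ => w ⬝ᵥ (J *ᵥ s) :=
    measurable_dot measurable_id measurable_const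
  have h4 : Measurable fun w : Fin n → ℝ => w ⬝ᵥ (J *ᵥ w) :=
    measurable_dot measurable_id (measurable_mulVec_const J measurable_id)
  have h5 : Measurable fun w : Fin n → ℝ => 2 / (w ⬝ᵥ w) * (w ⬝ᵥ s) :=
    (measurable_const.div h1).mul h2
  exact measurable_const.mul ((((h5.const_mul 2).neg).mul h3).add ((h5.pow_const 2).mul h4))

lemma Xf_sq_le {β K : ℝ} {J : Matrix (Fin n) (Fin n) ℝ} (hJ : Nice K J) (k : Fin n)
    {v : Fin n → ℝ} (hv : v ⬝ᵥ v = 1) {s : Fin n → ℝ} (hs : s ∈ cube n) :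
    Xf β J (Wv k v) s ^ 2 ≤ 8 * β ^ 2 * ((1 + (v ⬝ᵥ s) ^ 2) * ((J *ᵥ s) k ^ 2 + (v ⬝ᵥ (J *ᵥ s)) ^ 2)
      + K ^ 2 * (1 + (v ⬝ᵥ s) ^ 2) ^ 2) := by
  have h1 := Xf_abs_le (β := β) hJ (Wv_sq k hv) s
  have h2 := Wv_dot k v s
  have h3 := Wv_dot k v (J *ᵥ s)
  have hsk : |s k| = 1 := by
    rcases mem_cube.1 hs k with h | h <;> rw [h] <;> norm_num
  rw [hsk] at h2
  set A := Wv k v ⬝ᵥ s
  set Bq := Wv k v ⬝ᵥ (J *ᵥ s)
  set a := v ⬝ᵥ s
  set b := v ⬝ᵥ (J *ᵥ s)
  set y := (J *ᵥ s) k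
  have hA2 : A ^ 2 ≤ 2 * (1 + a ^ 2) := by
    rw [← sq_abs A, ← sq_abs a]
    nlinarith only [h2, abs_nonneg A, sq_nonneg (1 - |a|)]
  have hB2 : Bq ^ 2 ≤ 2 * (y ^ 2 + b ^ 2) := by
    rw [← sq_abs Bq, ← sq_abs y, ← sq_abs b]
    nlinarith only [h3, abs_nonneg Bq, sq_nonneg (|y| - |b|)]
  have h4 : Xf β J (Wv k v) s ^ 2 ≤ β ^ 2 * (2 * (A ^ 2 * Bq ^ 2) + 2 * (K ^ 2 * (A ^ 2) ^ 2)) := by
    rw [← sq_abs (Xf _ _ _ _), ← sq_abs β]
    calc |Xf β J (Wv k v) s| ^ 2 ≤ (|β| * (|A| * |Bq| + K * A ^ 2)) ^ 2 :=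
          pow_le_pow_left₀ (abs_nonneg _) h1 2
      _ = |β| ^ 2 * (|A| * |Bq| + K * A ^ 2) ^ 2 := by ring
      _ ≤ |β| ^ 2 * (2 * (A ^ 2 * Bq ^ 2) + 2 * (K ^ 2 * (A ^ 2) ^ 2)) := by
          apply mul_le_mul_of_nonneg_left _ (sq_nonneg _)
          have e : A ^ 2 * Bq ^ 2 = (|A| * |Bq|) ^ 2 := by rw [mul_pow, sq_abs, sq_abs]
          rw [e]
          nlinarith only [sq_nonneg (|A| * |Bq| - K * A ^ 2)]
  refine h4.trans ?_
  have hA0 := sq_nonneg A
  have hB0 := sq_nonneg Bq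
  have h5 : A ^ 2 * Bq ^ 2 ≤ (2 * (1 + a ^ 2)) * (2 * (y ^ 2 + b ^ 2)) :=
    mul_le_mul hA2 hB2 hB0 (by (clear * -; positivity))
  have h6 : (A ^ 2) ^ 2 ≤ (2 * (1 + a ^ 2)) ^ 2 := pow_le_pow_left₀ hA0 hA2 2
  have h7 : K ^ 2 * (A ^ 2) ^ 2 ≤ K ^ 2 * (2 * (1 + a ^ 2)) ^ 2 :=
    mul_le_mul_of_nonneg_left h6 (sq_nonneg _)
  have h8 : 2 * (A ^ 2 * Bq ^ 2) + 2 * (K ^ 2 * (A ^ 2) ^ 2) ≤
      8 * ((1 + a ^ 2) * (y ^ 2 + b ^ 2) + K ^ 2 * (1 + a ^ 2) ^ 2) := by linarith
  calc β ^ 2 * (2 * (A ^ 2 * Bq ^ 2) + 2 * (K ^ 2 * (A ^ 2) ^ 2)) ≤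
      β ^ 2 * (8 * ((1 + a ^ 2) * (y ^ 2 + b ^ 2) + K ^ 2 * (1 + a ^ 2) ^ 2)) :=
        mul_le_mul_of_nonneg_left h8 (sq_nonneg _)
    _ = _ := by ring

end Vale.Agent.P166.Conc
end
end

section

section

/-!
The tilted chain for energies of linear growth (not necessarily Lipschitz): needed in order to
differentiate with respect to a parameter, which is treated as a coordinate.
(The proofs are the ones of `LvChain`, with `Lip` replaced by `LGr`.)
-/

open MeasureTheory ProbabilityTheory Filter Topology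
open Vale.Agent.P157.Lv Vale.Agent.P157.Lv.Sy

namespace Vale.Agent.P166.H

set_option linter.unusedSectionVars false
set_option linter.unusedVariables false

variable {ι X : Type} [Fintype ι]

/-- Measurable functions of at most linear growth. -/
structure LGr (G : (ι → ℝ) → ℝ) : Prop where
  meas : Measurable G
  bdd : ∃ C : ℝ, 0 ≤ C ∧ ∀ y, |G y| ≤ C * (1 + ‖y‖)

lemma Lip.lgr {G : (ι → ℝ) → ℝ} (h : Lip G) : LGr G := by
  refine ⟨h.measurable, ?_⟩
  obtain ⟨L, hL0, hL⟩ := h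
  refine ⟨L + |G 0|, by positivity, fun y => ?_⟩
  have h1 := hL y 0
  rw [sub_zero] at h1
  have h2 : |G y| ≤ |G y - G 0| + |G 0| := by
    have := abs_add_le (G y - G 0) (G 0)
    rwa [sub_add_cancel] at this
  have h3 := norm_nonneg y
  have h4 := abs_nonneg (G 0)
  nlinarith only [hL0, h1, h2, h3, h4]

lemma LGr.exp_eg {G : (ι → ℝ) → ℝ} (h : LGr G) (m : ℝ) : EG (fun y => Real.exp (m * G y)) := by
  refine ⟨(h.meas.const_mul m).exp, ?_⟩
  obtain ⟨C, hC0, hC⟩ := h.bdd
  refine ⟨Real.exp (|m| * C), |m| * C, (Real.exp_pos _).le, by positivity, fun y => ?_⟩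
  rw [abs_of_pos (Real.exp_pos _), ← Real.exp_add]
  apply Real.exp_le_exp.2
  have h1 : m * G y ≤ |m| * |G y| := by
    rw [← abs_mul]; exact le_abs_self _
  have h2 : |m| * |G y| ≤ |m| * (C * (1 + ‖y‖)) := mul_le_mul_of_nonneg_left (hC y) (abs_nonneg _)
  linarith only [h1, h2]

lemma LGr.eg {G : (ι → ℝ) → ℝ} (h : LGr G) : EG G := by
  refine ⟨h.meas, ?_⟩
  obtain ⟨C, hC0, hC⟩ := h.bdd
  refine ⟨C, 1, hC0, zero_le_one, fun y => (hC y).trans ?_⟩
  refine mul_le_mul_of_nonneg_left ?_ hC0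
  have := Real.add_one_le_exp (1 * ‖y‖)
  linarith only [this]

lemma LGr.add {F G : (ι → ℝ) → ℝ} (hF : LGr F) (hG : LGr G) : LGr (fun y => F y + G y) := by
  refine ⟨hF.meas.add hG.meas, ?_⟩
  obtain ⟨C, hC0, hC⟩ := hF.bdd
  obtain ⟨C', hC0', hC'⟩ := hG.bdd
  refine ⟨C + C', by positivity, fun y => ?_⟩
  have := abs_add_le (F y) (G y)
  have h1 := hC y
  have h2 := hC' y
  linarith

lemma LGr.const_mul {F : (ι → ℝ) → ℝ} (hF : LGr F) (c : ℝ) : LGr (fun y => c * F y) := by
  refine ⟨hF.meas.const_mul c, ?_⟩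
  obtain ⟨C, hC0, hC⟩ := hF.bdd
  refine ⟨|c| * C, by positivity, fun y => ?_⟩
  rw [abs_mul, mul_assoc]
  exact mul_le_mul_of_nonneg_left (hC y) (abs_nonneg _)

lemma LGr.const (c : ℝ) : LGr (fun _ : ι → ℝ => c) :=
  ⟨measurable_const, |c|, abs_nonneg _, fun y => by
    have := norm_nonneg y
    have := abs_nonneg c
    nlinarith⟩

lemma LGr.sum {κ : Type*} (s : Finset κ) {f : κ → (ι → ℝ) → ℝ} (hf : ∀ i ∈ s, LGr (f i)) :
    LGr (fun y => ∑ i ∈ s, f i y) := by
  classical
  induction s using Finset.induction_on with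
  | empty => simpa only [Finset.sum_empty] using LGr.const (ι := ι) 0
  | insert a s ha ih =>
    simp only [Finset.sum_insert ha]
    exact (hf a (Finset.mem_insert_self _ _)).add
      (ih fun i hi => hf i (Finset.mem_insert_of_mem hi))

lemma gc_eg_exp {G : (ι → ℝ) → ℝ} (hG : LGr G) : EG fun z => Real.exp (G z) := by
  have h := hG.exp_eg 1
  simp only [one_mul] at h
  exact h

variable [Fintype X]

/-- Regularity of a system, with energies of linear growth. -/
structure RegG (S : Sy ι X) : Prop where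
  m0 : S.m 0 = 0
  mK : S.m (S.K + 1) = 1
  mono : ∀ l ≤ S.K, S.m l ≤ S.m (l + 1)
  pos : 0 < S.m 1
  lev : ∀ e, S.lev e ≤ S.K
  gr : ∀ x, LGr fun z => S.H z x

lemma RegG.of_reg {S : Sy ι X} (h : S.Reg) : RegG S :=
  ⟨h.m0, h.mK, h.mono, h.pos, h.lev, fun x => Lip.lgr (h.lip x)⟩

variable [Nonempty X] {S : Sy ι X}

lemma RegG.gr_top (hS : RegG S) : LGr S.top := by
  have hm : ∀ x, Measurable fun z => S.H z x := fun x => (hS.gr x).meas
  choose C hC0 hC using fun x => (hS.gr x).bdd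
  refine ⟨(Finset.measurable_sum _ fun x _ => (hm x).exp).log, (∑ x, C x) + Real.log (Fintype.card X), ?_, ?_⟩
  · have : 0 ≤ ∑ x, C x := Finset.sum_nonneg fun x _ => hC0 x
    have h2 : 0 ≤ Real.log (Fintype.card X) := Real.log_natCast_nonneg _
    linarith
  · intro y
    have hle : ∀ x, C x ≤ ∑ x, C x := fun x =>
      Finset.single_le_sum (f := C) (fun x _ => hC0 x) (Finset.mem_univ x)
    have hy := norm_nonneg y
    have h2 : 0 ≤ Real.log (Fintype.card X) := Real.log_natCast_nonneg _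
    have hcard : (0 : ℝ) < Fintype.card X := by exact_mod_cast Fintype.card_pos
    have hsum : 0 ≤ ∑ x, C x := Finset.sum_nonneg fun x _ => hC0 x
    unfold top
    rw [abs_le]
    constructor
    · obtain ⟨x0⟩ := ‹Nonempty X›
      have h3 : Real.exp (S.H y x0) ≤ ∑ x, Real.exp (S.H y x) :=
        Finset.single_le_sum (f := fun x => Real.exp (S.H y x)) (fun x _ => (Real.exp_pos _).le)
          (Finset.mem_univ x0)
      have h4 := Real.log_le_log (Real.exp_pos _) h3
      rw [Real.log_exp] at h4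
      have h5 := (abs_le.1 (hC x0 y)).1
      have h6 : C x0 * (1 + ‖y‖) ≤ (∑ x, C x) * (1 + ‖y‖) :=
        mul_le_mul_of_nonneg_right (hle x0) (by linarith only [hy])
      nlinarith only [h2, h4, h5, h6, hy]
    · have h3 : ∑ x, Real.exp (S.H y x) ≤ Fintype.card X * Real.exp ((∑ x, C x) * (1 + ‖y‖)) := by
        calc ∑ x, Real.exp (S.H y x) ≤ ∑ _x : X, Real.exp ((∑ x, C x) * (1 + ‖y‖)) := by
              refine Finset.sum_le_sum fun x _ => Real.exp_le_exp.2 ?_
              have h5 := (abs_le.1 (hC x y)).2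
              have h6 : C x * (1 + ‖y‖) ≤ (∑ x, C x) * (1 + ‖y‖) :=
                mul_le_mul_of_nonneg_right (hle x) (by linarith only [hy])
              linarith
          _ = _ := by simp only [Finset.sum_const, Finset.card_univ, nsmul_eq_mul]
      have h4 := Real.log_le_log (sum_exp_pos (S := S) y) h3
      rw [Real.log_mul hcard.ne' (Real.exp_pos _).ne', Real.log_exp] at h4
      nlinarith only [h4, hy, h2]

lemma gc_gr_stp (hS : RegG S) {F : (ι → ℝ) → ℝ} (hF : LGr F) {l : ℕ} (hm : 0 < S.m (l + 1)) :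
    LGr (S.stp l F) := by
  have heg := hF.exp_eg (S.m (l + 1))
  have hpos : ∀ z, 0 < J S.lev l (fun z => Real.exp (S.m (l + 1) * F z)) z :=
    fun z => J_pos heg (fun _ => Real.exp_pos _) z
  obtain ⟨C, hC0, hC⟩ := hF.bdd
  have hmC : 0 ≤ S.m (l + 1) * C := by positivity
  have hint := integrable_exp_norm (ι := ι) (S.m (l + 1) * C)
  set A : ℝ := ∫ w, Real.exp (S.m (l + 1) * C * ‖w‖) ∂(gI ι) with hA
  have hA1 : 1 ≤ A := by
    have h1 : ∫ _w : ι → ℝ, (1 : ℝ) ∂(gI ι) ≤ A :=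
      integral_mono (integrable_const _) hint fun w => Real.one_le_exp (by positivity)
    simpa only [ge_iff_le, integral_const, probReal_univ, smul_eq_mul, mul_one] using h1
  have hlogA : 0 ≤ Real.log A := Real.log_nonneg hA1
  -- the lower bound by Jensen: use `exp u ≥ exp(-C...)` and `∫ exp(-c‖w‖) ≥ 1/A`
  have hint2 : Integrable (fun w : ι → ℝ => Real.exp (-(S.m (l + 1) * C) * ‖w‖)) (gI ι) := by
    refine Integrable.mono' (integrable_const (1 : ℝ)) (by fun_prop) (Eventually.of_forall fun w => ?_)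
    rw [Real.norm_eq_abs, abs_of_pos (Real.exp_pos _)]
    refine Real.exp_le_one_iff.2 ?_
    have := norm_nonneg w
    nlinarith only [hmC, this]
  have hB : 1 ≤ A * ∫ w, Real.exp (-(S.m (l + 1) * C) * ‖w‖) ∂(gI ι) := by
    set B : ℝ := ∫ w, Real.exp (-(S.m (l + 1) * C) * ‖w‖) ∂(gI ι) with hB'
    have hB0 : 0 < B := by
      rw [hB']
      refine (integral_pos_iff_support_of_nonneg (fun w => (Real.exp_pos _).le) hint2).2 ?_
      have : Function.support (fun w : ι → ℝ => Real.exp (-(S.m (l + 1) * C) * ‖w‖)) = Set.univ := by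
        ext w
        simp only [neg_mul, Function.mem_support, ne_eq, (Real.exp_pos _).ne', not_false_eq_true, Set.mem_univ]
      rw [this]
      simp only [measure_univ, zero_lt_one]
    -- `t e^{u} + t^{-1} e^{-u} ≥ 2`
    have h2 : ∀ t : ℝ, 0 < t → 2 ≤ t * A + t⁻¹ * B := by
      intro t ht
      have h3 : ∫ _w : ι → ℝ, (2 : ℝ) ∂(gI ι) ≤ ∫ w, (t * Real.exp (S.m (l + 1) * C * ‖w‖) +
          t⁻¹ * Real.exp (-(S.m (l + 1) * C) * ‖w‖)) ∂(gI ι) := by
        refine integral_mono (integrable_const _) ((hint.const_mul t).add (hint2.const_mul _)) fun w => ?_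
        have e1 : Real.exp (-(S.m (l + 1) * C) * ‖w‖) = (Real.exp (S.m (l + 1) * C * ‖w‖))⁻¹ := by
          rw [← Real.exp_neg]; congr 1; ring
        simp only
        rw [e1]
        have h4 := Real.exp_pos (S.m (l + 1) * C * ‖w‖)
        set E := Real.exp (S.m (l + 1) * C * ‖w‖)
        have h5 : t⁻¹ * E⁻¹ = (t * E)⁻¹ := by rw [mul_inv]
        rw [h5]
        have h6 : 0 < t * E := by positivity
        rw [← sub_nonneg]
        have : t * E + (t * E)⁻¹ - 2 = (t * E - 1) ^ 2 / (t * E) := by field_simp; ring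
        rw [this]
        positivity
      rw [integral_add (hint.const_mul t) (hint2.const_mul _), integral_const_mul, integral_const_mul] at h3
      have h8 : ∫ _w : ι → ℝ, (2 : ℝ) ∂(gI ι) = 2 := by simp
      rw [h8] at h3
      exact h3
    have hA0 : 0 < A := by linarith only [hA1]
    have h7 := h2 (1 / A) (by positivity)
    rw [one_div, inv_mul_cancel₀ hA0.ne', inv_inv] at h7
    linarith
  refine ⟨?_, C + C + 1 / S.m (l + 1) * Real.log A, by positivity, fun y => ?_⟩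
  · unfold stp
    exact ((heg.J S.lev l).meas.log).const_mul _
  · unfold stp
    have hy := norm_nonneg y
    have hup : Real.log (J S.lev l (fun z => Real.exp (S.m (l + 1) * F z)) y) ≤
        S.m (l + 1) * C * (1 + ‖y‖) + Real.log A := by
      have h1 : J S.lev l (fun z => Real.exp (S.m (l + 1) * F z)) y ≤
          Real.exp (S.m (l + 1) * C * (1 + ‖y‖)) * A := by
        rw [hA, ← integral_const_mul]
        refine integral_mono (heg.mix y) (hint.const_mul _) fun w => ?_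
        simp only
        rw [← Real.exp_add]
        apply Real.exp_le_exp.2
        have h2 := (abs_le.1 (hC (mix S.lev l y w))).2
        have h3 := norm_mix_le (lev := S.lev) (l := l) y w
        have h4 : S.m (l + 1) * F (mix S.lev l y w) ≤ S.m (l + 1) * (C * (1 + (‖y‖ + ‖w‖))) := by
          refine mul_le_mul_of_nonneg_left (h2.trans ?_) hm.le
          exact mul_le_mul_of_nonneg_left (by linarith) hC0
        linarith only [h4]
      have h2 := Real.log_le_log (hpos y) h1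
      rwa [Real.log_mul (Real.exp_pos _).ne' (by linarith), Real.log_exp] at h2
    have hlo : -(S.m (l + 1) * C * (1 + ‖y‖) + Real.log A) ≤
        Real.log (J S.lev l (fun z => Real.exp (S.m (l + 1) * F z)) y) := by
      have h1 : Real.exp (-(S.m (l + 1) * C * (1 + ‖y‖))) * A⁻¹ ≤
          J S.lev l (fun z => Real.exp (S.m (l + 1) * F z)) y := by
        have hA0 : 0 < A := by linarith
        have h5 : A⁻¹ ≤ ∫ w, Real.exp (-(S.m (l + 1) * C) * ‖w‖) ∂(gI ι) := by
          rw [inv_le_iff_one_le_mul₀ hA0]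
          linarith only [hB]
        refine (mul_le_mul_of_nonneg_left h5 (Real.exp_pos _).le).trans ?_
        rw [← integral_const_mul]
        refine integral_mono (hint2.const_mul _) (heg.mix y) fun w => ?_
        simp only
        rw [← Real.exp_add]
        apply Real.exp_le_exp.2
        have h2 := (abs_le.1 (hC (mix S.lev l y w))).1
        have h3 := norm_mix_le (lev := S.lev) (l := l) y w
        have h4 : S.m (l + 1) * (-(C * (1 + (‖y‖ + ‖w‖)))) ≤ S.m (l + 1) * F (mix S.lev l y w) := by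
          refine mul_le_mul_of_nonneg_left (le_trans ?_ h2) hm.le
          exact neg_le_neg (mul_le_mul_of_nonneg_left (by linarith only [h3]) hC0)
        linarith only [h4]
      have hA0 : 0 < A := by linarith only [hA1]
      have h2 := Real.log_le_log (by positivity) h1
      rw [Real.log_mul (Real.exp_pos _).ne' (by positivity), Real.log_exp, Real.log_inv] at h2
      linarith only [h2]
    rw [abs_mul, abs_of_pos (by positivity : 0 < 1 / S.m (l + 1))]
    have habs : |Real.log (J S.lev l (fun z => Real.exp (S.m (l + 1) * F z)) y)| ≤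
        S.m (l + 1) * C * (1 + ‖y‖) + Real.log A := abs_le.2 ⟨hlo, hup⟩
    calc 1 / S.m (l + 1) * |Real.log (J S.lev l (fun z => Real.exp (S.m (l + 1) * F z)) y)|
        ≤ 1 / S.m (l + 1) * (S.m (l + 1) * C * (1 + ‖y‖) + Real.log A) :=
          mul_le_mul_of_nonneg_left habs (by positivity)
      _ = C * (1 + ‖y‖) + 1 / S.m (l + 1) * Real.log A := by field_simp
      _ ≤ _ := by
          have h9 : 0 ≤ 1 / S.m (l + 1) * Real.log A := by positivity
          nlinarith only [hC0, hy, h9]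

lemma RegG.m_mono (hS : RegG S) {l l' : ℕ} (h : l ≤ l') (hl : l' ≤ S.K + 1) : S.m l ≤ S.m l' := by
  induction l', h using Nat.le_induction with
  | base => exact le_rfl
  | succ n hn ih => exact (ih (by omega)).trans (hS.mono n (by omega))

lemma RegG.m_pos (hS : RegG S) {l : ℕ} (hl : 1 ≤ l) (hl' : l ≤ S.K + 1) : 0 < S.m l :=
  lt_of_lt_of_le hS.pos (hS.m_mono hl hl')

lemma RegG.m_le_one (hS : RegG S) {l : ℕ} (hl : l ≤ S.K + 1) : S.m l ≤ 1 := by
  rw [← hS.mK]
  exact hS.m_mono hl le_rfl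

lemma RegG.gr_lg (hS : RegG S) {l : ℕ} (hl : l ≤ S.K) : LGr (S.lg l) := by
  refine down_ind (P := fun l => LGr (S.lg l)) ?_ ?_ l hl
  · rw [lg_top]
    exact hS.gr_top
  · intro l hl ih
    rw [lg_step S hl]
    exact gc_gr_stp hS ih (hS.m_pos (by omega) (by omega))

lemma RegG.dep_lg (hS : RegG S) {l : ℕ} (hl : l ≤ S.K) : Dep S.lev l (S.lg l) := by
  rcases Nat.lt_or_ge l S.K with h | h
  · rw [lg_step S h]
    intro z w
    unfold stp
    rw [dep_J S.lev l _ z w]
  · have e : l = S.K := le_antisymm hl h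
    subst e
    intro z w
    rw [mix_top hS.lev]

lemma RegG.J_exp_lg (hS : RegG S) {l : ℕ} (hl : l < S.K) (z : ι → ℝ) :
    J S.lev l (fun z => Real.exp (S.m (l + 1) * S.lg (l + 1) z)) z =
      Real.exp (S.m (l + 1) * S.lg l z) := by
  have hm : 0 < S.m (l + 1) := hS.m_pos (by omega) (by omega)
  have heg := (hS.gr_lg (l := l + 1) (by omega)).exp_eg (S.m (l + 1))
  have hpos := J_pos (lev := S.lev) (l := l) heg (fun _ => Real.exp_pos _) z
  have e : S.lg l z = 1 / S.m (l + 1) *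
      Real.log (J S.lev l (fun z => Real.exp (S.m (l + 1) * S.lg (l + 1) z)) z) := by
    rw [lg_step S hl]
    rfl
  rw [e, ← mul_assoc, mul_one_div_cancel hm.ne', one_mul, Real.exp_log hpos]

lemma RegG.integrable_lg (hS : RegG S) {l : ℕ} (hl : l ≤ S.K) : Integrable (S.lg l) (gI ι) :=
  (hS.gr_lg hl).eg.integrable

lemma gc_gr_sum (hS : RegG S) {a b : ℕ} (hb : b ≤ S.K) :
    LGr fun z => ∑ i ∈ Finset.Ico a b, S.m (i + 1) * (S.lg (i + 1) z - S.lg i z) := by
  refine LGr.sum _ fun i hi => ?_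
  rw [Finset.mem_Ico] at hi
  have h1 := hS.gr_lg (l := i + 1) (by omega)
  have h2 := (hS.gr_lg (l := i) (by omega)).const_mul (-1)
  have h3 := (h1.add h2).const_mul (S.m (i + 1))
  have e : (fun z => S.m (i + 1) * (S.lg (i + 1) z - S.lg i z)) =
      fun z => S.m (i + 1) * (S.lg (i + 1) z + -1 * S.lg i z) := by
    funext z
    ring
  rw [e]
  exact h3

lemma RegG.eg_dn (hS : RegG S) {l : ℕ} (_hl : l ≤ S.K) : EG (S.dn l) :=
  gc_eg_exp (gc_gr_sum hS le_rfl)

lemma RegG.J_dn (hS : RegG S) {l : ℕ} (hl : l ≤ S.K) (z : ι → ℝ) : J S.lev l (S.dn l) z = 1 := by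
  revert z
  refine down_ind (P := fun l => ∀ z, J S.lev l (S.dn l) z = 1) ?_ ?_ l hl
  · intro z
    have e : S.dn S.K = fun _ => 1 := funext fun z => dn_top S z
    rw [e, J_const]
  · intro l hl ih z
    have e1 : S.dn l = fun z => Real.exp (S.m (l + 1) * (S.lg (l + 1) z - S.lg l z)) *
        S.dn (l + 1) z := funext fun z => dn_step S hl z
    have heg := hS.eg_dn hl.le
    rw [← J_J (Nat.le_succ l) heg]
    have hdep : Dep S.lev (l + 1) fun z =>
        Real.exp (S.m (l + 1) * (S.lg (l + 1) z - S.lg l z)) := by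
      intro z w
      dsimp only
      rw [hS.dep_lg (l := l + 1) (by omega) z w, (hS.dep_lg hl.le).mono (Nat.le_succ l) z w]
    have e2 : J S.lev l.succ (S.dn l) = fun z =>
        Real.exp (S.m (l + 1) * (S.lg (l + 1) z - S.lg l z)) := by
      funext z
      rw [e1]
      show J S.lev (l + 1) _ z = _
      rw [hdep.J_mul, ih, mul_one]
    rw [e2]
    have e3 : (fun z => Real.exp (S.m (l + 1) * (S.lg (l + 1) z - S.lg l z))) =
        fun z => Real.exp (-(S.m (l + 1) * S.lg l z)) * Real.exp (S.m (l + 1) * S.lg (l + 1) z) := by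
      funext z
      rw [← Real.exp_add]
      congr 1
      ring
    have hdep2 : Dep S.lev l fun z => Real.exp (-(S.m (l + 1) * S.lg l z)) := by
      intro z w
      dsimp only
      rw [hS.dep_lg hl.le z w]
    rw [e3, hdep2.J_mul, hS.J_exp_lg hl, ← Real.exp_add, neg_add_cancel, Real.exp_zero]

lemma RegG.eg_gb (hS : RegG S) (x : X) : EG (fun z => S.gb z x) := by
  refine EG.of_bdd (C := 1) ?_ ?_
  · unfold gb
    exact ((hS.gr x).meas.exp).div
      (Finset.measurable_sum _ fun x' _ => (hS.gr x').meas.exp)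
  · intro y
    rw [abs_of_pos (gb_pos S y x), ← sum_gb S y]
    exact Finset.single_le_sum (f := fun x => S.gb y x) (fun x _ => (gb_pos S y x).le)
      (Finset.mem_univ x)

lemma RegG.eg_av (hS : RegG S) {h : (ι → ℝ) → X → ℝ} (hh : Nh h) : EG (S.av h) :=
  EG.sum _ fun x _ => (hS.eg_gb x).mul (hh x)

lemma RegG.eg_T (hS : RegG S) {l : ℕ} (hl : l ≤ S.K) {h : (ι → ℝ) → X → ℝ} (hh : Nh h) :
    EG (S.T l h) := ((hS.eg_dn hl).mul (hS.eg_av hh)).J _ _

lemma RegG.T_add (hS : RegG S) {l : ℕ} (hl : l ≤ S.K) {f g : (ι → ℝ) → X → ℝ} (hf : Nh f)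
    (hg : Nh g) (z : ι → ℝ) : S.T l (fun z x => f z x + g z x) z = S.T l f z + S.T l g z := by
  unfold T
  rw [← J_add ((hS.eg_dn hl).mul (hS.eg_av hf)) ((hS.eg_dn hl).mul (hS.eg_av hg))]
  congr 1
  funext z
  rw [av_add S, mul_add]

lemma RegG.T_sub (hS : RegG S) {l : ℕ} (hl : l ≤ S.K) {f g : (ι → ℝ) → X → ℝ} (hf : Nh f)
    (hg : Nh g) (z : ι → ℝ) : S.T l (fun z x => f z x - g z x) z = S.T l f z - S.T l g z := by
  unfold T
  rw [← J_sub ((hS.eg_dn hl).mul (hS.eg_av hf)) ((hS.eg_dn hl).mul (hS.eg_av hg))]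
  congr 1
  funext z
  rw [av_sub S, mul_sub]

lemma RegG.T_sum (hS : RegG S) {l : ℕ} (hl : l ≤ S.K) {κ : Type*} (s : Finset κ)
    {f : κ → (ι → ℝ) → X → ℝ} (hf : ∀ i ∈ s, Nh (f i)) (z : ι → ℝ) :
    S.T l (fun z x => ∑ i ∈ s, f i z x) z = ∑ i ∈ s, S.T l (f i) z := by
  unfold T
  rw [← J_sum s fun i hi => (hS.eg_dn hl).mul (hS.eg_av (hf i hi))]
  congr 1
  funext z
  rw [av_sum S, Finset.mul_sum]

lemma RegG.T_fst (hS : RegG S) {l : ℕ} (hl : l ≤ S.K) {φ : (ι → ℝ) → ℝ} (hφ : Dep S.lev l φ)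
    (z : ι → ℝ) : S.T l (fun z _ => φ z) z = φ z := by
  have e : S.T l (fun z _ => φ z) z = J S.lev l (fun z => φ z * S.dn l z) z := by
    unfold T
    congr 1
    funext z
    rw [av_fst S φ, mul_comm]
  rw [e, hφ.J_mul, hS.J_dn hl, mul_one]

lemma RegG.T_const (hS : RegG S) {l : ℕ} (hl : l ≤ S.K) (c : ℝ) (z : ι → ℝ) :
    S.T l (fun _ _ => c) z = c := hS.T_fst hl (φ := fun _ => c) (fun _ _ => rfl) z

lemma RegG.T_mono (hS : RegG S) {l : ℕ} (hl : l ≤ S.K) {f g : (ι → ℝ) → X → ℝ} (hf : Nh f)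
    (hg : Nh g) (h : ∀ z x, f z x ≤ g z x) (z : ι → ℝ) : S.T l f z ≤ S.T l g z :=
  J_mono ((hS.eg_dn hl).mul (hS.eg_av hf)) ((hS.eg_dn hl).mul (hS.eg_av hg))
    (fun z => mul_le_mul_of_nonneg_left (av_mono S (h z)) (dn_pos S l z).le) z

lemma RegG.abs_T_le (hS : RegG S) {l : ℕ} (hl : l ≤ S.K) {f : (ι → ℝ) → X → ℝ} (hf : Nh f)
    {C : ℝ} (h : ∀ z x, |f z x| ≤ C) (z : ι → ℝ) : |S.T l f z| ≤ C := by
  rw [abs_le]
  constructor
  · rw [← hS.T_const hl (-C) z]
    exact hS.T_mono hl (fun _ => EG.const _) hf (fun z x => (abs_le.1 (h z x)).1) z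
  · rw [← hS.T_const hl C z]
    exact hS.T_mono hl hf (fun _ => EG.const _) (fun z x => (abs_le.1 (h z x)).2) z

/-- Jensen. -/
lemma RegG.sq_T_le (hS : RegG S) {l : ℕ} (hl : l ≤ S.K) {f : (ι → ℝ) → X → ℝ} (hf : Nh f)
    (z : ι → ℝ) : S.T l f z ^ 2 ≤ S.T l (fun z x => f z x ^ 2) z := by
  obtain ⟨c, hc⟩ : ∃ c, c = S.T l f z := ⟨_, rfl⟩
  have h0 : 0 ≤ S.T l (fun z x => (f z x - c) ^ 2) z := by
    have h1 := hS.T_mono hl (f := fun _ _ => 0) (g := fun z x => (f z x - c) ^ 2)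
      (fun _ => EG.const _) (Nh.pow (Nh.sub hf (fun _ => EG.const c)) 2)
      (fun z x => sq_nonneg _) z
    rwa [hS.T_const hl] at h1
  have h1 : S.T l (fun z x => (f z x - c) ^ 2) z =
      S.T l (fun z x => f z x ^ 2) z - 2 * c * S.T l f z + c ^ 2 := by
    have e : (fun (z : ι → ℝ) (x : X) => (f z x - c) ^ 2) =
        fun z x => (f z x ^ 2 - 2 * c * f z x) + c ^ 2 := by
      funext z x
      ring
    rw [e, hS.T_add hl (Nh.sub (Nh.pow hf 2) (Nh.const_mul _ hf)) (fun _ => EG.const _),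
      hS.T_sub hl (Nh.pow hf 2) (Nh.const_mul _ hf), T_const_mul, hS.T_const hl]
  rw [h1, ← hc] at h0
  rw [← hc]
  linarith only [h0]

lemma RegG.T_top (hS : RegG S) (f : (ι → ℝ) → X → ℝ) (z : ι → ℝ) : S.T S.K f z = S.av f z := by
  unfold T J
  simp only [mix_top hS.lev, dn_top, one_mul]
  simp

/-- The tower property. -/
lemma RegG.T_T (hS : RegG S) {l l' : ℕ} (hl : l ≤ l') (hl' : l' ≤ S.K) {f : (ι → ℝ) → X → ℝ}
    (hf : Nh f) (z : ι → ℝ) : S.T l (fun z _ => S.T l' f z) z = S.T l f z := by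
  have hll : l ≤ S.K := hl.trans hl'
  obtain ⟨P, hP⟩ : ∃ P : (ι → ℝ) → ℝ, P = fun z =>
    Real.exp (∑ i ∈ Finset.Ico l l', S.m (i + 1) * (S.lg (i + 1) z - S.lg i z)) := ⟨_, rfl⟩
  have hdn : ∀ z, S.dn l z = P z * S.dn l' z := by
    intro z
    rw [hP]
    unfold dn
    rw [← Real.exp_add, Finset.sum_Ico_consecutive _ hl hl']
  have hPd : Dep S.lev l' P := by
    rw [hP]
    intro z w
    dsimp only
    congr 1
    refine Finset.sum_congr rfl fun i hi => ?_
    rw [Finset.mem_Ico] at hi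
    rw [(hS.dep_lg (l := i + 1) (by omega)).mono (show i + 1 ≤ l' by omega) z w,
      (hS.dep_lg (l := i) (by omega)).mono (show i ≤ l' by omega) z w]
  have hPe : EG P := by
    rw [hP]
    exact gc_eg_exp (gc_gr_sum hS hl')
  have hTe := hS.eg_T hl' hf
  have e1 : S.T l (fun z _ => S.T l' f z) z =
      J S.lev l (fun z => (P z * S.T l' f z) * S.dn l' z) z := by
    unfold T
    congr 1
    funext z
    rw [av_fst S (fun z => J S.lev l' (fun z => S.dn l' z * S.av f z) z), hdn]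
    ring
  have e2 : S.T l f z = J S.lev l (fun z => P z * (S.dn l' z * S.av f z)) z := by
    unfold T
    congr 1
    funext z
    rw [hdn]
    ring
  have hd2 : Dep S.lev l' fun z => P z * S.T l' f z := lc_dep_mul hPd (dep_T S l' f)
  rw [e1, e2, ← J_J hl ((hPe.mul hTe).mul (hS.eg_dn hl')),
    ← J_J hl (hPe.mul ((hS.eg_dn hl').mul (hS.eg_av hf)))]
  congr 1
  funext z
  rw [hd2.J_mul, hPd.J_mul, hS.J_dn hl', mul_one]
  rfl

lemma gc_int (hS : RegG S) {f : (ι → ℝ) → X → ℝ} (hf : Nh f) :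
    Integrable (fun z => S.dn 0 z * S.av f z) (gI ι) :=
  ((hS.eg_dn (Nat.zero_le _)).mul (hS.eg_av hf)).integrable

lemma RegG.Ex_add (hS : RegG S) {f g : (ι → ℝ) → X → ℝ} (hf : Nh f) (hg : Nh g) :
    S.Ex (fun z x => f z x + g z x) = S.Ex f + S.Ex g := by
  unfold Ex
  rw [← integral_add (gc_int hS hf) (gc_int hS hg)]
  congr 1
  funext z
  rw [av_add S, mul_add]

lemma RegG.Ex_sub (hS : RegG S) {f g : (ι → ℝ) → X → ℝ} (hf : Nh f) (hg : Nh g) :
    S.Ex (fun z x => f z x - g z x) = S.Ex f - S.Ex g := by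
  unfold Ex
  rw [← integral_sub (gc_int hS hf) (gc_int hS hg)]
  congr 1
  funext z
  rw [av_sub S, mul_sub]

lemma RegG.Ex_sum (hS : RegG S) {κ : Type*} (s : Finset κ) {f : κ → (ι → ℝ) → X → ℝ}
    (hf : ∀ i ∈ s, Nh (f i)) : S.Ex (fun z x => ∑ i ∈ s, f i z x) = ∑ i ∈ s, S.Ex (f i) := by
  unfold Ex
  rw [← integral_finsetSum s fun i hi => gc_int hS (hf i hi)]
  congr 1
  funext z
  rw [av_sum S, Finset.mul_sum]

lemma gc_Ex_T0 (hS : RegG S) {f : (ι → ℝ) → X → ℝ} (hf : Nh f) :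
    S.Ex f = ∫ z, S.T 0 f z ∂(gI ι) :=
  (integral_J ((hS.eg_dn (Nat.zero_le _)).mul (hS.eg_av hf))).symm

lemma RegG.Ex_const (hS : RegG S) (c : ℝ) : S.Ex (fun _ _ => c) = c := by
  rw [gc_Ex_T0 hS (fun _ => EG.const c)]
  simp only [hS.T_const (Nat.zero_le _)]
  simp

lemma RegG.Ex_mono (hS : RegG S) {f g : (ι → ℝ) → X → ℝ} (hf : Nh f) (hg : Nh g)
    (h : ∀ z x, f z x ≤ g z x) : S.Ex f ≤ S.Ex g :=
  integral_mono (gc_int hS hf) (gc_int hS hg)
    fun z => mul_le_mul_of_nonneg_left (av_mono S (h z)) (dn_pos S 0 z).le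

lemma RegG.abs_Ex_le (hS : RegG S) {f : (ι → ℝ) → X → ℝ} (hf : Nh f) :
    |S.Ex f| ≤ S.Ex (fun z x => |f z x|) := by
  rw [abs_le]
  constructor
  · have h := hS.Ex_mono (f := fun z x => -1 * |f z x|) (Nh.const_mul (-1) (Nh.abs hf)) hf
      (fun z x => by
        have := neg_abs_le (f z x)
        linarith)
    rw [Ex_const_mul] at h
    linarith only [h]
  · exact hS.Ex_mono hf (Nh.abs hf) fun z x => le_abs_self _

/-- Cauchy-Schwarz. -/
lemma RegG.Ex_cs (hS : RegG S) {f g : (ι → ℝ) → X → ℝ} (hf : Nh f) (hg : Nh g) :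
    S.Ex (fun z x => f z x * g z x) ^ 2 ≤
      S.Ex (fun z x => f z x ^ 2) * S.Ex (fun z x => g z x ^ 2) := by
  have h0 : ∀ t : ℝ, 0 ≤ S.Ex (fun z x => g z x ^ 2) * (t * t) +
      (-2 * S.Ex (fun z x => f z x * g z x)) * t + S.Ex (fun z x => f z x ^ 2) := by
    intro t
    have h1 : 0 ≤ S.Ex (fun z x => (f z x - t * g z x) ^ 2) := by
      have h2 := hS.Ex_mono (f := fun _ _ => 0) (g := fun z x => (f z x - t * g z x) ^ 2)
        (fun _ => EG.const _) (Nh.pow (Nh.sub hf (Nh.const_mul t hg)) 2)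
        (fun z x => sq_nonneg _)
      rwa [hS.Ex_const] at h2
    have h2 : S.Ex (fun z x => (f z x - t * g z x) ^ 2) = S.Ex (fun z x => f z x ^ 2) -
        2 * t * S.Ex (fun z x => f z x * g z x) + t * t * S.Ex (fun z x => g z x ^ 2) := by
      have e : (fun (z : ι → ℝ) (x : X) => (f z x - t * g z x) ^ 2) =
          fun z x => (f z x ^ 2 - 2 * t * (f z x * g z x)) + t * t * g z x ^ 2 := by
        funext z x
        ring
      rw [e, hS.Ex_add (Nh.sub (Nh.pow hf 2) (Nh.const_mul _ (Nh.mul hf hg)))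
        (Nh.const_mul _ (Nh.pow hg 2)), hS.Ex_sub (Nh.pow hf 2) (Nh.const_mul _ (Nh.mul hf hg)),
        Ex_const_mul, Ex_const_mul]
    rw [h2] at h1
    linarith only [h1]
  have h3 := discrim_le_zero h0
  unfold discrim at h3
  linarith only [h3]

lemma RegG.Ex_T (hS : RegG S) {l : ℕ} (hl : l ≤ S.K) {f : (ι → ℝ) → X → ℝ} (hf : Nh f) :
    S.Ex (fun z _ => S.T l f z) = S.Ex f := by
  rw [gc_Ex_T0 hS (fun _ => hS.eg_T hl hf), gc_Ex_T0 hS hf]
  simp only [hS.T_T (Nat.zero_le _) hl hf]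

lemma RegG.Ex_mul_T (hS : RegG S) {l : ℕ} (hl : l ≤ S.K) {φ : (ι → ℝ) → ℝ} (hφ : Dep S.lev l φ)
    (hφe : EG φ) {f : (ι → ℝ) → X → ℝ} (hf : Nh f) :
    S.Ex (fun z _ => φ z * S.T l f z) = S.Ex (fun z x => φ z * f z x) := by
  rw [← hS.Ex_T hl (f := fun z x => φ z * f z x) (fun x => hφe.mul (hf x))]
  congr 1
  funext z _
  rw [T_mul_left S hφ]

end Vale.Agent.P166.H
end
end

section

section

/-!
Derivatives of the log-weights and of the tilted averages (energies of linear growth, derivatives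
of exponential growth). The proofs are the ones of `LvIBP`.
-/

open MeasureTheory ProbabilityTheory Filter Topology
open Vale.Agent.P157.Lv Vale.Agent.P157.Lv.Sy

namespace Vale.Agent.P166.H

set_option linter.unusedSectionVars false

variable {ι X : Type} [Fintype ι] [DecidableEq ι] [Fintype X]

/-- Regularity of a system with the partial derivative `D` of the energy in the coordinate `e`,
of exponential growth. -/
structure RegE (S : Sy ι X) (e : ι) (D : (ι → ℝ) → X → ℝ) : Prop extends RegG S where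
  pd : ∀ x, PD e (fun z => S.H z x) (fun z => D z x)
  eg : Nh D

variable [Nonempty X] {S : Sy ι X} {e : ι} {D : (ι → ℝ) → X → ℝ}

lemma RegE.nh (hS : RegE S e D) : Nh D := hS.eg

/-- The derivative of the log-partition function. -/
lemma RegE.pd_top (hS : RegE S e D) : PD e S.top (S.av D) := by
  have h1 : PD e (fun z => ∑ x, Real.exp (S.H z x)) (fun z => ∑ x, Real.exp (S.H z x) * D z x) :=
    PD.sum Finset.univ fun x _ => (hS.pd x).exp
  refine (h1.log fun z => (sum_exp_pos z).ne').congr fun z => ?_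
  simp only [av, gb, Finset.sum_div]
  exact Finset.sum_congr rfl fun x _ => by ring

/-- One step of the tilted conditional averages. -/
lemma RegG.T_step (hS : RegG S) {l : ℕ} (hl : l < S.K) {h : (ι → ℝ) → X → ℝ} (hh : Nh h)
    (z : ι → ℝ) : S.T l h z =
      J S.lev l (fun z => Real.exp (S.m (l + 1) * (S.lg (l + 1) z - S.lg l z)) *
        S.T (l + 1) h z) z := by
  have hEG : EG (fun z => S.dn l z * S.av h z) := (hS.eg_dn hl.le).mul (hS.eg_av hh)
  have hdep : Dep S.lev (l + 1) (fun z => Real.exp (S.m (l + 1) * (S.lg (l + 1) z - S.lg l z))) := by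
    intro z w
    have h1 := hS.dep_lg (l := l + 1) hl z w
    have h2 := (hS.dep_lg (l := l) hl.le).mono (Nat.le_succ l) z w
    simp only [h1, h2]
  have key : J S.lev (l + 1) (fun z => S.dn l z * S.av h z) =
      fun z => Real.exp (S.m (l + 1) * (S.lg (l + 1) z - S.lg l z)) * S.T (l + 1) h z := by
    funext z
    have := hdep.J_mul (fun z => S.dn (l + 1) z * S.av h z) z
    rw [T, ← this]
    congr 1
    funext z
    rw [dn_step S hl z]
    ring
  rw [← key]
  exact (J_J (Nat.le_succ l) hEG z).symm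

/-- `∂_e X_l = T_l(∂_e H)`, for the coordinates of level at most `l`. -/
theorem RegE.pd_lg (hS : RegE S e D) {l : ℕ} (hl : l ≤ S.K) (he : S.lev e ≤ l) :
    PD e (S.lg l) (S.T l D) := by
  revert he
  refine down_ind (P := fun l => S.lev e ≤ l → PD e (S.lg l) (S.T l D)) ?_ ?_ l hl
  · intro _
    rw [lg_top]
    exact (hS.pd_top).congr fun z => (hS.toRegG.T_top D z).symm
  · intro l hl ih he
    have h1 := ih (he.trans (Nat.le_succ l))
    have hm : 0 < S.m (l + 1) := hS.toRegG.m_pos (Nat.succ_le_succ (Nat.zero_le l)) (by omega)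
    have hLip := hS.toRegG.gr_lg (l := l + 1) hl
    have hEGe : EG (fun z => Real.exp (S.m (l + 1) * S.lg (l + 1) z)) := hLip.exp_eg _
    have hEGT : EG (S.T (l + 1) D) := hS.toRegG.eg_T hl (hS.nh)
    have h2 : PD e (J S.lev l (fun z => Real.exp (S.m (l + 1) * S.lg (l + 1) z)))
        (J S.lev l (fun z => Real.exp (S.m (l + 1) * S.lg (l + 1) z) *
          (S.m (l + 1) * S.T (l + 1) D z))) :=
      PD.J (h1.const_mul (S.m (l + 1))).exp hEGe (hEGe.mul (hEGT.const_mul _)) he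
    have hne : ∀ z, J S.lev l (fun z => Real.exp (S.m (l + 1) * S.lg (l + 1) z)) z ≠ 0 :=
      fun z => by rw [hS.toRegG.J_exp_lg hl z]; exact (Real.exp_pos _).ne'
    have h3 := (h2.log hne).const_mul (1 / S.m (l + 1))
    rw [lg_step S hl]
    refine PD.congr (H := S.stp l (S.lg (l + 1))) h3 fun z => ?_
    rw [hS.toRegG.J_exp_lg hl z, hS.toRegG.T_step hl (hS.nh) z]
    have hdep : Dep S.lev l (fun z => Real.exp (-(S.m (l + 1) * S.lg l z))) := by
      intro z w
      have h2 := (hS.toRegG.dep_lg (l := l) hl.le) z w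
      simp only [h2]
    have h4 := hdep.J_mul (fun z => Real.exp (S.m (l + 1) * S.lg (l + 1) z) *
      (S.m (l + 1) * S.T (l + 1) D z)) z
    have h5 : J S.lev l (fun z => Real.exp (-(S.m (l + 1) * S.lg l z)) *
        (Real.exp (S.m (l + 1) * S.lg (l + 1) z) * (S.m (l + 1) * S.T (l + 1) D z))) z =
        S.m (l + 1) * J S.lev l (fun z => Real.exp (S.m (l + 1) * (S.lg (l + 1) z - S.lg l z)) *
        S.T (l + 1) D z) z := by
      rw [← J_const_mul]
      congr 1
      funext z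
      have : Real.exp (S.m (l + 1) * (S.lg (l + 1) z - S.lg l z)) =
          Real.exp (-(S.m (l + 1) * S.lg l z)) * Real.exp (S.m (l + 1) * S.lg (l + 1) z) := by
        rw [← Real.exp_add]; congr 1; ring
      rw [this]; ring
    have h6 := h4.symm.trans h5
    rw [Real.exp_neg] at h6
    rw [div_mul_eq_mul_div, one_mul, div_div, div_eq_iff (by positivity)]
    rw [inv_mul_eq_div, div_eq_iff (Real.exp_pos _).ne'] at h6
    rw [h6]; ring

/-- Derivative of the Gibbs weights. -/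
theorem RegE.pd_gb (hS : RegE S e D) (x : X) :
    PD e (fun z => S.gb z x) (fun z => S.gb z x * (D z x - S.T S.K D z)) := by
  have h1 : PD e (fun z => ∑ x, Real.exp (S.H z x)) (fun z => ∑ x, Real.exp (S.H z x) * D z x) :=
    PD.sum Finset.univ fun x _ => (hS.pd x).exp
  refine ((hS.pd x).exp.div h1 fun z => (sum_exp_pos z).ne').congr fun z => ?_
  rw [hS.toRegG.T_top]
  have h0 := (sum_exp_pos (S := S) z).ne'
  have h2 : S.av D z = (∑ x, Real.exp (S.H z x) * D z x) / ∑ x, Real.exp (S.H z x) := by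
    simp only [av, gb, Finset.sum_div]
    exact Finset.sum_congr rfl fun x _ => by ring
  rw [h2, gb]
  field_simp

/-- The derivative of the full density `dn l * gb`, for coordinates of level at most `l`. -/
theorem RegE.pd_dn (hS : RegE S e D) {l : ℕ} (hl : l ≤ S.K) (he : S.lev e ≤ l) :
    PD e (S.dn l) (fun z => S.dn l z * (S.T S.K D z -
      ∑ i ∈ Finset.Ico (l + 1) (S.K + 1), S.p i * S.T i D z - S.m (l + 1) * S.T l D z)) := by
  have h1 : PD e (fun z => ∑ i ∈ Finset.Ico l S.K, S.m (i + 1) * (S.lg (i + 1) z - S.lg i z))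
      (fun z => ∑ i ∈ Finset.Ico l S.K, S.m (i + 1) * (S.T (i + 1) D z - S.T i D z)) := by
    refine PD.sum _ fun i hi => ?_
    obtain ⟨hi1, hi2⟩ := Finset.mem_Ico.1 hi
    exact ((hS.pd_lg (l := i + 1) hi2 (by omega)).sub
      (hS.pd_lg (l := i) hi2.le (by omega))).const_mul _
  refine h1.exp.congr fun z => ?_
  rw [abel S.m (fun i => S.T i D z) hl, hS.mK, one_mul]
  rfl

/-- The derivative of the density for a coordinate of any level. -/
lemma RegE.pd_dn_zero (hS : RegE S e D) :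
    PD e (S.dn 0) (fun z => S.dn 0 z * (S.T S.K D z -
      ∑ i ∈ Finset.Ico (S.lev e) (S.K + 1), S.p i * S.T i D z)) := by
  have hlg : ∀ i ≤ S.K, PD e (S.lg i) (fun z => if S.lev e ≤ i then S.T i D z else 0) := by
    intro i hi
    by_cases he : S.lev e ≤ i
    · simp only [he, if_true]
      exact hS.pd_lg hi he
    · simp only [he, if_false]
      exact (hS.toRegG.dep_lg hi).pd (not_le.1 he)
  have h1 : PD e (fun z => ∑ i ∈ Finset.Ico 0 S.K, S.m (i + 1) * (S.lg (i + 1) z - S.lg i z))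
      (fun z => ∑ i ∈ Finset.Ico 0 S.K, S.m (i + 1) *
        ((if S.lev e ≤ i + 1 then S.T (i + 1) D z else 0) -
          (if S.lev e ≤ i then S.T i D z else 0))) := by
    refine PD.sum _ fun i hi => ?_
    obtain ⟨_, hi2⟩ := Finset.mem_Ico.1 hi
    exact ((hlg (i + 1) hi2).sub (hlg i hi2.le)).const_mul _
  refine h1.exp.congr fun z => ?_
  rw [abel S.m (fun i => if S.lev e ≤ i then S.T i D z else 0) (Nat.zero_le S.K), hS.mK,
    one_mul, if_pos (hS.lev e)]
  have h2 : ∑ i ∈ Finset.Ico (S.lev e) (S.K + 1), S.p i * S.T i D z =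
      ∑ i ∈ Finset.Ico 0 (S.K + 1), S.p i * (if S.lev e ≤ i then S.T i D z else 0) := by
    have : Finset.Ico (S.lev e) (S.K + 1) =
        (Finset.Ico 0 (S.K + 1)).filter fun i => S.lev e ≤ i := by
      ext i; simp only [Finset.mem_Ico, Finset.mem_filter]; omega
    rw [this, Finset.sum_filter]
    exact Finset.sum_congr rfl fun i _ => by split_ifs <;> simp
  have h3 := Finset.sum_eq_sum_Ico_succ_bot (Nat.succ_pos S.K)
    (fun i => S.p i * (if S.lev e ≤ i then S.T i D z else 0))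
  rw [h2]
  have h4 : S.p 0 = S.m (0 + 1) := by simp [p, hS.m0]
  rw [h3, h4]
  simp only [p, dn]
  ring

/-- The derivative of a Gibbs average multiplied by a function. -/
lemma RegE.pd_mul_av (hS : RegE S e D) {Y A : (ι → ℝ) → ℝ}
    (hY : PD e Y (fun z => Y z * (S.T S.K D z - A z)))
    {h h' : (ι → ℝ) → X → ℝ} (hd : ∀ x, PD e (fun z => h z x) (fun z => h' z x)) :
    PD e (fun z => Y z * S.av h z)
      (fun z => Y z * S.av (fun z x => h' z x + h z x * (D z x - A z)) z) := by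
  have h1 : PD e (S.av h) (fun z => ∑ x, (S.gb z x * (D z x - S.T S.K D z) * h z x +
      S.gb z x * h' z x)) :=
    PD.sum Finset.univ fun x _ => (hS.pd_gb x).mul (hd x)
  refine (hY.mul h1).congr fun z => ?_
  simp only [av, Finset.mul_sum]
  rw [← Finset.sum_add_distrib]
  exact Finset.sum_congr rfl fun x _ => by ring

/-- Derivative of a tilted average. -/
theorem RegE.pd_T (hS : RegE S e D) {l : ℕ} (hl : l ≤ S.K) (he : S.lev e ≤ l)
    {h h' : (ι → ℝ) → X → ℝ} (hd : ∀ x, PD e (fun z => h z x) (fun z => h' z x)) (hh : Nh h)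
    (hh' : Nh h') :
    PD e (S.T l h) (S.T l (fun z x => h' z x + h z x * (D z x -
      ∑ i ∈ Finset.Ico (l + 1) (S.K + 1), S.p i * S.T i D z - S.m (l + 1) * S.T l D z))) := by
  have hT : ∀ i ≤ S.K, EG (S.T i D) := fun i hi => hS.toRegG.eg_T hi (hS.nh)
  have hA : EG (fun z => ∑ i ∈ Finset.Ico (l + 1) (S.K + 1), S.p i * S.T i D z) :=
    EG.sum _ fun i hi => (hT i (by have := Finset.mem_Ico.1 hi; omega)).const_mul _
  have hB : EG (fun z => S.m (l + 1) * S.T l D z) := (hT l hl).const_mul _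
  have hN : Nh (fun z x => h' z x + h z x * (D z x -
      ∑ i ∈ Finset.Ico (l + 1) (S.K + 1), S.p i * S.T i D z - S.m (l + 1) * S.T l D z)) :=
    Nh.add hh' (Nh.mul hh (Nh.sub (Nh.sub (hS.nh) (Nh.fst hA)) (Nh.fst hB)))
  have h1 : PD e (fun z => S.dn l z * S.av h z) (fun z => S.dn l z * S.av (fun z x =>
      h' z x + h z x * (D z x - ∑ i ∈ Finset.Ico (l + 1) (S.K + 1), S.p i * S.T i D z -
        S.m (l + 1) * S.T l D z)) z) := by
    have h2 := hS.pd_mul_av (A := fun z => ∑ i ∈ Finset.Ico (l + 1) (S.K + 1),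
      S.p i * S.T i D z + S.m (l + 1) * S.T l D z)
      ((hS.pd_dn hl he).congr fun z => by rw [sub_sub]) hd
    refine h2.congr fun z => ?_
    simp only [sub_sub]
  exact PD.J h1 ((hS.toRegG.eg_dn hl).mul (hS.toRegG.eg_av hh))
    ((hS.toRegG.eg_dn hl).mul (hS.toRegG.eg_av hN)) he

/-- **Integration by parts.** -/
theorem RegE.ibp (hS : RegE S e D) {h h' : (ι → ℝ) → X → ℝ}
    (hd : ∀ x, PD e (fun z => h z x) (fun z => h' z x)) (hh : Nh h) (hh' : Nh h') :
    S.Ex (fun z x => z e * h z x) = S.Ex (fun z x => h' z x + h z x * (D z x -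
      ∑ l ∈ Finset.Ico (S.lev e) (S.K + 1), S.p l * S.T l D z)) := by
  have hT : ∀ i ≤ S.K, EG (S.T i D) := fun i hi => hS.toRegG.eg_T hi (hS.nh)
  have hA : EG (fun z => ∑ i ∈ Finset.Ico (S.lev e) (S.K + 1), S.p i * S.T i D z) :=
    EG.sum _ fun i hi => (hT i (by have := Finset.mem_Ico.1 hi; omega)).const_mul _
  have hN : Nh (fun z x => h' z x + h z x * (D z x -
      ∑ i ∈ Finset.Ico (S.lev e) (S.K + 1), S.p i * S.T i D z)) :=
    Nh.add hh' (Nh.mul hh (Nh.sub (hS.nh) (Nh.fst hA)))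
  have h1 := hS.pd_mul_av (hS.pd_dn_zero) hd
  have h2 := PD.stein h1 ((hS.toRegG.eg_dn (Nat.zero_le _)).mul (hS.toRegG.eg_av hh))
    ((hS.toRegG.eg_dn (Nat.zero_le _)).mul (hS.toRegG.eg_av hN))
  rw [Ex, Ex, ← h2]
  congr 1
  funext z
  rw [av_mul_left S (fun z => z e) h z]
  ring


end Vale.Agent.P166.H
end
end

section

section

/-!
Families of systems depending on a real parameter: the parameter is an extra coordinate of level
zero. Derivative of the tilted averages with respect to the parameter.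
-/

open MeasureTheory ProbabilityTheory Filter Topology
open Vale.Agent.P157.Lv Vale.Agent.P157.Lv.Sy

namespace Vale.Agent.P166.H

set_option linter.unusedSectionVars false

variable {ι X : Type} [Fintype ι]

/-- The coordinates without the parameter. -/
def rs (y : Option ι → ℝ) : ι → ℝ := fun e => y (some e)

/-- The point with parameter `θ` and coordinates `z`. -/
def cn (θ : ℝ) (z : ι → ℝ) : Option ι → ℝ := fun o => o.elim θ z

@[simp] lemma cn_none (θ : ℝ) (z : ι → ℝ) : cn θ z none = θ := rfl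
@[simp] lemma cn_some (θ : ℝ) (z : ι → ℝ) (e : ι) : cn θ z (some e) = z e := rfl
@[simp] lemma rs_cn (θ : ℝ) (z : ι → ℝ) : rs (cn θ z) = z := rfl
@[simp] lemma cn_rs (y : Option ι → ℝ) : cn (y none) (rs y) = y := by
  funext o; cases o <;> rfl

lemma measurable_rs : Measurable (rs : (Option ι → ℝ) → (ι → ℝ)) :=
  measurable_pi_lambda _ fun e => measurable_pi_apply (some e)

lemma measurable_cn (θ : ℝ) : Measurable (cn θ : (ι → ℝ) → (Option ι → ℝ)) :=
  measurable_pi_lambda _ fun o => by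
    cases o with
    | none => exact measurable_const
    | some e => exact measurable_pi_apply e

lemma map_rs : (gI (Option ι)).map rs = gI ι := by
  symm
  refine Measure.pi_eq fun s hs => ?_
  rw [Measure.map_apply measurable_rs (MeasurableSet.univ_pi hs)]
  have h : (rs ⁻¹' (Set.univ.pi s) : Set (Option ι → ℝ)) =
      Set.univ.pi (fun o : Option ι => o.elim Set.univ s) := by
    ext y
    simp only [Set.mem_preimage, Set.mem_pi, Set.mem_univ, true_implies, rs]
    constructor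
    · intro hy o
      cases o with
      | none => trivial
      | some e => exact hy e
    · intro hy e
      exact hy (some e)
  rw [h, Measure.pi_pi, Fintype.prod_option]
  simp

lemma norm_cn_le (θ : ℝ) (z : ι → ℝ) : ‖cn θ z‖ ≤ |θ| + ‖z‖ := by
  rw [pi_norm_le_iff_of_nonneg (by positivity)]
  intro o
  cases o with
  | none => simp [norm_nonneg]
  | some e =>
    have := norm_le_pi_norm z e
    simp only [cn_some]
    linarith [abs_nonneg θ]

lemma EG.cn {g : (Option ι → ℝ) → ℝ} (hg : EG g) (θ : ℝ) : EG fun z => g (cn θ z) := by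
  refine ⟨hg.meas.comp (measurable_cn θ), ?_⟩
  obtain ⟨C, a, hC, ha, h⟩ := hg.bdd
  refine ⟨C * Real.exp (a * |θ|), a, by positivity, ha, fun z => (h _).trans ?_⟩
  rw [mul_assoc, ← Real.exp_add]
  refine mul_le_mul_of_nonneg_left (Real.exp_le_exp.2 ?_) hC
  have := mul_le_mul_of_nonneg_left (norm_cn_le θ z) ha
  linarith

lemma LGr.cn {g : (Option ι → ℝ) → ℝ} (hg : LGr g) (θ : ℝ) : LGr fun z => g (H.cn θ z) := by
  refine ⟨hg.meas.comp (measurable_cn θ), ?_⟩
  obtain ⟨C, hC, h⟩ := hg.bdd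
  refine ⟨C * (1 + |θ|), by positivity, fun z => (h _).trans ?_⟩
  have h1 := norm_cn_le θ z
  have h2 := norm_nonneg z
  have h3 := abs_nonneg θ
  have h4 : 1 + ‖H.cn θ z‖ ≤ (1 + |θ|) * (1 + ‖z‖) := by nlinarith
  calc C * (1 + ‖H.cn θ z‖) ≤ C * ((1 + |θ|) * (1 + ‖z‖)) := mul_le_mul_of_nonneg_left h4 hC
    _ = _ := by ring

/-- The system with the parameter. -/
def fam (S : Sy ι X) (H : ℝ → (ι → ℝ) → X → ℝ) : Sy (Option ι) X where
  lev := fun o => o.elim 0 S.lev
  K := S.K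
  m := S.m
  H := fun y x => H (y none) (rs y) x

lemma mix_fam (lev : ι → ℕ) (l : ℕ) (y w : Option ι → ℝ) :
    mix (fun o : Option ι => o.elim 0 lev) l y w = cn (y none) (mix lev l (rs y) (rs w)) := by
  funext o
  cases o with
  | none => simp [mix]
  | some e => rfl

lemma J_fam (lev : ι → ℕ) (l : ℕ) {g : (Option ι → ℝ) → ℝ} (hg : Measurable g)
    (y : Option ι → ℝ) : J (fun o : Option ι => o.elim 0 lev) l g y =
      J lev l (fun z => g (cn (y none) z)) (rs y) := by
  unfold J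
  simp only [mix_fam]
  rw [← map_rs (ι := ι), integral_map measurable_rs.aemeasurable]
  exact (hg.comp ((measurable_cn _).comp (measurable_mix_right lev l (rs y)))).aestronglyMeasurable

variable [Fintype X] [Nonempty X] {S : Sy ι X} {H : ℝ → (ι → ℝ) → X → ℝ}

lemma RegG.sec (hF : RegG (fam S H)) (θ : ℝ) : RegG (S.wH (H θ)) :=
  ⟨hF.m0, hF.mK, hF.mono, hF.pos, fun e => hF.lev (some e), fun x => LGr.cn (hF.gr x) θ⟩

lemma lg_fam (hF : RegG (fam S H)) {l : ℕ} (hl : l ≤ S.K) (y : Option ι → ℝ) :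
    (fam S H).lg l y = (S.wH (H (y none))).lg l (rs y) := by
  revert y
  refine down_ind (K := S.K) (P := fun l => ∀ y : Option ι → ℝ,
    (fam S H).lg l y = (S.wH (H (y none))).lg l (rs y)) ?_ ?_ l hl
  · intro y
    have h1 := congrFun (lg_top (fam S H)) y
    have h2 := congrFun (lg_top (S.wH (H (y none)))) (rs y)
    have e1 : (fam S H).K = S.K := rfl
    have e2 : (S.wH (H (y none))).K = S.K := rfl
    rw [e1] at h1
    rw [e2] at h2
    rw [h1, h2]
    rfl
  · intro l hl ih y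
    have h1 := congrFun (lg_step (fam S H) (l := l) hl) y
    have h2 := congrFun (lg_step (S.wH (H (y none))) (l := l) hl) (rs y)
    rw [h1, h2]
    unfold stp
    have hmeas : Measurable fun z => Real.exp ((fam S H).m (l + 1) * (fam S H).lg (l + 1) z) :=
      ((hF.gr_lg (l := l + 1) hl).meas.const_mul _).exp
    have h3 := J_fam S.lev l hmeas y
    have e3 : (fun z => Real.exp ((fam S H).m (l + 1) * (fam S H).lg (l + 1) (cn (y none) z))) =
        fun z => Real.exp (S.m (l + 1) * (S.wH (H (y none))).lg (l + 1) z) := by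
      funext z
      rw [ih (cn (y none) z)]
      rfl
    rw [e3] at h3
    show 1 / S.m (l + 1) * Real.log (J (fun o : Option ι => o.elim 0 S.lev) l _ y) = _
    rw [h3]
    rfl

lemma dn_fam (hF : RegG (fam S H)) (l : ℕ) (y : Option ι → ℝ) :
    (fam S H).dn l y = (S.wH (H (y none))).dn l (rs y) := by
  unfold dn
  congr 1
  refine Finset.sum_congr rfl fun i hi => ?_
  have hi2 : i < S.K := (Finset.mem_Ico.1 hi).2
  rw [lg_fam hF (l := i + 1) hi2, lg_fam hF (l := i) hi2.le]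
  rfl

lemma av_fam (h : (Option ι → ℝ) → X → ℝ) (y : Option ι → ℝ) :
    (fam S H).av h y = (S.wH (H (y none))).av (fun z x => h (cn (y none) z) x) (rs y) := by
  unfold av
  simp only [cn_rs]
  rfl

lemma T_fam (hF : RegG (fam S H)) {l : ℕ} (hl : l ≤ S.K) {h : (Option ι → ℝ) → X → ℝ} (hh : Nh h)
    (y : Option ι → ℝ) :
    (fam S H).T l h y = (S.wH (H (y none))).T l (fun z x => h (cn (y none) z) x) (rs y) := by
  unfold T
  have hmeas : Measurable fun z => (fam S H).dn l z * (fam S H).av h z :=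
    ((hF.eg_dn (l := l) hl).mul (hF.eg_av hh)).meas
  have h3 := J_fam S.lev l hmeas y
  show J (fun o : Option ι => o.elim 0 S.lev) l _ y = _
  rw [h3]
  show J S.lev l _ _ = J S.lev l _ _
  congr 1
  funext z
  rw [dn_fam hF l (cn (y none) z), av_fam h (cn (y none) z)]
  simp

/-- The derivative of the energy with respect to the parameter is `D`. -/
theorem hasDerivAt_Ex [DecidableEq ι] {D : (Option ι → ℝ) → X → ℝ}
    (hF : RegE (fam S H) none D) {G G' : (Option ι → ℝ) → X → ℝ}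
    (hd : ∀ x, PD none (fun y => G y x) (fun y => G' y x)) (hG : Nh G) (hG' : Nh G') (θ : ℝ) :
    HasDerivAt (fun θ => (S.wH (H θ)).Ex (fun z x => G (cn θ z) x))
      ((S.wH (H θ)).Ex (fun z x => G' (cn θ z) x + G (cn θ z) x * (D (cn θ z) x -
        ∑ i ∈ Finset.Ico 0 (S.K + 1), S.p i *
          (S.wH (H θ)).T i (fun z x => D (cn θ z) x) z))) θ := by
  have hR := hF.toRegG
  -- the tilted average as an integral of `T 0`
  have hT := hF.pd_T (l := 0) (Nat.zero_le _) (le_refl _) hd hG hG'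
  have hEG1 : EG ((fam S H).T 0 G) := hR.eg_T (Nat.zero_le _) hG
  set Q : (Option ι → ℝ) → X → ℝ := fun z x => G' z x + G z x * (D z x -
      ∑ i ∈ Finset.Ico (0 + 1) ((fam S H).K + 1), (fam S H).p i * (fam S H).T i D z -
        (fam S H).m (0 + 1) * (fam S H).T 0 D z) with hQdef
  have hTi : ∀ i ≤ S.K, EG ((fam S H).T i D) := fun i hi => hR.eg_T hi (hF.nh)
  have hA : EG (fun z => ∑ i ∈ Finset.Ico (0 + 1) ((fam S H).K + 1),
      (fam S H).p i * (fam S H).T i D z) :=
    EG.sum _ fun i hi => (hTi i (by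
      have := (Finset.mem_Ico.1 hi).2
      have e : (fam S H).K = S.K := rfl
      omega)).const_mul _
  have hQ : Nh Q := Nh.add hG' (Nh.mul hG (Nh.sub (Nh.sub (hF.nh) (Nh.fst hA))
    (Nh.fst ((hTi 0 (Nat.zero_le _)).const_mul _))))
  have hEG2 : EG ((fam S H).T 0 Q) := hR.eg_T (Nat.zero_le _) hQ
  -- integrate over all the coordinates but the parameter
  have hJ := PD.J hT hEG1 hEG2 (lev := fun o : Option ι => o.elim 0 fun _ => 1) (l := 0)
    (e := none) (le_refl _)
  have key : ∀ {g : (Option ι → ℝ) → ℝ} (_ : Measurable g) (y : Option ι → ℝ),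
      J (fun o : Option ι => o.elim 0 fun _ => 1) 0 g y = ∫ z, g (cn (y none) z) ∂(gI ι) := by
    intro g hg y
    rw [J_fam (fun _ => 1) 0 hg y]
    unfold J
    congr 1
  have h0 : ∀ (θ : ℝ) {h : (Option ι → ℝ) → X → ℝ}, Nh h →
      ∫ z, (fam S H).T 0 h (cn θ z) ∂(gI ι) = (S.wH (H θ)).Ex (fun z x => h (cn θ z) x) := by
    intro θ h hh
    have hsec := RegG.sec hR θ
    rw [gc_Ex_T0 hsec (f := fun z x => h (cn θ z) x) (fun x => EG.cn (hh x) θ)]
    congr 1
    funext z
    rw [T_fam hR (Nat.zero_le _) hh]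
    rfl
  have h1 := hJ (cn θ (0 : ι → ℝ)) θ
  have hupd : ∀ t : ℝ, Function.update (cn θ (0 : ι → ℝ)) none t = cn t 0 := by
    intro t
    funext o
    cases o with
    | none => simp
    | some e => simp
  simp only [hupd] at h1
  simp only [key hEG1.meas, key hEG2.meas, cn_none, h0 _ hG, h0 _ hQ] at h1
  convert h1 using 1
  congr 1
  funext z x
  rw [hQdef]
  simp only
  congr 2
  have e0 : S.p 0 = S.m (0 + 1) := by
    have : (fam S H).m 0 = 0 := hR.m0
    have e : (fam S H).m 0 = S.m 0 := rfl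
    simp only [p]
    rw [← e, this]; ring
  rw [Finset.sum_eq_sum_Ico_succ_bot (Nat.succ_pos S.K)]
  have eT : ∀ i ≤ S.K, (fam S H).T i D (cn θ z) =
      (S.wH (H θ)).T i (fun z x => D (cn θ z) x) z := by
    intro i hi
    rw [T_fam hR hi (hF.nh)]
    rfl
  rw [eT 0 (Nat.zero_le _), e0]
  have e2 : ∑ i ∈ Finset.Ico (0 + 1) ((fam S H).K + 1), (fam S H).p i * (fam S H).T i D (cn θ z) =
      ∑ i ∈ Finset.Ico (0 + 1) (S.K + 1), S.p i *
        (S.wH (H θ)).T i (fun z x => D (cn θ z) x) z := by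
    refine Finset.sum_congr rfl fun i hi => ?_
    rw [eT i (by have := (Finset.mem_Ico.1 hi).2; omega)]
    rfl
  rw [e2]
  have e3 : (fam S H).m (0 + 1) = S.m (0 + 1) := rfl
  rw [e3, Nat.succ_eq_add_one]
  ring

end Vale.Agent.P166.H
end
end

section

section

/-!
Covariance of the systems under level preserving isometries of the Gaussian coordinates.
-/

open MeasureTheory ProbabilityTheory Filter Topology
open Vale.Agent.P157.Lv Vale.Agent.P157.Lv.Sy

namespace Vale.Agent.P166.H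

open Vale.Agent

set_option linter.unusedSectionVars false

variable {ι X : Type} [Fintype ι]

/-- The standard Gaussian measure is invariant under linear isometries. -/
lemma gauss_iso (ρ : (ι → ℝ) →ₗ[ℝ] (ι → ℝ)) (h : ∀ z, ∑ e, ρ z e ^ 2 = ∑ e, z e ^ 2) :
    (gI ι).map ρ = gI ι := by
  classical
  let L : EuclideanSpace ℝ ι →ₗ[ℝ] EuclideanSpace ℝ ι :=
    (WithLp.linearEquiv 2 ℝ (ι → ℝ)).symm.toLinearMap ∘ₗ ρ ∘ₗ
      (WithLp.linearEquiv 2 ℝ (ι → ℝ)).toLinearMap
  have hL : ∀ x, ‖L x‖ = ‖x‖ := by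
    intro x
    rw [EuclideanSpace.norm_eq, EuclideanSpace.norm_eq]
    congr 1
    have := h x.ofLp
    simpa [L] using this
  let I : EuclideanSpace ℝ ι →ₗᵢ[ℝ] EuclideanSpace ℝ ι := ⟨L, hL⟩
  let E : EuclideanSpace ℝ ι ≃ₗᵢ[ℝ] EuclideanSpace ℝ ι := I.toLinearIsometryEquiv rfl
  have h1 : (gI ι).map (WithLp.toLp 2) = stdGaussian (EuclideanSpace ℝ ι) :=
    map_pi_eq_stdGaussian
  have h2 := stdGaussian_map (E := EuclideanSpace ℝ ι) E
  have hm : Measurable (WithLp.ofLp : EuclideanSpace ℝ ι → (ι → ℝ)) := by fun_prop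
  have hm2 : Measurable (WithLp.toLp 2 : (ι → ℝ) → EuclideanSpace ℝ ι) := by fun_prop
  have h3 : (ρ : (ι → ℝ) → (ι → ℝ)) =
      (WithLp.ofLp : EuclideanSpace ℝ ι → (ι → ℝ)) ∘ E ∘ (WithLp.toLp 2) := by
    funext x
    rfl
  have h4 : gI ι = (stdGaussian (EuclideanSpace ℝ ι)).map WithLp.ofLp := by
    rw [← h1, Measure.map_map hm hm2]
    exact Measure.map_id.symm
  rw [h3, ← Measure.map_map hm (by fun_prop), ← Measure.map_map (by fun_prop) hm2, h1, h2, ← h4]

/-- Level preserving transformations of the Gaussian coordinates which preserve the law. -/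
structure Rho (lev : ι → ℕ) (ρ : (ι → ℝ) → (ι → ℝ)) : Prop where
  meas : Measurable ρ
  map : (gI ι).map ρ = gI ι
  mix : ∀ l z w, mix lev l (ρ z) (ρ w) = ρ (P157.Lv.mix lev l z w)

variable {lev : ι → ℕ} {ρ : (ι → ℝ) → (ι → ℝ)}

lemma Rho.J (hρ : Rho lev ρ) (l : ℕ) {g : (ι → ℝ) → ℝ} (hg : Measurable g) (z : ι → ℝ) :
    P157.Lv.J lev l (fun z => g (ρ z)) z = P157.Lv.J lev l g (ρ z) := by
  unfold P157.Lv.J
  simp only [← hρ.mix]
  have h1 : ∫ w, g (P157.Lv.mix lev l (ρ z) w) ∂(gI ι) =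
      ∫ w, g (P157.Lv.mix lev l (ρ z) w) ∂((gI ι).map ρ) := by rw [hρ.map]
  have h2 : Measurable fun w => g (P157.Lv.mix lev l (ρ z) w) :=
    hg.comp (measurable_mix_right lev l (ρ z))
  rw [h1, integral_map hρ.meas.aemeasurable h2.aestronglyMeasurable]

lemma Rho.integral (hρ : Rho lev ρ) {g : (ι → ℝ) → ℝ} (hg : Measurable g) :
    ∫ z, g (ρ z) ∂(gI ι) = ∫ z, g z ∂(gI ι) := by
  have h1 : ∫ w, g w ∂(gI ι) = ∫ w, g w ∂((gI ι).map ρ) := by rw [hρ.map]
  rw [h1, integral_map hρ.meas.aemeasurable hg.aestronglyMeasurable]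

variable [Fintype X] [Nonempty X] {S : Sy ι X}

/-- The system seen through the transformation `ρ`. -/
def pb (S : Sy ι X) (ρ : (ι → ℝ) → (ι → ℝ)) : Sy ι X := S.wH fun z x => S.H (ρ z) x

lemma Rho.lg (hS : RegG S) (hρ : Rho S.lev ρ) {l : ℕ} (hl : l ≤ S.K) (z : ι → ℝ) :
    (pb S ρ).lg l z = S.lg l (ρ z) := by
  revert z
  refine down_ind (K := S.K) (P := fun l => ∀ z : ι → ℝ, (pb S ρ).lg l z = S.lg l (ρ z)) ?_ ?_ l hl
  · intro z
    have h1 := congrFun (lg_top (pb S ρ)) z
    have e1 : (pb S ρ).K = S.K := rfl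
    rw [e1] at h1
    rw [h1, lg_top S]
    rfl
  · intro l hl ih z
    have h1 := congrFun (lg_step (pb S ρ) (l := l) hl) z
    rw [h1, lg_step S hl]
    unfold stp
    have hmeas : Measurable fun z => Real.exp (S.m (l + 1) * S.lg (l + 1) z) :=
      ((hS.gr_lg (l := l + 1) hl).meas.const_mul _).exp
    have e3 : (fun z => Real.exp ((pb S ρ).m (l + 1) * (pb S ρ).lg (l + 1) z)) =
        fun z => (fun z => Real.exp (S.m (l + 1) * S.lg (l + 1) z)) (ρ z) := by
      funext z
      rw [ih z]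
      rfl
    rw [e3]
    show 1 / S.m (l + 1) * Real.log (P157.Lv.J S.lev l _ z) = _
    rw [hρ.J l hmeas]

lemma Rho.dn (hS : RegG S) (hρ : Rho S.lev ρ) (l : ℕ) (z : ι → ℝ) :
    (pb S ρ).dn l z = S.dn l (ρ z) := by
  unfold Sy.dn
  congr 1
  refine Finset.sum_congr rfl fun i hi => ?_
  have hi2 : i < S.K := (Finset.mem_Ico.1 hi).2
  rw [hρ.lg hS (l := i + 1) hi2, hρ.lg hS (l := i) hi2.le]
  rfl

lemma pb_av (h : (ι → ℝ) → X → ℝ) (z : ι → ℝ) :
    (pb S ρ).av (fun z x => h (ρ z) x) z = S.av h (ρ z) := rfl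

lemma Rho.T (hS : RegG S) (hρ : Rho S.lev ρ) {l : ℕ} (hl : l ≤ S.K) {h : (ι → ℝ) → X → ℝ}
    (hh : Nh h) (z : ι → ℝ) :
    (pb S ρ).T l (fun z x => h (ρ z) x) z = S.T l h (ρ z) := by
  unfold Sy.T
  have hmeas : Measurable fun z => S.dn l z * S.av h z := ((hS.eg_dn hl).mul (hS.eg_av hh)).meas
  rw [← hρ.J l hmeas]
  show P157.Lv.J S.lev l _ z = _
  congr 1
  funext z
  rw [hρ.dn hS l z, pb_av]

lemma Rho.Ex (hS : RegG S) (hρ : Rho S.lev ρ) {h : (ι → ℝ) → X → ℝ} (hh : Nh h) :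
    (pb S ρ).Ex (fun z x => h (ρ z) x) = S.Ex h := by
  unfold Sy.Ex
  have hmeas : Measurable fun z => S.dn 0 z * S.av h z :=
    ((hS.eg_dn (Nat.zero_le _)).mul (hS.eg_av hh)).meas
  rw [← hρ.integral hmeas]
  congr 1
  funext z
  rw [hρ.dn hS 0 z, pb_av]

end Vale.Agent.P166.H
end
end

section

section

/-!
The system with patterns `P`: energy
`(1/2) ∑ b_p y_p² + ∑_{l,p} s_{p,l} z_{l,p} y_p`, and its rotations.
-/

open MeasureTheory ProbabilityTheory Filter Topology
open Vale.Agent.P157.Lv Vale.Agent.P157.Lv.Sy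

namespace Vale.Agent.P166.H

open Vale.Agent

set_option linter.unusedSectionVars false

variable {P X : Type} [Fintype P] [DecidableEq P]

/-- Admissible exponents. -/
structure Exps (K : ℕ) (m : ℕ → ℝ) : Prop where
  m0 : m 0 = 0
  mK : m (K + 1) = 1
  mono : ∀ l ≤ K, m l ≤ m (l + 1)
  pos : 0 < m 1

variable [Fintype X]

/-! ### Rotations -/

/-- The rotation of the coordinates `p` and `q`. -/
noncomputable def rot (p q : P) (θ : ℝ) (v : P → ℝ) : P → ℝ := fun r =>
  if r = p then Real.cos θ * v p + Real.sin θ * v q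
  else if r = q then Real.cos θ * v q - Real.sin θ * v p else v r

lemma rot_sum {p q : P} (hpq : p ≠ q) (θ : ℝ) (v : P → ℝ) (f : P → ℝ → ℝ) :
    ∑ r, f r (rot p q θ v r) = (∑ r, f r (v r)) +
      (f p (Real.cos θ * v p + Real.sin θ * v q) - f p (v p)) +
      (f q (Real.cos θ * v q - Real.sin θ * v p) - f q (v q)) := by
  classical
  have h : ∀ r, f r (rot p q θ v r) = f r (v r) +
      (if r = p then f p (Real.cos θ * v p + Real.sin θ * v q) - f p (v p) else 0) +
      (if r = q then f q (Real.cos θ * v q - Real.sin θ * v p) - f q (v q) else 0) := by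
    intro r
    unfold rot
    by_cases h1 : r = p
    · subst h1
      simp [hpq]
    · by_cases h2 : r = q
      · subst h2
        simp only [h1, ↓reduceIte, add_zero, add_sub_cancel]
      · simp [h1, h2]
  simp only [h, Finset.sum_add_distrib, Finset.sum_ite_eq', Finset.mem_univ, if_true]

lemma rot_norm {p q : P} (hpq : p ≠ q) (θ : ℝ) (v : P → ℝ) :
    ∑ r, rot p q θ v r ^ 2 = ∑ r, v r ^ 2 := by
  rw [rot_sum hpq θ v fun _ t => t ^ 2]
  have := Real.sin_sq_add_cos_sq θ
  linear_combination (v p ^ 2 + v q ^ 2) * this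

end Vale.Agent.P166.H
end
end

section

section

/-!
Derivatives of the averages of one and of two replicas along a family of systems.
-/

open MeasureTheory ProbabilityTheory Filter Topology
open Vale.Agent.P157.Lv Vale.Agent.P157.Lv.Sy

namespace Vale.Agent.P166.H

set_option linter.unusedSectionVars false

variable {ι X : Type} [Fintype ι] [Fintype X]

/-- The kernel of the derivative of the average of one replica. -/
noncomputable def W0 (S : Sy ι X) (f : (ι → ℝ) → X → ℝ) : (ι → ℝ) → X → ℝ := fun z x =>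
  f z x - ∑ i ∈ Finset.range (S.K + 1), S.p i * S.T i f z

/-- The kernel of the derivative of the average of two replicas which split at the level `l`. -/
noncomputable def W (S : Sy ι X) (l : ℕ) (f g : (ι → ℝ) → X → ℝ) : (ι → ℝ) → X → ℝ := fun z x =>
  f z x * S.T l g z + S.T l f z * g z x -
    ∑ i ∈ Finset.Ico (l + 1) (S.K + 1), S.p i * (S.T i f z * S.T l g z + S.T l f z * S.T i g z) +
    (S.m l - 2 * S.m (l + 1)) * (S.T l f z * S.T l g z) -
    ∑ i ∈ Finset.range l, S.p i * S.T i (fun z _ => S.T l f z * S.T l g z) z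

variable [Nonempty X] {S : Sy ι X}

/-- Self-adjointness of `T_l`. -/
lemma RegG.Ex_T_T (hS : RegG S) {l : ℕ} (hl : l ≤ S.K) {f g : (ι → ℝ) → X → ℝ} (hf : Nh f)
    (hg : Nh g) : S.Ex (fun z x => S.T l g z * f z x) = S.Ex (fun z x => g z x * S.T l f z) := by
  have h1 := hS.Ex_mul_T hl (dep_T S l g) (hS.eg_T hl hg) hf
  have h2 := hS.Ex_mul_T hl (dep_T S l f) (hS.eg_T hl hf) hg
  rw [← h1]
  have e : (fun z x => g z x * S.T l f z) = fun z x => S.T l f z * g z x := by
    funext z x; ring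
  rw [e, ← h2]
  congr 1
  funext z x
  ring

/-- Self-adjointness of `T_l`, with a factor which depends only on the levels at most `l`. -/
lemma RegG.Ex_T_T' (hS : RegG S) {l : ℕ} (hl : l ≤ S.K) {φ : (ι → ℝ) → ℝ} (hφ : Dep S.lev l φ)
    (hφe : EG φ) {f g : (ι → ℝ) → X → ℝ} (hf : Nh f) (hg : Nh g) :
    S.Ex (fun z x => φ z * (S.T l g z * f z x)) = S.Ex (fun z x => φ z * (S.T l f z * g z x)) := by
  have hd1 : Dep S.lev l fun z => φ z * S.T l g z := lc_dep_mul hφ (dep_T S l g)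
  have hd2 : Dep S.lev l fun z => φ z * S.T l f z := lc_dep_mul hφ (dep_T S l f)
  have h1 := hS.Ex_mul_T hl hd1 (hφe.mul (hS.eg_T hl hg)) hf
  have h2 := hS.Ex_mul_T hl hd2 (hφe.mul (hS.eg_T hl hf)) hg
  simp only [mul_assoc] at h1 h2
  rw [← h1, ← h2]
  congr 1
  funext z x
  ring

lemma sum_p (S : Sy ι X) (h0 : S.m 0 = 0) (l : ℕ) : ∑ i ∈ Finset.range l, S.p i = S.m l := by
  have := Finset.sum_range_sub S.m l
  rw [h0, sub_zero] at this
  exact this

lemma sum_p_Ico (S : Sy ι X) {l K : ℕ} (h : l ≤ K) :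
    ∑ i ∈ Finset.Ico l K, S.p i = S.m K - S.m l := by
  unfold p
  exact Finset.sum_Ico_sub S.m h

/-- The canonical form of the derivative: one replica. -/
lemma RegG.canon0 (hS : RegG S) {f D : (ι → ℝ) → X → ℝ} (hf : Nh f) (hD : Nh D) :
    S.Ex (fun z x => f z x * (D z x - ∑ i ∈ Finset.Ico 0 (S.K + 1), S.p i * S.T i D z)) =
      S.Ex (fun z x => D z x * W0 S f z x) := by
  have hTD : ∀ i ∈ Finset.Ico 0 (S.K + 1), Nh (X := X) fun z _ => S.T i D z := fun i hi =>
    Nh.fst (hS.eg_T (Nat.lt_succ_iff.1 (Finset.mem_Ico.1 hi).2) hD)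
  have hTf : ∀ i ∈ Finset.range (S.K + 1), Nh (X := X) fun z _ => S.T i f z := fun i hi =>
    Nh.fst (hS.eg_T (Nat.lt_succ_iff.1 (Finset.mem_range.1 hi)) hf)
  have e1 : (fun z x => f z x * (D z x - ∑ i ∈ Finset.Ico 0 (S.K + 1), S.p i * S.T i D z)) =
      fun z x => f z x * D z x - ∑ i ∈ Finset.Ico 0 (S.K + 1), S.p i * (S.T i D z * f z x) := by
    funext z x
    rw [mul_sub, Finset.mul_sum]
    congr 1
    exact Finset.sum_congr rfl fun i _ => by ring
  have e2 : (fun z x => D z x * W0 S f z x) =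
      fun z x => f z x * D z x - ∑ i ∈ Finset.Ico 0 (S.K + 1), S.p i * (D z x * S.T i f z) := by
    funext z x
    unfold W0
    rw [mul_sub, Finset.mul_sum, Nat.Ico_zero_eq_range]
    rw [mul_comm (D z x) (f z x)]
    congr 1
    exact Finset.sum_congr rfl fun i _ => by ring
  have n1 : ∀ i ∈ Finset.Ico 0 (S.K + 1), Nh fun z x => S.p i * (S.T i D z * f z x) :=
    fun i hi => Nh.const_mul _ (Nh.mul (hTD i hi) hf)
  have n2 : ∀ i ∈ Finset.Ico 0 (S.K + 1), Nh fun z x => S.p i * (D z x * S.T i f z) :=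
    fun i hi => Nh.const_mul _ (Nh.mul hD (hTf i (by rwa [Nat.Ico_zero_eq_range] at hi)))
  rw [e1, e2, hS.Ex_sub (Nh.mul hf hD) (Nh.sum _ n1), hS.Ex_sub (Nh.mul hf hD) (Nh.sum _ n2),
    hS.Ex_sum _ n1, hS.Ex_sum _ n2]
  congr 1
  refine Finset.sum_congr rfl fun i hi => ?_
  rw [Ex_const_mul, Ex_const_mul, hS.Ex_T_T (Nat.lt_succ_iff.1 (Finset.mem_Ico.1 hi).2) hf hD]

/-- A part of the derivative of `T_l f`. -/
lemma RegG.canonA (hS : RegG S) {l : ℕ} (hl : l ≤ S.K) {f f' g D : (ι → ℝ) → X → ℝ} (hf : Nh f)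
    (hf' : Nh f') (hg : Nh g) (hD : Nh D) :
    S.Ex (fun z _ => S.T l g z * S.T l (fun z x => f' z x + f z x * (D z x -
      ∑ i ∈ Finset.Ico (l + 1) (S.K + 1), S.p i * S.T i D z - S.m (l + 1) * S.T l D z)) z) =
    S.Ex (fun z x => S.T l g z * f' z x + D z x * (S.T l g z * f z x -
      ∑ i ∈ Finset.Ico (l + 1) (S.K + 1), S.p i * (S.T i f z * S.T l g z) -
      S.m (l + 1) * (S.T l f z * S.T l g z))) := by
  have hgl : EG (S.T l g) := hS.eg_T hl hg
  have hTD : ∀ i ∈ Finset.Ico (l + 1) (S.K + 1), Nh (X := X) fun z _ => S.T i D z := fun i hi =>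
    Nh.fst (hS.eg_T (Nat.lt_succ_iff.1 (Finset.mem_Ico.1 hi).2) hD)
  have hTf : ∀ i ∈ Finset.Ico (l + 1) (S.K + 1), Nh (X := X) fun z _ => S.T i f z := fun i hi =>
    Nh.fst (hS.eg_T (Nat.lt_succ_iff.1 (Finset.mem_Ico.1 hi).2) hf)
  have hlD : Nh (X := X) fun z _ => S.T l D z := Nh.fst (hS.eg_T hl hD)
  have hlf : Nh (X := X) fun z _ => S.T l f z := Nh.fst (hS.eg_T hl hf)
  have hlg : Nh (X := X) fun z _ => S.T l g z := Nh.fst hgl
  have hN : Nh (fun z x => f' z x + f z x * (D z x -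
      ∑ i ∈ Finset.Ico (l + 1) (S.K + 1), S.p i * S.T i D z - S.m (l + 1) * S.T l D z)) :=
    Nh.add hf' (Nh.mul hf (Nh.sub (Nh.sub hD (Nh.sum _ fun i hi => Nh.const_mul _ (hTD i hi)))
      (Nh.const_mul _ hlD)))
  rw [hS.Ex_mul_T hl (dep_T S l g) hgl hN]
  have e1 : (fun z x => S.T l g z * (f' z x + f z x * (D z x -
      ∑ i ∈ Finset.Ico (l + 1) (S.K + 1), S.p i * S.T i D z - S.m (l + 1) * S.T l D z))) =
      fun z x => (S.T l g z * f' z x + S.T l g z * (f z x * D z x)) -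
        ∑ i ∈ Finset.Ico (l + 1) (S.K + 1), S.p i * (S.T l g z * (S.T i D z * f z x)) -
        S.m (l + 1) * (S.T l g z * (S.T l D z * f z x)) := by
    funext z x
    have : ∑ i ∈ Finset.Ico (l + 1) (S.K + 1), S.p i * (S.T l g z * (S.T i D z * f z x)) =
        (S.T l g z * f z x) * ∑ i ∈ Finset.Ico (l + 1) (S.K + 1), S.p i * S.T i D z := by
      rw [Finset.mul_sum]
      exact Finset.sum_congr rfl fun i _ => by ring
    rw [this]
    ring
  have e2 : (fun z x => S.T l g z * f' z x + D z x * (S.T l g z * f z x -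
      ∑ i ∈ Finset.Ico (l + 1) (S.K + 1), S.p i * (S.T i f z * S.T l g z) -
      S.m (l + 1) * (S.T l f z * S.T l g z))) =
      fun z x => (S.T l g z * f' z x + S.T l g z * (f z x * D z x)) -
        ∑ i ∈ Finset.Ico (l + 1) (S.K + 1), S.p i * (S.T l g z * (S.T i f z * D z x)) -
        S.m (l + 1) * (S.T l g z * (S.T l f z * D z x)) := by
    funext z x
    have : ∑ i ∈ Finset.Ico (l + 1) (S.K + 1), S.p i * (S.T l g z * (S.T i f z * D z x)) =
        D z x * ∑ i ∈ Finset.Ico (l + 1) (S.K + 1), S.p i * (S.T i f z * S.T l g z) := by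
      rw [Finset.mul_sum]
      exact Finset.sum_congr rfl fun i _ => by ring
    rw [this]
    ring
  have n0 : Nh fun z x => S.T l g z * f' z x + S.T l g z * (f z x * D z x) :=
    Nh.add (Nh.mul hlg hf') (Nh.mul hlg (Nh.mul hf hD))
  have n1 : ∀ i ∈ Finset.Ico (l + 1) (S.K + 1),
      Nh fun z x => S.p i * (S.T l g z * (S.T i D z * f z x)) :=
    fun i hi => Nh.const_mul _ (Nh.mul hlg (Nh.mul (hTD i hi) hf))
  have n2 : ∀ i ∈ Finset.Ico (l + 1) (S.K + 1),
      Nh fun z x => S.p i * (S.T l g z * (S.T i f z * D z x)) :=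
    fun i hi => Nh.const_mul _ (Nh.mul hlg (Nh.mul (hTf i hi) hD))
  have m1 : Nh fun z x => S.m (l + 1) * (S.T l g z * (S.T l D z * f z x)) :=
    Nh.const_mul _ (Nh.mul hlg (Nh.mul hlD hf))
  have m2 : Nh fun z x => S.m (l + 1) * (S.T l g z * (S.T l f z * D z x)) :=
    Nh.const_mul _ (Nh.mul hlg (Nh.mul hlf hD))
  rw [e1, e2, hS.Ex_sub (Nh.sub n0 (Nh.sum _ n1)) m1, hS.Ex_sub (Nh.sub n0 (Nh.sum _ n2)) m2,
    hS.Ex_sub n0 (Nh.sum _ n1), hS.Ex_sub n0 (Nh.sum _ n2), hS.Ex_sum _ n1, hS.Ex_sum _ n2]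
  congr 1
  · congr 1
    refine Finset.sum_congr rfl fun i hi => ?_
    have hi' := Finset.mem_Ico.1 hi
    rw [Ex_const_mul, Ex_const_mul, hS.Ex_T_T' (Nat.lt_succ_iff.1 hi'.2)
      ((dep_T S l g).mono (by omega)) hgl hf hD]
  · rw [Ex_const_mul, Ex_const_mul, hS.Ex_T_T' hl (dep_T S l g) hgl hf hD]

/-- The derivative of the weight. -/
lemma RegG.canonB (hS : RegG S) {l : ℕ} (hl : l ≤ S.K) {G : (ι → ℝ) → ℝ} (hG : EG G)
    (hGd : Dep S.lev l G) {D : (ι → ℝ) → X → ℝ} (hD : Nh D) :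
    S.Ex (fun z x => G z * (D z x - ∑ i ∈ Finset.Ico 0 (S.K + 1), S.p i * S.T i D z)) =
    S.Ex (fun z x => D z x * (S.m l * G z -
      ∑ i ∈ Finset.range l, S.p i * S.T i (fun z _ => G z) z)) := by
  rw [hS.canon0 (Nh.fst hG) hD]
  congr 1
  funext z x
  congr 1
  unfold W0
  have h1 : ∑ i ∈ Finset.range (S.K + 1), S.p i * S.T i (fun z _ => G z) z =
      ∑ i ∈ Finset.range l, S.p i * S.T i (fun z _ => G z) z +
      ∑ i ∈ Finset.Ico l (S.K + 1), S.p i * S.T i (fun z _ => G z) z :=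
    (Finset.sum_range_add_sum_Ico _ (by omega)).symm
  have h2 : ∑ i ∈ Finset.Ico l (S.K + 1), S.p i * S.T i (fun z _ => G z) z =
      (1 - S.m l) * G z := by
    rw [← hS.mK, ← sum_p_Ico S (show l ≤ S.K + 1 by omega), Finset.sum_mul]
    refine Finset.sum_congr rfl fun i hi => ?_
    have hi' := Finset.mem_Ico.1 hi
    rw [hS.T_fst (Nat.lt_succ_iff.1 hi'.2) (hGd.mono hi'.1) z]
  rw [h1, h2]
  ring

end Vale.Agent.P166.H
end
end

section

section

/-!
Derivatives of the averages of one and of two replicas along a family of systems.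
-/

open MeasureTheory ProbabilityTheory Filter Topology
open Vale.Agent.P157.Lv Vale.Agent.P157.Lv.Sy

namespace Vale.Agent.P166.H

set_option linter.unusedSectionVars false

variable {ι X : Type} [Fintype ι] [Fintype X] [Nonempty X] {S : Sy ι X}

/-- Test functions depending on the parameter, with their derivatives. -/
structure TF (f f' : ℝ → X → ℝ) : Prop where
  der : ∀ x θ, HasDerivAt (fun t => f t x) (f' θ x) θ
  meas' : ∀ x, Measurable fun t => f' t x
  bdd : ∃ C, ∀ t x, |f t x| ≤ C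
  bdd' : ∃ C, ∀ t x, |f' t x| ≤ C

lemma TF.meas {f f' : ℝ → X → ℝ} (h : TF f f') (x : X) : Measurable fun t => f t x :=
  (continuous_iff_continuousAt.2 fun t => (h.der x t).continuousAt).measurable

lemma TF.nh {f f' : ℝ → X → ℝ} (h : TF f f') :
    Nh (fun (y : Option ι → ℝ) x => f (y none) x) := by
  obtain ⟨C, hC⟩ := h.bdd
  exact fun x => EG.of_bdd ((h.meas x).comp (measurable_pi_apply none)) fun y => hC (y none) x

lemma TF.nh' {f f' : ℝ → X → ℝ} (h : TF f f') :
    Nh (fun (y : Option ι → ℝ) x => f' (y none) x) := by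
  obtain ⟨C, hC⟩ := h.bdd'
  exact fun x => EG.of_bdd ((h.meas' x).comp (measurable_pi_apply none)) fun y => hC (y none) x

variable [DecidableEq ι]

lemma TF.pd {f f' : ℝ → X → ℝ} (h : TF f f') (x : X) :
    PD none (fun y : Option ι → ℝ => f (y none) x) (fun y => f' (y none) x) := by
  intro y t
  simp only [Function.update_self]
  exact h.der x t

variable {H : ℝ → (ι → ℝ) → X → ℝ} {D : (Option ι → ℝ) → X → ℝ}

/-- One replica. -/
theorem hasDerivAt_one (hF : RegE (fam S H) none D) {f f' : ℝ → X → ℝ} (hf : TF f f') (θ : ℝ) :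
    HasDerivAt (fun t => (S.wH (H t)).Ex (fun _ x => f t x))
      ((S.wH (H θ)).Ex (fun z x => f' θ x + D (cn θ z) x * W0 (S.wH (H θ)) (fun _ => f θ) z x))
      θ := by
  have hR := RegG.sec hF.toRegG θ
  have h := hasDerivAt_Ex hF hf.pd hf.nh hf.nh' θ
  refine h.congr_deriv ?_
  have hD : Nh fun z x => D (cn θ z) x := fun x => EG.cn (hF.nh x) θ
  have hfs : Nh fun (_ : ι → ℝ) x => f θ x := Nh.snd _
  have hfs' : Nh fun (_ : ι → ℝ) x => f' θ x := Nh.snd _
  have hW : Nh (W0 (S.wH (H θ)) fun _ => f θ) :=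
    Nh.sub hfs (Nh.sum _ fun i hi => Nh.const_mul _ (Nh.fst (hR.eg_T
      (Nat.lt_succ_iff.1 (Finset.mem_range.1 hi)) hfs)))
  have hN2 : Nh fun z x => f θ x * (D (cn θ z) x - ∑ i ∈ Finset.Ico 0 (S.K + 1), S.p i *
      (S.wH (H θ)).T i (fun z x => D (cn θ z) x) z) :=
    Nh.mul hfs (Nh.sub hD (Nh.sum _ fun i hi => Nh.const_mul _ (Nh.fst (hR.eg_T
      (Nat.lt_succ_iff.1 (Finset.mem_Ico.1 hi).2) hD))))
  simp only [cn_none]
  rw [hR.Ex_add hfs' hN2, hR.Ex_add hfs' (Nh.mul hD hW)]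
  congr 1
  exact hR.canon0 hfs hD

/-- Two replicas which split at the level `l`. -/
theorem hasDerivAt_pair (hF : RegE (fam S H) none D) {l : ℕ} (hl : l ≤ S.K)
    {f f' g g' : ℝ → X → ℝ} (hf : TF f f') (hg : TF g g') (θ : ℝ) :
    HasDerivAt (fun t => (S.wH (H t)).Ex (fun z _ => (S.wH (H t)).T l (fun _ x => f t x) z *
      (S.wH (H t)).T l (fun _ x => g t x) z))
      ((S.wH (H θ)).Ex (fun z x => ((S.wH (H θ)).T l (fun _ x => g θ x) z * f' θ x +
        (S.wH (H θ)).T l (fun _ x => f θ x) z * g' θ x) +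
        D (cn θ z) x * W (S.wH (H θ)) l (fun _ => f θ) (fun _ => g θ) z x)) θ := by
  have hG := hF.toRegG
  have hR := RegG.sec hG θ
  set F := fam S H with hFdef
  set R := S.wH (H θ) with hRdef
  set fF : (Option ι → ℝ) → X → ℝ := fun y x => f (y none) x with hfF
  set gF : (Option ι → ℝ) → X → ℝ := fun y x => g (y none) x with hgF
  have hKF : F.K = S.K := rfl
  have hlF : l ≤ F.K := hl
  set Q : (ℝ → X → ℝ) → (ℝ → X → ℝ) → (Option ι → ℝ) → X → ℝ := fun f f' y x =>
    f' (y none) x + f (y none) x * (D y x -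
      ∑ i ∈ Finset.Ico (l + 1) (F.K + 1), F.p i * F.T i D y - F.m (l + 1) * F.T l D y) with hQ
  have hTF : ∀ i ≤ F.K, Nh (X := X) fun y _ => F.T i D y := fun i hi => Nh.fst (hG.eg_T hi hF.nh)
  have hQn : ∀ {f f' : ℝ → X → ℝ}, TF f f' → Nh (Q f f') := fun {f f'} h =>
    Nh.add h.nh' (Nh.mul h.nh (Nh.sub (Nh.sub hF.nh (Nh.sum _ fun i hi =>
      Nh.const_mul _ (hTF i (Nat.lt_succ_iff.1 (Finset.mem_Ico.1 hi).2))))
      (Nh.const_mul _ (hTF l hlF))))
  have pf := hF.pd_T hlF (Nat.zero_le _) hf.pd hf.nh hf.nh'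
  have pg := hF.pd_T hlF (Nat.zero_le _) hg.pd hg.nh hg.nh'
  have pG : ∀ _x : X, PD none (fun y => F.T l fF y * F.T l gF y)
      (fun y => F.T l (Q f f') y * F.T l gF y + F.T l fF y * F.T l (Q g g') y) :=
    fun _ => pf.mul pg
  have e1 := hG.eg_T hlF (hf.nh (ι := ι))
  have e2 := hG.eg_T hlF (hg.nh (ι := ι))
  have e3 := hG.eg_T hlF (hQn hf)
  have e4 := hG.eg_T hlF (hQn hg)
  have h := hasDerivAt_Ex hF (G := fun y _ => F.T l fF y * F.T l gF y)
    (G' := fun y _ => F.T l (Q f f') y * F.T l gF y + F.T l fF y * F.T l (Q g g') y)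
    pG (Nh.fst (e1.mul e2)) (Nh.fst ((e3.mul e2).add (e1.mul e4))) θ
  have t1 : ∀ (t : ℝ) (z : ι → ℝ), F.T l fF (cn t z) = (S.wH (H t)).T l (fun _ x => f t x) z :=
    fun t z => T_fam hG hl hf.nh (cn t z)
  have t2 : ∀ (t : ℝ) (z : ι → ℝ), F.T l gF (cn t z) = (S.wH (H t)).T l (fun _ x => g t x) z :=
    fun t z => T_fam hG hl hg.nh (cn t z)
  have efun : (fun t => (S.wH (H t)).Ex (fun z _ => (S.wH (H t)).T l (fun _ x => f t x) z *
      (S.wH (H t)).T l (fun _ x => g t x) z)) =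
      fun t => (S.wH (H t)).Ex (fun z _ => F.T l fF (cn t z) * F.T l gF (cn t z)) := by
    funext t
    congr 1
    funext z _
    rw [t1, t2]
  rw [efun]
  refine h.congr_deriv ?_
  -- the value
  set Dθ : (ι → ℝ) → X → ℝ := fun z x => D (cn θ z) x with hDθ
  have hD : Nh Dθ := fun x => EG.cn (hF.nh x) θ
  have tD : ∀ i ≤ S.K, ∀ z, F.T i D (cn θ z) = R.T i Dθ z := fun i hi z =>
    T_fam hG hi hF.nh (cn θ z)
  have tQ : ∀ {f f' : ℝ → X → ℝ} (_ : TF f f') (z : ι → ℝ), F.T l (Q f f') (cn θ z) =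
      R.T l (fun z x => f' θ x + f θ x * (Dθ z x -
        ∑ i ∈ Finset.Ico (l + 1) (R.K + 1), R.p i * R.T i Dθ z - R.m (l + 1) * R.T l Dθ z)) z := by
    intro f f' h z
    have h1 := T_fam hG hl (hQn h) (cn θ z)
    rw [h1]
    simp only [cn_none, rs_cn]
    congr 1
    funext z x
    simp only [hQ, cn_none]
    rw [tD l hl z]
    have : ∑ i ∈ Finset.Ico (l + 1) (F.K + 1), F.p i * F.T i D (cn θ z) =
        ∑ i ∈ Finset.Ico (l + 1) (R.K + 1), R.p i * R.T i Dθ z :=
      Finset.sum_congr rfl fun i hi => by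
        rw [tD i (Nat.lt_succ_iff.1 (Finset.mem_Ico.1 hi).2) z]; rfl
    rw [this]
    rfl
  have hfs : Nh fun (_ : ι → ℝ) x => f θ x := Nh.snd _
  have hfs' : Nh fun (_ : ι → ℝ) x => f' θ x := Nh.snd _
  have hgs : Nh fun (_ : ι → ℝ) x => g θ x := Nh.snd _
  have hgs' : Nh fun (_ : ι → ℝ) x => g' θ x := Nh.snd _
  have hTR : ∀ {h : (ι → ℝ) → X → ℝ} (_ : Nh h), ∀ i ≤ S.K, Nh (X := X) fun z _ => R.T i h z :=
    fun {h} hh i hi => Nh.fst (hR.eg_T hi hh)
  have nQ : ∀ {f f' : (ι → ℝ) → X → ℝ}, Nh f → Nh f' → Nh (fun z x => f' z x + f z x * (Dθ z x -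
        ∑ i ∈ Finset.Ico (l + 1) (R.K + 1), R.p i * R.T i Dθ z - R.m (l + 1) * R.T l Dθ z)) :=
    fun {f f'} h h' => Nh.add h' (Nh.mul h (Nh.sub (Nh.sub hD (Nh.sum _ fun i hi =>
      Nh.const_mul _ (hTR hD i (Nat.lt_succ_iff.1 (Finset.mem_Ico.1 hi).2))))
      (Nh.const_mul _ (hTR hD l hl))))
  have nf := hTR hfs l hl
  have ng := hTR hgs l hl
  have nQf := hTR (nQ hfs hfs') l hl
  have nQg := hTR (nQ hgs hgs') l hl
  have hGeg : EG fun z => R.T l (fun _ x => f θ x) z * R.T l (fun _ x => g θ x) z :=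
    (hR.eg_T hl hfs).mul (hR.eg_T hl hgs)
  have hGd : Dep R.lev l fun z => R.T l (fun _ x => f θ x) z * R.T l (fun _ x => g θ x) z :=
    lc_dep_mul (dep_T R l _) (dep_T R l _)
  have cA1 := hR.canonA hl hfs hfs' hgs hD
  have cA2 := hR.canonA hl hgs hgs' hfs hD
  have cB := hR.canonB hl hGeg hGd hD
  have estart : (fun (z : ι → ℝ) (x : X) =>
      F.T l (Q f f') (cn θ z) * F.T l gF (cn θ z) + F.T l fF (cn θ z) * F.T l (Q g g') (cn θ z) +
      F.T l fF (cn θ z) * F.T l gF (cn θ z) * (D (cn θ z) x -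
        ∑ i ∈ Finset.Ico 0 (S.K + 1), S.p i * (S.wH (H θ)).T i (fun z x => D (cn θ z) x) z)) =
      fun z x => (R.T l (fun _ x => g θ x) z * R.T l (fun z x => f' θ x + f θ x * (Dθ z x -
        ∑ i ∈ Finset.Ico (l + 1) (R.K + 1), R.p i * R.T i Dθ z - R.m (l + 1) * R.T l Dθ z)) z +
        R.T l (fun _ x => f θ x) z * R.T l (fun z x => g' θ x + g θ x * (Dθ z x -
        ∑ i ∈ Finset.Ico (l + 1) (R.K + 1), R.p i * R.T i Dθ z - R.m (l + 1) * R.T l Dθ z)) z) +
        (R.T l (fun _ x => f θ x) z * R.T l (fun _ x => g θ x) z) * (Dθ z x -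
          ∑ i ∈ Finset.Ico 0 (R.K + 1), R.p i * R.T i Dθ z) := by
    funext z x
    rw [tQ hf z, tQ hg z, t1 θ z, t2 θ z]
    have : ∑ i ∈ Finset.Ico 0 (S.K + 1), S.p i * (S.wH (H θ)).T i (fun z x => D (cn θ z) x) z =
        ∑ i ∈ Finset.Ico 0 (R.K + 1), R.p i * R.T i Dθ z := rfl
    rw [this]
    simp only [hDθ]
    ring
  rw [estart]
  have nB1 : Nh fun z x => (R.T l (fun _ x => f θ x) z * R.T l (fun _ x => g θ x) z) * (Dθ z x -
          ∑ i ∈ Finset.Ico 0 (R.K + 1), R.p i * R.T i Dθ z) :=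
    Nh.mul (Nh.mul nf ng) (Nh.sub hD (Nh.sum _ fun i hi => Nh.const_mul _
      (hTR hD i (Nat.lt_succ_iff.1 (Finset.mem_Ico.1 hi).2))))
  rw [hR.Ex_add (Nh.add (Nh.mul ng nQf) (Nh.mul nf nQg)) nB1,
    hR.Ex_add (Nh.mul ng nQf) (Nh.mul nf nQg)]
  refine (congrArg₂ (· + ·) (congrArg₂ (· + ·) cA1 cA2) cB).trans ?_
  have nC : ∀ {f f' g : (ι → ℝ) → X → ℝ}, Nh f → Nh f' → Nh g → Nh (fun z x =>
      R.T l g z * f' z x + Dθ z x * (R.T l g z * f z x -
      ∑ i ∈ Finset.Ico (l + 1) (R.K + 1), R.p i * (R.T i f z * R.T l g z) -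
      R.m (l + 1) * (R.T l f z * R.T l g z))) := fun {f f' g} h h' hg => by
    have a := hTR hg l hl
    have b := hTR h l hl
    exact Nh.add (Nh.mul a h') (Nh.mul hD (Nh.sub (Nh.sub (Nh.mul a h) (Nh.sum _ fun i hi =>
      Nh.const_mul _ (Nh.mul (hTR h i (Nat.lt_succ_iff.1 (Finset.mem_Ico.1 hi).2)) a)))
      (Nh.const_mul _ (Nh.mul b a))))
  have nTG : ∀ i ≤ S.K, Nh (X := X) fun z _ => R.T i (fun z _ =>
      R.T l (fun _ x => f θ x) z * R.T l (fun _ x => g θ x) z) z := hTR (Nh.mul nf ng)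
  have nB2 : Nh fun z x => Dθ z x * (R.m l * (R.T l (fun _ x => f θ x) z *
      R.T l (fun _ x => g θ x) z) - ∑ i ∈ Finset.range l, R.p i * R.T i (fun z _ =>
        R.T l (fun _ x => f θ x) z * R.T l (fun _ x => g θ x) z) z) :=
    Nh.mul hD (Nh.sub (Nh.const_mul _ (Nh.mul nf ng)) (Nh.sum _ fun i hi => Nh.const_mul _
      (nTG i ((Finset.mem_range.1 hi).le.trans hl))))
  rw [← hR.Ex_add (nC hfs hfs' hgs) (nC hgs hgs' hfs),
    ← hR.Ex_add (Nh.add (nC hfs hfs' hgs) (nC hgs hgs' hfs)) nB2]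
  congr 1
  funext z x
  unfold W
  have hs : ∑ i ∈ Finset.Ico (l + 1) (R.K + 1), R.p i *
      (R.T i (fun _ => f θ) z * R.T l (fun _ => g θ) z +
        R.T l (fun _ => f θ) z * R.T i (fun _ => g θ) z) =
      ∑ i ∈ Finset.Ico (l + 1) (R.K + 1), R.p i * (R.T i (fun _ => f θ) z * R.T l (fun _ => g θ) z)
      + ∑ i ∈ Finset.Ico (l + 1) (R.K + 1), R.p i *
        (R.T i (fun _ => g θ) z * R.T l (fun _ => f θ) z) := by
    rw [← Finset.sum_add_distrib]
    exact Finset.sum_congr rfl fun i _ => by ring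
  rw [hs]
  ring

end Vale.Agent.P166.H
end
end

section

section

/-!
Sums over patterns of the kernels of the loop equations: the averages `Av` over a second replica.
-/

open MeasureTheory ProbabilityTheory Filter Topology Matrix
open Vale.Agent.P157.Lv Vale.Agent.P157.Lv.Sy

namespace Vale.Agent.P166.H

open Vale.Agent

set_option linter.unusedSectionVars false

variable {N : ℕ} {ι X : Type} [Fintype ι] [Fintype X]

/-- The average over a second replica which splits from the first one at the level `i`. -/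
noncomputable def Av (S : Sy ι X) (i : ℕ) (ψ : X → X → ℝ) : (ι → ℝ) → X → ℝ := fun z x =>
  S.T i (fun _ x' => ψ x x') z

/-- The overlap in the set `B` of coordinates. -/
noncomputable def RR (N : ℕ) (φ : X → Fin N → ℝ) (B : Finset (Fin N)) (x x' : X) : ℝ :=
  1 / N * ∑ r ∈ B, φ x r * φ x' r

variable [Nonempty X] {S : Sy ι X}

lemma nh_Av (hS : RegG S) {i : ℕ} (hi : i ≤ S.K) (ψ : X → X → ℝ) : Nh (Av S i ψ) := fun x =>
  hS.eg_T hi (Nh.snd (ψ x))

lemma nh_Av_fst (hS : RegG S) {i : ℕ} (hi : i ≤ S.K) (ψ : X → X → ℝ) (x : X) :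
    Nh (X := X) fun z _ => Av S i ψ z x := Nh.fst (hS.eg_T hi (Nh.snd (ψ x)))

lemma Av_mono (hS : RegG S) {i : ℕ} (hi : i ≤ S.K) {ψ ψ' : X → X → ℝ}
    (h : ∀ x x', ψ x x' ≤ ψ' x x') (z : ι → ℝ) (x : X) : Av S i ψ z x ≤ Av S i ψ' z x :=
  hS.T_mono hi (Nh.snd _) (Nh.snd _) (fun _ x' => h x x') z

lemma Av_nonneg (hS : RegG S) {i : ℕ} (hi : i ≤ S.K) {ψ : X → X → ℝ} (h : ∀ x x', 0 ≤ ψ x x')
    (z : ι → ℝ) (x : X) : 0 ≤ Av S i ψ z x := by
  have := hS.T_mono hi (f := fun _ _ => 0) (Nh.snd _) (Nh.snd (ψ x)) (fun _ x' => h x x') z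
  rwa [hS.T_const hi] at this

/-- `|Av ψ - c| ≤ Av |ψ - c|`. -/
lemma abs_Av_sub_le (hS : RegG S) {i : ℕ} (hi : i ≤ S.K) (ψ : X → X → ℝ) (c : ℝ) (z : ι → ℝ)
    (x : X) : |Av S i ψ z x - c| ≤ Av S i (fun x x' => |ψ x x' - c|) z x := by
  have h1 : Av S i ψ z x - c = S.T i (fun _ x' => ψ x x' - c) z := by
    have h := hS.T_sub hi (f := fun _ x' => ψ x x') (g := fun _ _ => c) (Nh.snd _)
      (fun _ => EG.const c) z
    rw [hS.T_const hi] at h
    exact h.symm
  rw [h1, abs_le]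
  constructor
  · have h := hS.T_mono hi (f := fun _ x' => -1 * |ψ x x' - c|) (g := fun _ x' => ψ x x' - c)
      (Nh.snd _) (Nh.snd _) (fun _ x' => by
        have := neg_abs_le (ψ x x' - c)
        linarith only [this]) z
    rw [T_const_mul] at h
    unfold Av
    linarith only [h]
  · exact hS.T_mono hi (Nh.snd _) (Nh.snd _) (fun _ x' => le_abs_self _) z

lemma abs_Av_le (hS : RegG S) {i : ℕ} (hi : i ≤ S.K) {ψ : X → X → ℝ} {C : ℝ}
    (h : ∀ x x', |ψ x x'| ≤ C) (z : ι → ℝ) (x : X) : |Av S i ψ z x| ≤ C :=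
  hS.abs_T_le hi (Nh.snd _) (fun _ x' => h x x') z

/-- The tower property. -/
lemma T_Av (hS : RegG S) {i l : ℕ} (hil : i ≤ l) (hl : l ≤ S.K) (ψ : X → X → ℝ) (z : ι → ℝ)
    (x : X) : S.T i (fun z _ => Av S l ψ z x) z = Av S i ψ z x :=
  hS.T_T hil hl (f := fun _ x' => ψ x x') (Nh.snd _) z

lemma Av_RR (hS : RegG S) {i : ℕ} (hi : i ≤ S.K) (φ : X → Fin N → ℝ) (B : Finset (Fin N))
    (z : ι → ℝ) (x : X) : Av S i (RR N φ B) z x =
      1 / N * ∑ r ∈ B, φ x r * S.T i (fun _ x' => φ x' r) z := by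
  unfold Av RR
  rw [T_const_mul, hS.T_sum hi B (f := fun r _ x' => φ x r * φ x' r) fun r _ => Nh.snd _]
  congr 1
  refine Finset.sum_congr rfl fun r _ => ?_
  rw [T_const_mul]

/-- A pointwise approximation of `T_i (Av_l ψ · Av_l ψ')`, `i ≤ l`. -/
lemma abs_T_mul_Av_le (hS : RegG S) {i l : ℕ} (hil : i ≤ l) (hl : l ≤ S.K) {ψ ψ' : X → X → ℝ}
    (h : ∀ x x', |ψ x x'| ≤ 1) {r r' : ℝ} (hr' : |r'| ≤ 1) (z : ι → ℝ) (x : X) :
    |S.T i (fun z _ => Av S l ψ z x * Av S l ψ' z x) z - r * r'| ≤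
      Av S i (fun x x' => |ψ x x' - r|) z x + Av S i (fun x x' => |ψ' x x' - r'|) z x := by
  have hi := hil.trans hl
  have n1 := nh_Av_fst hS hl ψ x
  have n2 := nh_Av_fst hS hl ψ' x
  have e1 : S.T i (fun z _ => Av S l ψ z x * Av S l ψ' z x) z - r * r' =
      S.T i (fun z _ => Av S l ψ z x * Av S l ψ' z x - r * r') z := by
    have h := hS.T_sub hi (Nh.mul n1 n2) (g := fun _ _ => r * r') (fun _ => EG.const _) z
    rw [hS.T_const hi] at h
    exact h.symm
  have nA1 := nh_Av_fst hS hl (fun x x' => |ψ x x' - r|) x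
  have nA2 := nh_Av_fst hS hl (fun x x' => |ψ' x x' - r'|) x
  have hpt : ∀ z, |Av S l ψ z x * Av S l ψ' z x - r * r'| ≤
      Av S l (fun x x' => |ψ x x' - r|) z x + Av S l (fun x x' => |ψ' x x' - r'|) z x := by
    intro z
    have a1 := abs_Av_sub_le hS hl ψ r z x
    have a2 := abs_Av_sub_le hS hl ψ' r' z x
    have a3 := abs_Av_le hS hl h z x
    have e : Av S l ψ z x * Av S l ψ' z x - r * r' =
        Av S l ψ z x * (Av S l ψ' z x - r') + r' * (Av S l ψ z x - r) := by ring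
    rw [e]
    refine (abs_add_le _ _).trans ?_
    rw [abs_mul, abs_mul]
    have b1 : |Av S l ψ z x| * |Av S l ψ' z x - r'| ≤ 1 * |Av S l ψ' z x - r'| :=
      mul_le_mul_of_nonneg_right a3 (abs_nonneg _)
    have b2 : |r'| * |Av S l ψ z x - r| ≤ 1 * |Av S l ψ z x - r| :=
      mul_le_mul_of_nonneg_right hr' (abs_nonneg _)
    linarith only [a1, a2, b1, b2]
  have hsum : S.T i (fun z _ => Av S l (fun x x' => |ψ x x' - r|) z x +
      Av S l (fun x x' => |ψ' x x' - r'|) z x) z = Av S i (fun x x' => |ψ x x' - r|) z x +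
      Av S i (fun x x' => |ψ' x x' - r'|) z x := by
    rw [hS.T_add hi nA1 nA2, T_Av hS hil hl, T_Av hS hil hl]
  have nm : Nh (X := X) fun z _ => Av S l ψ z x * Av S l ψ' z x - r * r' :=
    Nh.sub (Nh.mul n1 n2) (fun _ => EG.const _)
  rw [e1, ← hsum, abs_le]
  constructor
  · have h := hS.T_mono hi (f := fun z _ => -1 * (Av S l (fun x x' => |ψ x x' - r|) z x +
      Av S l (fun x x' => |ψ' x x' - r'|) z x)) (Nh.const_mul _ (Nh.add nA1 nA2)) nm
      (fun z _ => by
        have := (abs_le.1 (hpt z)).1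
        linarith only [this]) z
    rw [T_const_mul] at h
    linarith only [h]
  · exact hS.T_mono hi nm (Nh.add nA1 nA2) (fun z _ => (abs_le.1 (hpt z)).2) z

/-! ### The sum of the kernels -/

/-- The kernel as a function of the averages. -/
lemma sum_W (S : Sy ι X) (hS : RegG S) {l : ℕ} (hl : l ≤ S.K) (f g : Fin N → X → ℝ)
    (B B' : Finset (Fin N)) (c : Fin N → Fin N → ℝ) (z : ι → ℝ) (x : X) :
    ∑ p ∈ B, ∑ q ∈ B', c p q * W S l (fun _ => f p) (fun _ => g q) z x =
      ∑ p ∈ B, ∑ q ∈ B', c p q * (f p x * S.T l (fun _ => g q) z) +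
      ∑ p ∈ B, ∑ q ∈ B', c p q * (S.T l (fun _ => f p) z * g q x) -
      ∑ i ∈ Finset.Ico (l + 1) (S.K + 1), S.p i *
        (∑ p ∈ B, ∑ q ∈ B', c p q * (S.T i (fun _ => f p) z * S.T l (fun _ => g q) z) +
         ∑ p ∈ B, ∑ q ∈ B', c p q * (S.T l (fun _ => f p) z * S.T i (fun _ => g q) z)) +
      (S.m l - 2 * S.m (l + 1)) *
        (∑ p ∈ B, ∑ q ∈ B', c p q * (S.T l (fun _ => f p) z * S.T l (fun _ => g q) z)) -
      ∑ i ∈ Finset.range l, S.p i * S.T i (fun z _ => ∑ p ∈ B, ∑ q ∈ B',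
        c p q * (S.T l (fun _ => f p) z * S.T l (fun _ => g q) z)) z := by
  have hT : ∀ i ∈ Finset.range l, S.T i (fun z _ => ∑ p ∈ B, ∑ q ∈ B',
        c p q * (S.T l (fun _ => f p) z * S.T l (fun _ => g q) z)) z =
      ∑ p ∈ B, ∑ q ∈ B', c p q * S.T i (fun z _ => S.T l (fun _ => f p) z *
        S.T l (fun _ => g q) z) z := by
    intro i hi
    have hi' : i ≤ S.K := (Finset.mem_range.1 hi).le.trans hl
    have n1 : ∀ p q, Nh (X := X) fun z _ => c p q * (S.T l (fun _ => f p) z *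
        S.T l (fun _ => g q) z) := fun p q => Nh.const_mul _ (Nh.fst
          ((hS.eg_T hl (Nh.snd _)).mul (hS.eg_T hl (Nh.snd _))))
    rw [hS.T_sum hi' B (f := fun p z _ => ∑ q ∈ B', c p q * (S.T l (fun _ => f p) z *
        S.T l (fun _ => g q) z)) fun p _ => Nh.sum _ fun q _ => n1 p q]
    refine Finset.sum_congr rfl fun p _ => ?_
    rw [hS.T_sum hi' B' (f := fun q z _ => c p q * (S.T l (fun _ => f p) z *
        S.T l (fun _ => g q) z)) fun q _ => n1 p q]
    refine Finset.sum_congr rfl fun q _ => ?_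
    rw [T_const_mul]
  have hT' : ∑ i ∈ Finset.range l, S.p i * S.T i (fun z _ => ∑ p ∈ B, ∑ q ∈ B',
        c p q * (S.T l (fun _ => f p) z * S.T l (fun _ => g q) z)) z =
      ∑ i ∈ Finset.range l, S.p i * ∑ p ∈ B, ∑ q ∈ B', c p q * S.T i (fun z _ =>
        S.T l (fun _ => f p) z * S.T l (fun _ => g q) z) z :=
    Finset.sum_congr rfl fun i hi => by rw [hT i hi]
  rw [hT']
  have e : ∀ p q, c p q * W S l (fun _ => f p) (fun _ => g q) z x =
      c p q * (f p x * S.T l (fun _ => g q) z) + c p q * (S.T l (fun _ => f p) z * g q x) -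
      ∑ i ∈ Finset.Ico (l + 1) (S.K + 1), S.p i * (c p q * (S.T i (fun _ => f p) z *
        S.T l (fun _ => g q) z) + c p q * (S.T l (fun _ => f p) z * S.T i (fun _ => g q) z)) +
      (S.m l - 2 * S.m (l + 1)) * (c p q * (S.T l (fun _ => f p) z * S.T l (fun _ => g q) z)) -
      ∑ i ∈ Finset.range l, S.p i * (c p q * S.T i (fun z _ => S.T l (fun _ => f p) z *
        S.T l (fun _ => g q) z) z) := by
    intro p q
    unfold W
    have e1 : ∑ i ∈ Finset.Ico (l + 1) (S.K + 1), S.p i * (c p q * (S.T i (fun _ => f p) z *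
        S.T l (fun _ => g q) z) + c p q * (S.T l (fun _ => f p) z * S.T i (fun _ => g q) z)) =
        c p q * ∑ i ∈ Finset.Ico (l + 1) (S.K + 1), S.p i * (S.T i (fun _ => f p) z *
          S.T l (fun _ => g q) z + S.T l (fun _ => f p) z * S.T i (fun _ => g q) z) := by
      rw [Finset.mul_sum]
      exact Finset.sum_congr rfl fun i _ => by ring
    have e2 : ∑ i ∈ Finset.range l, S.p i * (c p q * S.T i (fun z _ => S.T l (fun _ => f p) z *
        S.T l (fun _ => g q) z) z) = c p q * ∑ i ∈ Finset.range l, S.p i *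
          S.T i (fun z _ => S.T l (fun _ => f p) z * S.T l (fun _ => g q) z) z := by
      rw [Finset.mul_sum]
      exact Finset.sum_congr rfl fun i _ => by ring
    rw [e1, e2]
    ring
  simp only [e, Finset.sum_add_distrib, Finset.sum_sub_distrib]
  have s1 : ∀ (s : Finset ℕ) (F : ℕ → Fin N → Fin N → ℝ), ∑ p ∈ B, ∑ q ∈ B', ∑ i ∈ s,
      S.p i * F i p q = ∑ i ∈ s, S.p i * ∑ p ∈ B, ∑ q ∈ B', F i p q := by
    intro s F
    rw [Finset.sum_congr rfl fun p _ => Finset.sum_comm, Finset.sum_comm]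
    refine Finset.sum_congr rfl fun i _ => ?_
    rw [Finset.mul_sum]
    exact Finset.sum_congr rfl fun p _ => (Finset.mul_sum _ _ _).symm
  rw [s1, s1]
  simp only [Finset.sum_add_distrib, ← Finset.mul_sum]

end Vale.Agent.P166.H
end
end

section

section

open MeasureTheory ProbabilityTheory Filter Topology Finset

namespace Vale.Agent.P157.Par

set_option linter.unusedSectionVars false

namespace Arr

variable {k : ℕ} {w : Fin (k + 1) → ℝ} {δ : Type} [Fintype δ] [DecidableEq δ]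

end Arr

end Vale.Agent.P157.Par
end
end

section

section

open MeasureTheory ProbabilityTheory

namespace Vale.Agent.P157

/-- Standard Gaussian vector in `ℝ^N`. -/
noncomputable def gvec (N : ℕ) : Measure (Fin N → ℝ) := Measure.pi fun _ => gaussianReal 0 1

instance (N : ℕ) : IsProbabilityMeasure (gvec N) := by unfold gvec; infer_instance

lemma patterns_eq (M N : ℕ) : patterns M N = Measure.pi fun _ : Fin M => gvec N := rfl

instance (M N : ℕ) : IsProbabilityMeasure (patterns M N) := by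
  rw [patterns_eq]; infer_instance

instance : IsProbabilityMeasure
    ((1 / 2 : ENNReal) • (Measure.dirac (1 : ℝ) + Measure.dirac (-1 : ℝ))) := by
  constructor
  simp only [Measure.smul_apply, Measure.add_apply, measure_univ, smul_eq_mul, one_div]
  rw [one_add_one_eq_two]
  exact ENNReal.inv_mul_cancel (by norm_num) (by norm_num)

instance (N : ℕ) : IsProbabilityMeasure (cube N) := by unfold cube; infer_instance

end Vale.Agent.P157
end
end

section

section

open MeasureTheory ProbabilityTheory Complex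

namespace Vale.Agent.P157

end Vale.Agent.P157
end
end

section

section

open MeasureTheory ProbabilityTheory

namespace Vale.Agent.P157

section
variable {E : Type*} [MeasurableSpace E] (μ : Measure E) [IsProbabilityMeasure μ]

end

end Vale.Agent.P157
end
end

section

section

/-!
The systems seen through a transformation of the coordinates (possibly with more coordinates) and a
bijection of the configurations; product systems.
-/

open MeasureTheory ProbabilityTheory Filter Topology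

namespace Vale.Agent.P166.L

open Vale.Agent.P157.Lv Vale.Agent.P157.Lv.Sy H

set_option linter.unusedSectionVars false

variable {ι ι' X X' : Type} [Fintype ι] [Fintype ι'] [Fintype X] [Fintype X'] [Nonempty X]
  [Nonempty X'] [DecidableEq X] [DecidableEq X']

/-- `S'` is the system `S` seen through `ψ` and `e`. -/
structure PB (S : Sy ι X) (S' : Sy ι' X') (ψ : (ι' → ℝ) → ι → ℝ) (e : X' ≃ X) : Prop where
  meas : Measurable ψ
  map : (gI ι').map ψ = gI ι
  mix : ∀ l z w, mix S.lev l (ψ z) (ψ w) = ψ (mix S'.lev l z w)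
  K : S'.K = S.K
  m : ∀ l ≤ S.K + 1, S'.m l = S.m l
  H : ∀ z x, S'.H z x = S.H (ψ z) (e x)

/-- Restriction of the coordinates along an injection. -/
theorem gI_restrict {f : ι → ι'} (hf : Function.Injective f) :
    (gI ι').map (fun z e => z (f e)) = gI ι := by
  classical
  symm
  refine Measure.pi_eq fun s hs => ?_
  have hm : Measurable fun (z : ι' → ℝ) (e : ι) => z (f e) := by fun_prop
  rw [Measure.map_apply hm (MeasurableSet.univ_pi hs)]
  have h1 : (fun (z : ι' → ℝ) (e : ι) => z (f e)) ⁻¹' (Set.univ.pi s) =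
      Set.univ.pi (fun e' => {x : ℝ | ∀ e, f e = e' → x ∈ s e}) := by
    ext z
    simp only [Set.mem_preimage, Set.mem_univ_pi, Set.mem_ofPred_eq]
    constructor
    · intro h e' e he
      rw [← he]
      exact h e
    · intro h e
      exact h (f e) e rfl
  rw [h1, Measure.pi_pi]
  symm
  refine Fintype.prod_of_injective f hf _ _ (fun e' he' => ?_) (fun e => ?_)
  · have h2 : {x : ℝ | ∀ e, f e = e' → x ∈ s e} = Set.univ := by
      ext x
      simp only [Set.mem_ofPred_eq, Set.mem_univ, iff_true]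
      intro e he
      exact absurd ⟨e, he⟩ he'
    rw [h2]
    exact measure_univ
  · congr 1
    ext x
    simp only [Set.mem_ofPred_eq]
    constructor
    · intro h e2 he2
      rw [hf he2]
      exact h
    · intro h
      exact h e rfl

namespace PB

variable {S : Sy ι X} {S' : Sy ι' X'} {ψ : (ι' → ℝ) → ι → ℝ} {e : X' ≃ X}

omit [Fintype X] [Fintype X'] [Nonempty X] [Nonempty X'] [DecidableEq X] [DecidableEq X'] in
theorem pl_J (h : PB S S' ψ e) (l : ℕ) {g : (ι → ℝ) → ℝ} (hg : Measurable g) (z : ι' → ℝ) :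
    P157.Lv.J S'.lev l (fun z => g (ψ z)) z = P157.Lv.J S.lev l g (ψ z) := by
  unfold P157.Lv.J
  simp only [← h.mix]
  have h1 : ∫ w, g (P157.Lv.mix S.lev l (ψ z) w) ∂(gI ι) =
      ∫ w, g (P157.Lv.mix S.lev l (ψ z) w) ∂((gI ι').map ψ) := by rw [h.map]
  have h2 : Measurable fun w => g (P157.Lv.mix S.lev l (ψ z) w) :=
    hg.comp (measurable_mix_right S.lev l (ψ z))
  rw [h1, integral_map h.meas.aemeasurable h2.aestronglyMeasurable]

omit [Fintype X] [Fintype X'] [Nonempty X] [Nonempty X'] [DecidableEq X] [DecidableEq X'] in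
theorem pl_integral (h : PB S S' ψ e) {g : (ι → ℝ) → ℝ} (hg : Measurable g) :
    ∫ z, g (ψ z) ∂(gI ι') = ∫ z, g z ∂(gI ι) := by
  have h1 : ∫ w, g w ∂(gI ι) = ∫ w, g w ∂((gI ι').map ψ) := by rw [h.map]
  rw [h1, integral_map h.meas.aemeasurable hg.aestronglyMeasurable]

theorem lg (hS : RegG S) (h : PB S S' ψ e) {l : ℕ} (hl : l ≤ S.K) (z : ι' → ℝ) :
    S'.lg l z = S.lg l (ψ z) := by
  revert z
  refine down_ind (K := S.K) (P := fun l => ∀ z : ι' → ℝ, S'.lg l z = S.lg l (ψ z)) ?_ ?_ l hl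
  · intro z
    have h1 := congrFun (lg_top S') z
    rw [h.K] at h1
    rw [h1, lg_top S]
    unfold Sy.top
    congr 1
    rw [← Equiv.sum_comp e]
    exact Finset.sum_congr rfl fun x _ => by rw [h.H]
  · intro l hl ih z
    have hl' : l < S'.K := by rw [h.K]; exact hl
    have h1 := congrFun (lg_step S' (l := l) hl') z
    rw [h1, lg_step S hl]
    unfold stp
    have hmeas : Measurable fun z => Real.exp (S.m (l + 1) * S.lg (l + 1) z) :=
      ((hS.gr_lg (l := l + 1) hl).meas.const_mul _).exp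
    have e3 : (fun z => Real.exp (S'.m (l + 1) * S'.lg (l + 1) z)) =
        fun z => (fun z => Real.exp (S.m (l + 1) * S.lg (l + 1) z)) (ψ z) := by
      funext z
      rw [ih z, h.m (l + 1) (by omega)]
    rw [e3, h.pl_J l hmeas, h.m (l + 1) (by omega)]

theorem fe (hS : RegG S) (h : PB S S' ψ e) : S'.fe = S.fe := by
  unfold Sy.fe
  rw [← h.pl_integral (hS.gr_lg (Nat.zero_le _)).meas]
  congr 1
  funext z
  exact h.lg hS (Nat.zero_le _) z

theorem pl_dn (hS : RegG S) (h : PB S S' ψ e) (l : ℕ) (z : ι' → ℝ) :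
    S'.dn l z = S.dn l (ψ z) := by
  unfold Sy.dn
  rw [h.K]
  congr 1
  refine Finset.sum_congr rfl fun i hi => ?_
  have hi2 : i < S.K := (Finset.mem_Ico.1 hi).2
  rw [h.lg hS (l := i + 1) hi2, h.lg hS (l := i) hi2.le, h.m (i + 1) (by omega)]

omit [Fintype ι] [Fintype ι'] [Nonempty X] [Nonempty X'] [DecidableEq X] [DecidableEq X'] in
theorem pl_av_aux {S : Sy ι X} {S' : Sy ι' X'}
    (hH : ∀ z x, S'.H z x = S.H (ψ z) (e x)) (f : (ι → ℝ) → X → ℝ) (z : ι' → ℝ) :
    S'.av (fun z x => f (ψ z) (e x)) z = S.av f (ψ z) := by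
  unfold Sy.av Sy.gb
  have h1 : ∑ x', Real.exp (S'.H z x') = ∑ x, Real.exp (S.H (ψ z) x) := by
    rw [← Equiv.sum_comp e]
    exact Finset.sum_congr rfl fun x _ => by rw [hH]
  rw [h1, ← Equiv.sum_comp e (fun x => Real.exp (S.H (ψ z) x) /
    (∑ x, Real.exp (S.H (ψ z) x)) * f (ψ z) x)]
  exact Finset.sum_congr rfl fun x _ => by rw [hH]

theorem T (hS : RegG S) (h : PB S S' ψ e) {l : ℕ} (hl : l ≤ S.K) {f : (ι → ℝ) → X → ℝ}
    (hf : Nh f) (z : ι' → ℝ) : S'.T l (fun z x => f (ψ z) (e x)) z = S.T l f (ψ z) := by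
  unfold Sy.T
  have hmeas : Measurable fun z => S.dn l z * S.av f z := ((hS.eg_dn hl).mul (hS.eg_av hf)).meas
  rw [← h.pl_J l hmeas]
  congr 1
  funext z
  rw [h.pl_dn hS l z, pl_av_aux h.H]

theorem Ex (hS : RegG S) (h : PB S S' ψ e) {f : (ι → ℝ) → X → ℝ} (hf : Nh f) :
    S'.Ex (fun z x => f (ψ z) (e x)) = S.Ex f := by
  unfold Sy.Ex
  have hmeas : Measurable fun z => S.dn 0 z * S.av f z :=
    ((hS.eg_dn (Nat.zero_le _)).mul (hS.eg_av hf)).meas
  rw [← h.pl_integral hmeas]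
  congr 1
  funext z
  rw [h.pl_dn hS 0 z, pl_av_aux h.H]

end PB

/-- The product of two systems (with the same exponents). -/
def pr2 (S : Sy ι X) (S' : Sy ι' X') : Sy (ι ⊕ ι') (X × X') where
  lev := Sum.elim S.lev S'.lev
  K := S.K
  m := S.m
  H := fun z x => S.H (fun e => z (Sum.inl e)) x.1 + S'.H (fun e => z (Sum.inr e)) x.2

section Prod

variable {S : Sy ι X} {S' : Sy ι' X'}

/-- Integrals of products. -/
theorem pl_int_prod (f : (ι → ℝ) → ℝ) (g : (ι' → ℝ) → ℝ) :
    ∫ w, f (fun e => w (Sum.inl e)) * g (fun e => w (Sum.inr e)) ∂(gI (ι ⊕ ι')) =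
      (∫ w, f w ∂(gI ι)) * ∫ w, g w ∂(gI ι') := by
  rw [← integral_prod_mul]
  have h1 := measurePreserving_sumPiEquivProdPi (X := fun _ : ι ⊕ ι' => ℝ)
    (fun _ => gaussianReal 0 1)
  exact h1.integral_comp (MeasurableEquiv.measurableEmbedding _)
    (fun p : (ι → ℝ) × (ι' → ℝ) => f p.1 * g p.2)

theorem pl_J_prod (lev : ι → ℕ) (lev' : ι' → ℕ) (l : ℕ) (f : (ι → ℝ) → ℝ) (g : (ι' → ℝ) → ℝ)
    (z : ι ⊕ ι' → ℝ) :
    J (Sum.elim lev lev') l (fun w => f (fun e => w (Sum.inl e)) * g (fun e => w (Sum.inr e))) z =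
      J lev l f (fun e => z (Sum.inl e)) * J lev' l g (fun e => z (Sum.inr e)) := by
  unfold J
  rw [← pl_int_prod]
  rfl

theorem pr2_lg (hS : RegG S) (hS' : RegG S') (hK : S'.K = S.K) (hm : S'.m = S.m) {l : ℕ}
    (hl : l ≤ S.K) (z : ι ⊕ ι' → ℝ) :
    (pr2 S S').lg l z = S.lg l (fun e => z (Sum.inl e)) + S'.lg l (fun e => z (Sum.inr e)) := by
  revert z
  refine down_ind (K := S.K) (P := fun l => ∀ z : ι ⊕ ι' → ℝ, (pr2 S S').lg l z =
    S.lg l (fun e => z (Sum.inl e)) + S'.lg l (fun e => z (Sum.inr e))) ?_ ?_ l hl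
  · intro z
    have h1 := congrFun (lg_top (pr2 S S')) z
    have h2 := congrFun (lg_top S') (fun e => z (Sum.inr e))
    have h3 : (pr2 S S').K = S.K := rfl
    rw [h3] at h1
    rw [hK] at h2
    rw [h1, h2, lg_top S]
    unfold Sy.top
    rw [← Real.log_mul (sum_exp_pos _).ne' (sum_exp_pos _).ne', Finset.sum_mul_sum,
      Fintype.sum_prod_type]
    congr 1
    refine Finset.sum_congr rfl fun x _ => Finset.sum_congr rfl fun x' _ => ?_
    rw [← Real.exp_add]
    rfl
  · intro l hl ih z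
    have h1 := congrFun (lg_step (pr2 S S') (l := l) hl) z
    rw [h1]
    unfold stp
    have hm0 : 0 < S.m (l + 1) := hS.m_pos (by omega) (by omega)
    have e3 : (fun z => Real.exp ((pr2 S S').m (l + 1) * (pr2 S S').lg (l + 1) z)) =
        fun z => (fun z => Real.exp (S.m (l + 1) * S.lg (l + 1) z)) (fun e => z (Sum.inl e)) *
          (fun z => Real.exp (S'.m (l + 1) * S'.lg (l + 1) z)) (fun e => z (Sum.inr e)) := by
      funext z
      have e4 : (pr2 S S').m = S.m := rfl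
      simp only
      rw [ih z, e4, hm, ← Real.exp_add, mul_add]
    rw [e3]
    show 1 / S.m (l + 1) * Real.log (J (Sum.elim S.lev S'.lev) l _ z) = _
    have e5 := pl_J_prod S.lev S'.lev l (fun z => Real.exp (S.m (l + 1) * S.lg (l + 1) z))
      (fun z => Real.exp (S'.m (l + 1) * S'.lg (l + 1) z)) z
    rw [hS.J_exp_lg hl, hS'.J_exp_lg (by omega), ← Real.exp_add] at e5
    rw [e5, Real.log_exp, hm]
    field_simp

theorem pr2_fe (hS : RegG S) (hS' : RegG S') (hK : S'.K = S.K) (hm : S'.m = S.m) :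
    (pr2 S S').fe = S.fe + S'.fe := by
  unfold Sy.fe
  have h1 : ∀ z, (pr2 S S').lg 0 z =
      S.lg 0 (fun e => z (Sum.inl e)) + S'.lg 0 (fun e => z (Sum.inr e)) :=
    fun z => pr2_lg hS hS' hK hm (Nat.zero_le _) z
  have m1 : Measurable fun (z : ι ⊕ ι' → ℝ) (e : ι) => z (Sum.inl e) := by fun_prop
  have m2 : Measurable fun (z : ι ⊕ ι' → ℝ) (e : ι') => z (Sum.inr e) := by fun_prop
  have r1 := gI_restrict (ι := ι) (ι' := ι ⊕ ι') Sum.inl_injective
  have r2 := gI_restrict (ι := ι') (ι' := ι ⊕ ι') Sum.inr_injective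
  have g1 := (hS.gr_lg (Nat.zero_le _)).meas
  have g2 := (hS'.gr_lg (Nat.zero_le _)).meas
  have i1 : Integrable (fun z : ι ⊕ ι' → ℝ => S.lg 0 (fun e => z (Sum.inl e))) (gI (ι ⊕ ι')) := by
    have := hS.integrable_lg (Nat.zero_le _)
    rw [← r1] at this
    exact this.comp_measurable m1
  have i2 : Integrable (fun z : ι ⊕ ι' → ℝ => S'.lg 0 (fun e => z (Sum.inr e))) (gI (ι ⊕ ι')) := by
    have := hS'.integrable_lg (Nat.zero_le _)
    rw [← r2] at this
    exact this.comp_measurable m2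
  simp only [h1]
  rw [integral_add i1 i2]
  congr 1
  · conv_rhs => rw [← r1]
    rw [integral_map m1.aemeasurable g1.aestronglyMeasurable]
  · conv_rhs => rw [← r2]
    rw [integral_map m2.aemeasurable g2.aestronglyMeasurable]

theorem pl_dn2 (hS : RegG S) (hS' : RegG S') (hK : S'.K = S.K) (hm : S'.m = S.m) (l : ℕ)
    (z : ι ⊕ ι' → ℝ) :
    (pr2 S S').dn l z = S.dn l (fun e => z (Sum.inl e)) * S'.dn l (fun e => z (Sum.inr e)) := by
  unfold Sy.dn
  rw [← Real.exp_add, hK, hm]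
  show Real.exp (∑ i ∈ Finset.Ico l S.K, S.m (i + 1) * _) = _
  congr 1
  rw [← Finset.sum_add_distrib]
  refine Finset.sum_congr rfl fun i hi => ?_
  have hi2 : i < S.K := (Finset.mem_Ico.1 hi).2
  rw [pr2_lg hS hS' hK hm (l := i + 1) hi2, pr2_lg hS hS' hK hm (l := i) hi2.le]
  ring

theorem pl_av2 (f : (ι → ℝ) → X → ℝ) (f' : (ι' → ℝ) → X' → ℝ) (z : ι ⊕ ι' → ℝ) :
    (pr2 S S').av (fun z x => f (fun e => z (Sum.inl e)) x.1 * f' (fun e => z (Sum.inr e)) x.2) z =
      S.av f (fun e => z (Sum.inl e)) * S'.av f' (fun e => z (Sum.inr e)) := by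
  unfold Sy.av
  rw [Finset.sum_mul_sum, Fintype.sum_prod_type]
  refine Finset.sum_congr rfl fun x _ => Finset.sum_congr rfl fun x' _ => ?_
  have h1 : (pr2 S S').gb z (x, x') =
      S.gb (fun e => z (Sum.inl e)) x * S'.gb (fun e => z (Sum.inr e)) x' := by
    unfold Sy.gb
    rw [div_mul_div_comm, ← Real.exp_add, Finset.sum_mul_sum, Fintype.sum_prod_type]
    congr 1
    refine Finset.sum_congr rfl fun x _ => Finset.sum_congr rfl fun x' _ => ?_
    rw [← Real.exp_add]
    rfl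
  rw [h1]
  ring

theorem pr2_Ex (hS : RegG S) (hS' : RegG S') (hK : S'.K = S.K) (hm : S'.m = S.m)
    {f : (ι → ℝ) → X → ℝ} (hf : Nh f) {f' : (ι' → ℝ) → X' → ℝ} (hf' : Nh f') :
    (pr2 S S').Ex (fun z x => f (fun e => z (Sum.inl e)) x.1 * f' (fun e => z (Sum.inr e)) x.2) =
      S.Ex f * S'.Ex f' := by
  unfold Sy.Ex
  rw [← pl_int_prod]
  congr 1
  funext z
  rw [pl_dn2 hS hS' hK hm, pl_av2]
  ring

end Prod

end Vale.Agent.P166.L
end
end

section

section

/-!
Basic facts about the cascades and the tilted chain in dimension `N`: functions of exponential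
growth, integrability, linearity, monotonicity, Lipschitz estimates.
-/

open MeasureTheory ProbabilityTheory Filter Topology

namespace Vale.Agent.P157.Par

variable {N : ℕ}

/-- Measurable functions of at most exponential growth. -/
structure EG (h : (Fin N → ℝ) → ℝ) : Prop where
  meas : Measurable h
  bdd : ∃ C a : ℝ, 0 ≤ C ∧ 0 ≤ a ∧ ∀ y, |h y| ≤ C * Real.exp (a * ‖y‖)

/-- Lipschitz functions. -/
def Lip (G : (Fin N → ℝ) → ℝ) : Prop := ∃ L : ℝ, 0 ≤ L ∧ ∀ y y', |G y - G y'| ≤ L * ‖y - y'‖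

lemma Lip.continuous {G : (Fin N → ℝ) → ℝ} (h : Lip G) : Continuous G := by
  obtain ⟨L, hL, h⟩ := h
  refine (LipschitzWith.of_dist_le_mul (K := ⟨L, hL⟩) fun y y' => ?_).continuous
  rw [Real.dist_eq, dist_eq_norm]; exact h y y'

lemma Lip.measurable {G : (Fin N → ℝ) → ℝ} (h : Lip G) : Measurable G := h.continuous.measurable

namespace EG

lemma of_bdd {h : (Fin N → ℝ) → ℝ} (hm : Measurable h) {C : ℝ} (hC : ∀ y, |h y| ≤ C) : EG h :=
  ⟨hm, |C|, 0, abs_nonneg _, le_rfl, fun y => by simpa using (hC y).trans (le_abs_self C)⟩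

lemma const (c : ℝ) : EG (fun _ : Fin N → ℝ => c) := of_bdd measurable_const fun _ => le_rfl

lemma add {f g : (Fin N → ℝ) → ℝ} (hf : EG f) (hg : EG g) : EG (fun y => f y + g y) := by
  obtain ⟨C, a, hC, ha, h1⟩ := hf.bdd
  obtain ⟨D, b, hD, hb, h2⟩ := hg.bdd
  refine ⟨hf.meas.add hg.meas, C + D, max a b, by positivity, by positivity, fun y => ?_⟩
  have e1 : Real.exp (a * ‖y‖) ≤ Real.exp (max a b * ‖y‖) :=
    Real.exp_le_exp.2 (mul_le_mul_of_nonneg_right (le_max_left _ _) (norm_nonneg _))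
  have e2 : Real.exp (b * ‖y‖) ≤ Real.exp (max a b * ‖y‖) :=
    Real.exp_le_exp.2 (mul_le_mul_of_nonneg_right (le_max_right _ _) (norm_nonneg _))
  calc |f y + g y| ≤ |f y| + |g y| := abs_add_le _ _
    _ ≤ C * Real.exp (a * ‖y‖) + D * Real.exp (b * ‖y‖) := add_le_add (h1 y) (h2 y)
    _ ≤ C * Real.exp (max a b * ‖y‖) + D * Real.exp (max a b * ‖y‖) := by gcongr
    _ = _ := by ring

lemma mul {f g : (Fin N → ℝ) → ℝ} (hf : EG f) (hg : EG g) : EG (fun y => f y * g y) := by
  obtain ⟨C, a, hC, ha, h1⟩ := hf.bdd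
  obtain ⟨D, b, hD, hb, h2⟩ := hg.bdd
  refine ⟨hf.meas.mul hg.meas, C * D, a + b, by positivity, by positivity, fun y => ?_⟩
  calc |f y * g y| = |f y| * |g y| := abs_mul _ _
    _ ≤ (C * Real.exp (a * ‖y‖)) * (D * Real.exp (b * ‖y‖)) := by
        gcongr
        · exact h1 y
        · exact h2 y
    _ = C * D * Real.exp ((a + b) * ‖y‖) := by rw [add_mul, Real.exp_add]; ring

lemma const_mul {f : (Fin N → ℝ) → ℝ} (c : ℝ) (hf : EG f) : EG (fun y => c * f y) :=
  (const c).mul hf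

lemma neg {f : (Fin N → ℝ) → ℝ} (hf : EG f) : EG (fun y => -f y) := by
  simpa using hf.const_mul (-1)

lemma sub {f g : (Fin N → ℝ) → ℝ} (hf : EG f) (hg : EG g) : EG (fun y => f y - g y) := by
  simpa [sub_eq_add_neg] using hf.add hg.neg

lemma sum {ι : Type*} (s : Finset ι) {f : ι → (Fin N → ℝ) → ℝ} (hf : ∀ i ∈ s, EG (f i)) :
    EG (fun y => ∑ i ∈ s, f i y) := by
  classical
  induction s using Finset.induction_on with
  | empty => simpa using const 0
  | insert a s ha ih =>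
    simp only [Finset.sum_insert ha]
    exact (hf a (Finset.mem_insert_self a s)).add
      (ih fun i hi => hf i (Finset.mem_insert_of_mem hi))

lemma pow {f : (Fin N → ℝ) → ℝ} (hf : EG f) (n : ℕ) : EG (fun y => f y ^ n) := by
  induction n with
  | zero => simpa using const 1
  | succ n ih => simpa [pow_succ] using ih.mul hf

lemma coord (i : Fin N) : EG (fun y : Fin N → ℝ => y i) := by
  refine ⟨measurable_pi_apply i, 1, 1, zero_le_one, zero_le_one, fun y => ?_⟩
  rw [one_mul, one_mul, ← Real.norm_eq_abs]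
  exact (norm_le_pi_norm y i).trans ((Real.add_one_le_exp ‖y‖).trans' (by linarith))

lemma mono {f g : (Fin N → ℝ) → ℝ} (hg : EG g) (hf : Measurable f) (h : ∀ y, |f y| ≤ |g y|) :
    EG f := by
  obtain ⟨C, a, hC, ha, h1⟩ := hg.bdd
  exact ⟨hf, C, a, hC, ha, fun y => (h y).trans (h1 y)⟩

end EG

lemma Lip.exp_eg {G : (Fin N → ℝ) → ℝ} (h : Lip G) (m : ℝ) :
    EG (fun y => Real.exp (m * G y)) := by
  obtain ⟨L, hL, h'⟩ := id h
  refine ⟨Real.measurable_exp.comp (h.measurable.const_mul m), Real.exp (|m| * |G 0|), |m| * L,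
    (Real.exp_pos _).le, by positivity, fun y => ?_⟩
  rw [abs_of_pos (Real.exp_pos _), ← Real.exp_add, Real.exp_le_exp]
  have h1 : |G y| ≤ |G 0| + L * ‖y‖ := by
    have := h' y 0
    rw [sub_zero] at this
    calc |G y| = |(G y - G 0) + G 0| := by ring_nf
      _ ≤ |G y - G 0| + |G 0| := abs_add_le _ _
      _ ≤ _ := by linarith
  calc m * G y ≤ |m * G y| := le_abs_self _
    _ = |m| * |G y| := abs_mul _ _
    _ ≤ |m| * (|G 0| + L * ‖y‖) := by gcongr
    _ = _ := by ring

lemma integrable_exp_norm (a : ℝ) :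
    Integrable (fun z : Fin N → ℝ => Real.exp (a * ‖z‖)) (gN N) := by
  have h1 : Integrable (fun x : ℝ => Real.exp (|a| * |x|)) (gaussianReal 0 1) :=
    ProbabilityTheory.integrable_exp_mul_abs (X := fun x => x) (t := |a|)
      (by simpa using integrable_exp_mul_gaussianReal (μ := 0) (v := 1) (|a|))
      (by simpa using integrable_exp_mul_gaussianReal (μ := 0) (v := 1) (-|a|))
  have h2 : Integrable (fun z : Fin N → ℝ => ∏ i, Real.exp (|a| * |z i|)) (gN N) :=
    Integrable.fintype_prod (f := fun _ x => Real.exp (|a| * |x|)) fun _ => h1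
  refine h2.mono' ?_ (Filter.Eventually.of_forall fun z => ?_)
  · exact (by fun_prop : Continuous fun z : Fin N → ℝ => Real.exp (a * ‖z‖)).aestronglyMeasurable
  · rw [Real.norm_eq_abs, abs_of_pos (Real.exp_pos _), ← Real.exp_sum, Real.exp_le_exp,
      ← Finset.mul_sum]
    have hn : ‖z‖ ≤ ∑ i, |z i| := by
      refine (pi_norm_le_iff_of_nonneg (Finset.sum_nonneg fun i _ => abs_nonneg _)).2 fun i => ?_
      rw [Real.norm_eq_abs]
      exact Finset.single_le_sum (f := fun i => |z i|) (fun i _ => abs_nonneg _)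
        (Finset.mem_univ i)
    calc a * ‖z‖ ≤ |a| * ‖z‖ := mul_le_mul_of_nonneg_right (le_abs_self a) (norm_nonneg _)
      _ ≤ |a| * ∑ i, |z i| := by gcongr

/-- Functions of exponential growth are integrable after any shift and scaling. -/
lemma EG.integrable {h : (Fin N → ℝ) → ℝ} (hh : EG h) (y : Fin N → ℝ) (s : ℝ) :
    Integrable (fun z => h (y + s • z)) (gN N) := by
  obtain ⟨C, a, hC, ha, hb⟩ := hh.bdd
  refine ((integrable_exp_norm (N := N) (a * |s|)).const_mul (C * Real.exp (a * ‖y‖))).mono'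
    (hh.meas.comp (by fun_prop)).aestronglyMeasurable (Filter.Eventually.of_forall fun z => ?_)
  rw [Real.norm_eq_abs]
  refine (hb _).trans ?_
  rw [mul_assoc, ← Real.exp_add]
  gcongr
  calc a * ‖y + s • z‖ ≤ a * (‖y‖ + ‖s • z‖) := by gcongr; exact norm_add_le _ _
    _ = _ := by rw [norm_smul, Real.norm_eq_abs]; ring

/-- Averages of functions of exponential growth over a Gaussian shift are measurable. -/
lemma EG.meas_int {h : (Fin N → ℝ) → ℝ} (hh : EG h) (s : ℝ) :
    Measurable (fun y => ∫ z, h (y + s • z) ∂(gN N)) := by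
  have : StronglyMeasurable (Function.uncurry fun (y z : Fin N → ℝ) => h (y + s • z)) :=
    (hh.meas.comp (by fun_prop)).stronglyMeasurable
  exact this.integral_prod_right.measurable

lemma int_exp_pos {G : (Fin N → ℝ) → ℝ} (hG : Lip G) (m v : ℝ) (y : Fin N → ℝ) :
    0 < ∫ z, Real.exp (m * G (y + √v • z)) ∂(gN N) :=
  integral_exp_pos ((hG.exp_eg m).integrable y (√v))

lemma EG.integrable_tilt {G h : (Fin N → ℝ) → ℝ} (hG : Lip G) (hh : EG h) (m v : ℝ)
    (y : Fin N → ℝ) :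
    Integrable (fun z => h (y + √v • z) * Real.exp (m * G (y + √v • z))) (gN N) :=
  (hh.mul (hG.exp_eg m)).integrable y (√v)

lemma EG.measurable_tilt {G h : (Fin N → ℝ) → ℝ} (hG : Lip G) (hh : EG h) (m v : ℝ) :
    Measurable (tiltN m v G h) :=
  ((hh.mul (hG.exp_eg m)).meas_int (√v)).div ((hG.exp_eg m).meas_int (√v))

lemma tiltN_mono {G h h' : (Fin N → ℝ) → ℝ} (hG : Lip G) (hh : EG h) (hh' : EG h')
    (hle : ∀ y, h y ≤ h' y) (m v : ℝ) (y : Fin N → ℝ) : tiltN m v G h y ≤ tiltN m v G h' y := by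
  unfold tiltN
  refine div_le_div_of_nonneg_right ?_ (int_exp_pos hG m v y).le
  exact integral_mono (hh.integrable_tilt hG m v y) (hh'.integrable_tilt hG m v y)
    fun z => mul_le_mul_of_nonneg_right (hle _) (Real.exp_pos _).le

lemma tiltN_const {G : (Fin N → ℝ) → ℝ} (hG : Lip G) (m v c : ℝ) (y : Fin N → ℝ) :
    tiltN m v G (fun _ => c) y = c := by
  unfold tiltN
  rw [integral_const_mul, mul_div_assoc, div_self (int_exp_pos hG m v y).ne', mul_one]

lemma tiltN_const_mul (G h : (Fin N → ℝ) → ℝ) (m v c : ℝ) (y : Fin N → ℝ) :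
    tiltN m v G (fun y => c * h y) y = c * tiltN m v G h y := by
  unfold tiltN
  simp only [mul_assoc]
  rw [integral_const_mul, mul_div_assoc]

lemma tiltN_neg (G h : (Fin N → ℝ) → ℝ) (m v : ℝ) (y : Fin N → ℝ) :
    tiltN m v G (fun y => -h y) y = -tiltN m v G h y := by
  simpa using tiltN_const_mul G h m v (-1) y

lemma abs_tiltN_le {G h : (Fin N → ℝ) → ℝ} (hG : Lip G) (hh : EG h) (m v : ℝ) (y : Fin N → ℝ) :
    |tiltN m v G h y| ≤ tiltN m v G (fun y => |h y|) y := by
  have habs : EG (fun y => |h y|) := hh.mono hh.meas.abs fun y => by simp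
  rw [abs_le]
  constructor
  · rw [← tiltN_neg]
    exact tiltN_mono hG habs.neg hh (fun y => neg_abs_le _) m v y
  · exact tiltN_mono hG hh habs (fun y => le_abs_self _) m v y

lemma abs_tiltN_le_of_bdd {G h : (Fin N → ℝ) → ℝ} (hG : Lip G) (hh : Measurable h) {C : ℝ}
    (hC : ∀ y, |h y| ≤ C) (m v : ℝ) (y : Fin N → ℝ) : |tiltN m v G h y| ≤ C := by
  have h1 := EG.of_bdd hh hC
  have habs : EG (fun y => |h y|) := h1.mono h1.meas.abs fun y => by simp
  calc _ ≤ tiltN m v G (fun y => |h y|) y := abs_tiltN_le hG h1 m v y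
    _ ≤ tiltN m v G (fun _ => C) y := tiltN_mono hG habs (EG.const C) hC m v y
    _ = C := tiltN_const hG m v C y

/-- Cascade steps preserve Lipschitz functions. -/
lemma Lip.gstep {G : (Fin N → ℝ) → ℝ} (hG : Lip G) {m : ℝ} (hm : 0 < m) (v : ℝ) :
    Lip (gstepN m v G) := by
  obtain ⟨L, hL, hl⟩ := id hG
  have key : ∀ y y', gstepN m v G y ≤ gstepN m v G y' + L * ‖y - y'‖ := by
    intro y y'
    unfold gstepN
    have h1 : ∫ z, Real.exp (m * G (y + √v • z)) ∂(gN N) ≤
        Real.exp (m * (L * ‖y - y'‖)) * ∫ z, Real.exp (m * G (y' + √v • z)) ∂(gN N) := by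
      rw [← integral_const_mul]
      refine integral_mono ((hG.exp_eg m).integrable y (√v))
        (((hG.exp_eg m).integrable y' (√v)).const_mul _) fun z => ?_
      dsimp only
      rw [← Real.exp_add, Real.exp_le_exp, ← mul_add]
      refine mul_le_mul_of_nonneg_left ?_ hm.le
      have := (abs_le.1 (hl (y + √v • z) (y' + √v • z))).2
      rw [add_sub_add_right_eq_sub] at this
      linarith
    have h2 := Real.log_le_log (int_exp_pos hG m v y) h1
    rw [Real.log_mul (Real.exp_pos _).ne' (int_exp_pos hG m v y').ne', Real.log_exp] at h2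
    calc 1 / m * Real.log (∫ z, Real.exp (m * G (y + √v • z)) ∂(gN N)) ≤
        1 / m * (m * (L * ‖y - y'‖) + Real.log (∫ z, Real.exp (m * G (y' + √v • z)) ∂(gN N))) := by
          gcongr
      _ = _ := by field_simp; ring
  refine ⟨L, hL, fun y y' => abs_le.2 ⟨?_, ?_⟩⟩
  · have := key y' y
    rw [norm_sub_rev] at this
    linarith
  · have := key y y'
    linarith

section chain

variable {m r : ℕ → ℝ}

end chain

section lw

variable {X : Type} [Fintype X] [Nonempty X]

end lw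

section meas

variable {X : Type} [Fintype X] [Nonempty X] {m r : ℕ → ℝ}

end meas

end Vale.Agent.P157.Par
end
end

section

section

namespace Vale.Agent.P166.Conc

open Matrix MeasureTheory ProbabilityTheory

variable {n : ℕ}

lemma Fx_full {h : OG n} (hh : h ∈ Fx n n) : h = 1 := by
  apply Subtype.ext
  ext i j
  have := congrFun (hh j j.2) i
  simp only [Matrix.mulVec_single_one, Matrix.col_apply] at this
  rw [this]
  simp [Matrix.one_apply, Pi.single_apply]

variable [MeasurableSpace (OG n)] [BorelSpace (OG n)]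
variable (ν : Measure (OG n)) [IsProbabilityMeasure ν] [ν.IsMulRightInvariant]

lemma chain {B : ℝ} {f : OG n → ℝ} (hf : BM B f) (d : ℕ) (hd : d ≤ n) :
    ∃ g : OG n → ℝ, BM B g ∧ (∀ U : OG n, ∀ h ∈ Fx n (n - d), g (U * h) = g U) ∧
      ∫ U, g U ∂ν = ∫ U, f U ∂ν ∧
      ∫ U, f U ^ 2 ∂ν - ∫ U, g U ^ 2 ∂ν ≤
        ∑ k : Fin n, (if n - d ≤ (k : ℕ) then D ν k f else 0) ∧
      ∀ i : Fin n, (i : ℕ) < n - d → D ν i g ≤ D ν i f := by
  induction d with
  | zero =>
    refine ⟨f, hf, ?_, rfl, ?_, fun i _ => le_rfl⟩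
    · intro U h hh
      have hh' : h ∈ Fx n n := by simpa using hh
      rw [Fx_full hh', mul_one]
    · simp only [sub_self]
      apply Finset.sum_nonneg
      intro k _
      split_ifs with hk
      · have := k.2; simp at hk; omega
      · exact le_rfl
  | succ d ih =>
    obtain ⟨g, hg, hinv, hint, hvar, hD⟩ := ih (by omega)
    have hkn : n - (d + 1) < n := by omega
    set k : Fin n := ⟨n - (d + 1), hkn⟩ with hk
    have hks : n - (d + 1) + 1 = n - d := by omega
    refine ⟨T k g, hg.T k, ?_, ?_, ?_, ?_⟩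
    · exact T_inv k rfl hg.meas (by rw [hks]; exact hinv)
    · rw [integral_T ν hg, hint]
    · have h1 := var_drop ν hg k
      have h2 : D ν k g ≤ D ν k f := hD k (by show n - (d + 1) < n - d; omega)
      have h3 : ∑ j : Fin n, (if n - (d + 1) ≤ (j : ℕ) then D ν j f else 0) =
          D ν k f + ∑ j : Fin n, (if n - d ≤ (j : ℕ) then D ν j f else 0) := by
        rw [← Finset.add_sum_erase _ _ (Finset.mem_univ k),
          ← Finset.add_sum_erase (a := k) (f := fun j : Fin n => if n - d ≤ (j : ℕ) then D ν j f else 0)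
            _ (Finset.mem_univ k)]
        have e1 : (if n - (d + 1) ≤ (k : ℕ) then D ν k f else 0) = D ν k f := if_pos le_rfl
        have e2 : (if n - d ≤ (k : ℕ) then D ν k f else 0) = 0 :=
          if_neg (by show ¬ (n - d ≤ n - (d + 1)); omega)
        rw [e1, e2, zero_add]
        congr 1
        refine Finset.sum_congr rfl fun j hj => ?_
        have hjk : (j : ℕ) ≠ n - (d + 1) := fun h => (Finset.ne_of_mem_erase hj) (Fin.ext h)
        have : (n - (d + 1) ≤ (j : ℕ)) ↔ (n - d ≤ (j : ℕ)) := by omega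
        simp only [this]
      rw [h3]
      linarith
    · intro i hi
      exact (D_T ν hg i k hi).trans (hD i (by omega))

/-- An Efron-Stein inequality on the orthogonal group. -/
theorem efron_stein {B : ℝ} {f : OG n → ℝ} (hf : BM B f) :
    ∫ U, (f U - ∫ V, f V ∂ν) ^ 2 ∂ν ≤ ∑ k : Fin n, D ν k f := by
  obtain ⟨g, hg, hinv, hint, hvar, -⟩ := chain ν hf n le_rfl
  have hconst : ∀ U : OG n, g U = g 1 := by
    intro U
    have := hinv 1 U (by
      intro j hj
      simp at hj)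
    simpa using this
  have hg1 : ∫ U, g U ∂ν = g 1 := by simp_rw [hconst]; simp
  have hg2 : ∫ U, g U ^ 2 ∂ν = g 1 ^ 2 := by simp_rw [hconst]; simp
  have h1 : Integrable f ν := intg ν hf.meas B hf.bd
  have h2 : Integrable (fun U => f U ^ 2) ν := intg ν hf.sq.meas _ hf.sq.bd
  rw [integral_sq_sub ν h1 h2]
  have h3 : ∫ U, f U ∂ν = g 1 := by rw [← hint, hg1]
  rw [h3]
  rw [hg2] at hvar
  have h4 : ∑ k : Fin n, (if n - n ≤ (k : ℕ) then D ν k f else 0) = ∑ k : Fin n, D ν k f := by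
    refine Finset.sum_congr rfl fun k _ => ?_
    rw [if_pos (by omega)]
  rw [h4] at hvar
  nlinarith

end Vale.Agent.P166.Conc
end
end

section

section

/-!
The tilted chain on the line and its overlaps, for the spin part of the Parisi functional.
-/

open MeasureTheory ProbabilityTheory

namespace Vale.Agent.P157.Par

/-- One step of the tilted chain on the line. -/
noncomputable def tlt (m v : ℝ) (F h : ℝ → ℝ) : ℝ → ℝ := fun x =>
  (∫ z, h (x + √v * z) * Real.exp (m * F (x + √v * z)) ∂(gaussianReal 0 1)) /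
    ∫ z, Real.exp (m * F (x + √v * z)) ∂(gaussianReal 0 1)

/-- The average of `h` at the level `l` of the tilted chain, with the log-weight `F` there. -/
noncomputable def chn (m r : ℕ → ℝ) : ℕ → (ℝ → ℝ) → (ℝ → ℝ) → ℝ
  | 0, _, h => ∫ z, h (√(r 0) * z) ∂(gaussianReal 0 1)
  | l + 1, F, h => chn m r l (gstep (m (l + 1)) (r (l + 1) - r l) F)
      (tlt (m (l + 1)) (r (l + 1) - r l) F h)

/-- The overlaps of the tilted chain: with the log-weight `F` and the observable `M` at the level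
`l`, the second moment of the conditional average of `M` at the level `j ≤ l`. -/
noncomputable def Rc (m r : ℕ → ℝ) : ℕ → (ℝ → ℝ) → (ℝ → ℝ) → ℕ → ℝ
  | 0, F, M, _ => chn m r 0 F (fun x => M x ^ 2)
  | l + 1, F, M, j => if j ≤ l then
      Rc m r l (gstep (m (l + 1)) (r (l + 1) - r l) F) (tlt (m (l + 1)) (r (l + 1) - r l) F M) j
      else chn m r (l + 1) F (fun x => M x ^ 2)

theorem chn_zero_def (m r : ℕ → ℝ) (F h : ℝ → ℝ) :
    chn m r 0 F h = ∫ z, h (√(r 0) * z) ∂(gaussianReal 0 1) := by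
  have h1 := @chn.eq_1
  have h2 := @chn.eq_def
  simp only [chn]

theorem chn_succ_def (m r : ℕ → ℝ) (l : ℕ) (F h : ℝ → ℝ) :
    chn m r (l + 1) F h = chn m r l (gstep (m (l + 1)) (r (l + 1) - r l) F)
      (tlt (m (l + 1)) (r (l + 1) - r l) F h) := by
  have h1 := @chn.eq_1
  have h2 := @chn.eq_def
  simp only [chn]

theorem Rc_zero_def (m r : ℕ → ℝ) (F M : ℝ → ℝ) (j : ℕ) :
    Rc m r 0 F M j = chn m r 0 F (fun x => M x ^ 2) := by
  have h1 := @Rc.eq_1
  have h2 := @Rc.eq_def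
  simp only [Rc]

theorem Rc_succ_le (m r : ℕ → ℝ) (l : ℕ) (F M : ℝ → ℝ) {j : ℕ} (hj : j ≤ l) :
    Rc m r (l + 1) F M j = Rc m r l (gstep (m (l + 1)) (r (l + 1) - r l) F)
      (tlt (m (l + 1)) (r (l + 1) - r l) F M) j := by
  have h1 := @Rc.eq_1
  have h2 := @Rc.eq_def
  simp only [Rc, if_pos hj]

theorem Rc_succ_self (m r : ℕ → ℝ) (l : ℕ) (F M : ℝ → ℝ) :
    Rc m r (l + 1) F M (l + 1) = chn m r (l + 1) F (fun x => M x ^ 2) := by
  have h1 := @Rc.eq_1
  have h2 := @Rc.eq_def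
  simp only [Rc, if_neg (Nat.not_succ_le_self l)]

theorem Rc_self (m r : ℕ → ℝ) (l : ℕ) (F M : ℝ → ℝ) :
    Rc m r l F M l = chn m r l F (fun x => M x ^ 2) := by
  cases l with
  | zero => exact Rc_zero_def m r F M 0
  | succ l => exact Rc_succ_self m r l F M

/-- The overlap at the level `j` of the spin chain. -/
noncomputable def spR (k : ℕ) (m r : ℕ → ℝ) (j : ℕ) : ℝ :=
  Rc m r k (fun x => Real.log (Real.cosh x)) Real.tanh j

/-- Regular log-weights with their first two derivatives. -/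
structure Sm (L B : ℝ) (F M D : ℝ → ℝ) : Prop where
  d1 : ∀ x, HasDerivAt F (M x) x
  d2 : ∀ x, HasDerivAt M (D x) x
  cD : Continuous D
  bM : ∀ x, |M x| ≤ L
  bD : ∀ x, |D x| ≤ B

/-- Regular even convex log-weights. -/
structure Ec (F M D : ℝ → ℝ) : Prop where
  d1 : ∀ x, HasDerivAt F (M x) x
  d2 : ∀ x, HasDerivAt M (D x) x
  cD : Continuous D
  even : ∀ x, F (-x) = F x
  D0 : ∀ x, 0 ≤ D x
  D1 : ∀ x, D x + M x ^ 2 ≤ 1

/-- A smooth family of log-weights, on a segment: `u1, u2` are the derivatives in `x` and `us` is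
the derivative in the parameter. -/
structure Fam (a b : ℝ) (u u1 u2 us : ℝ → ℝ → ℝ) : Prop where
  d1 : ∀ s ∈ Set.Icc a b, ∀ x, HasDerivAt (u s) (u1 s x) x
  d2 : ∀ s ∈ Set.Icc a b, ∀ x, HasDerivAt (u1 s) (u2 s x) x
  ds : ∀ s ∈ Set.Ioo a b, ∀ x, HasDerivAt (fun s => u s x) (us s x) s
  c0 : ContinuousOn (fun p : ℝ × ℝ => u p.1 p.2) (Set.Icc a b ×ˢ Set.univ)
  c1 : ContinuousOn (fun p : ℝ × ℝ => u1 p.1 p.2) (Set.Icc a b ×ˢ Set.univ)
  c2 : ContinuousOn (fun p : ℝ × ℝ => u2 p.1 p.2) (Set.Icc a b ×ˢ Set.univ)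
  cs : ContinuousOn (fun p : ℝ × ℝ => us p.1 p.2) (Set.Ioo a b ×ˢ Set.univ)
  b1 : ∃ B, ∀ s ∈ Set.Icc a b, ∀ x, |u1 s x| ≤ B
  b2 : ∃ B, ∀ s ∈ Set.Icc a b, ∀ x, |u2 s x| ≤ B
  bs : ∃ B, ∀ s ∈ Set.Ioo a b, ∀ x, |us s x| ≤ B

/-- Even functions which are nondecreasing on the half line. -/
def Evm (g : ℝ → ℝ) : Prop := (∀ x, g (-x) = g x) ∧ MonotoneOn g (Set.Ici 0)

/-- Strictly increasing paths with a positive first value. -/
def SPath (k : ℕ) (r : ℕ → ℝ) : Prop := 0 < r 0 ∧ ∀ l < k, r l < r (l + 1)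

end Vale.Agent.P157.Par
end
end

section

section

/-!
Calculus for the tilted chain: Gaussian integration by parts and differentiation under the
integral for functions of exponential growth on `ℝ^N`.
-/

open MeasureTheory ProbabilityTheory

namespace Vale.Agent.P157.Par



variable {N : ℕ}

theorem integrable_gaussianReal_iff (g : ℝ → ℝ) :
    Integrable g (gaussianReal 0 1) ↔ Integrable (fun x => gaussianPDFReal 0 1 x * g x) := by
  rw [gaussianReal_of_var_ne_zero _ one_ne_zero,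
    integrable_withDensity_iff_integrable_smul' (measurable_gaussianPDF 0 1)
      (Filter.Eventually.of_forall fun x => gaussianPDF_lt_top)]
  simp only [smul_eq_mul, gaussianPDF, ENNReal.toReal_ofReal (gaussianPDFReal_nonneg 0 1 _)]

/-- One-dimensional Gaussian integration by parts. -/
theorem stein_one_int (g g' : ℝ → ℝ) (hd : ∀ x, HasDerivAt g (g' x) x)
    (h0 : Integrable g (gaussianReal 0 1)) (h1 : Integrable (fun x => x * g x) (gaussianReal 0 1))
    (h2 : Integrable g' (gaussianReal 0 1)) :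
    ∫ x, x * g x ∂(gaussianReal 0 1) = ∫ x, g' x ∂(gaussianReal 0 1) := by
  set φ : ℝ → ℝ := gaussianPDFReal 0 1 with hφ
  have hφd : ∀ x, HasDerivAt φ (-(x * φ x)) x := by
    intro x
    have h1 : HasDerivAt (fun y : ℝ => -(y - 0) ^ 2 / (2 * ((1 : NNReal) : ℝ))) (-x) x := by
      have h2 : HasDerivAt (fun y : ℝ => -(y ^ 2) / 2) (-(2 * x) / 2) x := by
        have h0 := ((hasDerivAt_pow 2 x).neg).div_const (2 : ℝ)
        simpa using h0
      have h2' : (fun y : ℝ => -(y - 0) ^ 2 / (2 * ((1 : NNReal) : ℝ))) = fun y => -(y ^ 2) / 2 := by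
        funext y
        simp
      rw [h2']
      have h2'' : -x = -(2 * x) / 2 := by ring
      rw [h2'']
      exact h2
    have h3 := (h1.exp).const_mul ((Real.sqrt (2 * Real.pi * ((1 : NNReal) : ℝ)))⁻¹)
    have h4 : φ = fun y => (Real.sqrt (2 * Real.pi * ((1 : NNReal) : ℝ)))⁻¹
        * Real.exp (-(y - 0) ^ 2 / (2 * ((1 : NNReal) : ℝ))) := by
      funext y
      rw [hφ, gaussianPDFReal_def]
    have h5 : -(x * φ x) = (Real.sqrt (2 * Real.pi * ((1 : NNReal) : ℝ)))⁻¹
        * (Real.exp (-(x - 0) ^ 2 / (2 * ((1 : NNReal) : ℝ))) * -x) := by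
      rw [h4]
      ring
    rw [h5, h4]
    exact h3
  have e1 : ∫ x, x * g x ∂(gaussianReal 0 1) = ∫ x, φ x * (x * g x) := by
    rw [integral_gaussianReal_eq_integral_smul one_ne_zero]
    rfl
  have e2 : ∫ x, g' x ∂(gaussianReal 0 1) = ∫ x, φ x * g' x := by
    rw [integral_gaussianReal_eq_integral_smul one_ne_zero]
    rfl
  rw [integrable_gaussianReal_iff] at h0 h1 h2
  have i1 : Integrable (g * fun x => -(x * φ x)) := by
    refine h1.neg.congr (Filter.Eventually.of_forall fun x => ?_)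
    simp only [Pi.neg_apply, Pi.mul_apply]
    ring
  have i2 : Integrable (g' * φ) := by
    refine h2.congr (Filter.Eventually.of_forall fun x => ?_)
    simp only [Pi.mul_apply]
    ring
  have i3 : Integrable (g * φ) := by
    refine h0.congr (Filter.Eventually.of_forall fun x => ?_)
    simp only [Pi.mul_apply]
    ring
  have key := integral_mul_deriv_eq_deriv_mul_of_integrable (u := g) (v := φ) (u' := g')
    (v' := fun x => -(x * φ x)) (fun x _ => hd x) (fun x _ => hφd x) i1 i2 i3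
  rw [e1, e2]
  have h5 : ∫ x, φ x * (x * g x) = - ∫ x, g x * -(x * φ x) := by
    rw [← integral_neg]
    congr 1
    funext x
    ring
  rw [h5, key, neg_neg]
  congr 1
  funext x
  ring

/-! ### Partial derivatives -/

/-- `H'` is the partial derivative of `H` in the coordinate `i`. -/
def PDu (i : Fin N) (H H' : (Fin N → ℝ) → ℝ) : Prop :=
  ∀ y x, HasDerivAt (fun t => H (Function.update y i t)) (H' (Function.update y i x)) x

theorem update_add_smul (y z : Fin N → ℝ) (i : Fin N) (t s : ℝ) :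
    Function.update y i t + s • z = Function.update (y + s • z) i (t + s * z i) := by
  funext j
  by_cases hj : j = i
  · subst hj; simp
  · simp [Function.update_of_ne hj]

theorem PDu.shift {i : Fin N} {H H' : (Fin N → ℝ) → ℝ} (hd : PDu i H H') (y z : Fin N → ℝ)
    (s x : ℝ) : HasDerivAt (fun t => H (Function.update y i t + s • z))
      (H' (Function.update y i x + s • z)) x := by
  simp only [update_add_smul]
  exact (hd (y + s • z) (x + s * z i)).comp_add_const x (s * z i)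

theorem norm_update_le (y : Fin N → ℝ) (i : Fin N) (t : ℝ) :
    ‖Function.update y i t‖ ≤ ‖y‖ + |t| := by
  rw [pi_norm_le_iff_of_nonneg (by positivity)]
  intro j
  by_cases hj : j = i
  · subst hj
    rw [Function.update_self, Real.norm_eq_abs]
    linarith [norm_nonneg y]
  · rw [Function.update_of_ne hj]
    linarith [norm_le_pi_norm y j, abs_nonneg t]

/-- Differentiation under the integral. -/
theorem PDu.integral {i : Fin N} {H H' : (Fin N → ℝ) → ℝ} (hd : PDu i H H') (hg : EG H)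
    (hg' : EG H') (s : ℝ) :
    PDu i (fun y => ∫ z, H (y + s • z) ∂(gN N)) (fun y => ∫ z, H' (y + s • z) ∂(gN N)) := by
  intro y x
  have hm := hg.meas
  have hm' := hg'.meas
  obtain ⟨C, a, hC, ha, h1⟩ := hg'.bdd
  refine (hasDerivAt_integral_of_dominated_loc_of_deriv_le
    (F := fun t z => H (Function.update y i t + s • z))
    (F' := fun t z => H' (Function.update y i t + s • z))
    (bound := fun z => C * Real.exp (a * (‖y‖ + |x| + 1)) * Real.exp (a * |s| * ‖z‖))
    (Metric.ball_mem_nhds x one_pos) ?_ ?_ ?_ ?_ ?_ ?_).2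
  · exact Filter.Eventually.of_forall fun t => (hg.integrable _ s).aestronglyMeasurable
  · exact hg.integrable _ s
  · exact (hg'.integrable _ s).aestronglyMeasurable
  · refine Filter.Eventually.of_forall fun z t ht => ?_
    rw [Metric.mem_ball, Real.dist_eq] at ht
    have h2 : ‖Function.update y i t + s • z‖ ≤ (‖y‖ + |x| + 1) + |s| * ‖z‖ := by
      refine (norm_add_le _ _).trans ?_
      rw [norm_smul, Real.norm_eq_abs]
      have h3 := norm_update_le y i t
      have h4 : |t| ≤ |x| + 1 := by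
        have := abs_add_le (t - x) x
        rw [sub_add_cancel] at this
        linarith
      linarith
    rw [Real.norm_eq_abs]
    calc |H' (Function.update y i t + s • z)|
        ≤ C * Real.exp (a * ‖Function.update y i t + s • z‖) := h1 _
      _ ≤ C * Real.exp (a * ((‖y‖ + |x| + 1) + |s| * ‖z‖)) := by gcongr
      _ = C * Real.exp (a * (‖y‖ + |x| + 1)) * Real.exp (a * |s| * ‖z‖) := by
          rw [mul_assoc, ← Real.exp_add]
          congr 2
          ring
  · exact (integrable_exp_norm (a * |s|)).const_mul _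
  · refine Filter.Eventually.of_forall fun z t _ => hd.shift y z s t

theorem PDu.congr {i : Fin N} {H H' K' : (Fin N → ℝ) → ℝ} (hd : PDu i H H')
    (h : ∀ y, H' y = K' y) : PDu i H K' := by
  intro y x
  rw [← h]
  exact hd y x

theorem PDu.add {i : Fin N} {H H' K K' : (Fin N → ℝ) → ℝ} (hd : PDu i H H') (hk : PDu i K K') :
    PDu i (fun y => H y + K y) (fun y => H' y + K' y) := fun y x => (hd y x).add (hk y x)

theorem PDu.mul {i : Fin N} {H H' K K' : (Fin N → ℝ) → ℝ} (hd : PDu i H H') (hk : PDu i K K') :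
    PDu i (fun y => H y * K y) (fun y => H' y * K y + H y * K' y) :=
  fun y x => (hd y x).mul (hk y x)

theorem PDu.const_mul {i : Fin N} {H H' : (Fin N → ℝ) → ℝ} (hd : PDu i H H') (c : ℝ) :
    PDu i (fun y => c * H y) (fun y => c * H' y) := fun y x => (hd y x).const_mul c

theorem PDu.exp {i : Fin N} {H H' : (Fin N → ℝ) → ℝ} (hd : PDu i H H') :
    PDu i (fun y => Real.exp (H y)) (fun y => Real.exp (H y) * H' y) :=
  fun y x => (hd y x).exp

theorem PDu.log {i : Fin N} {H H' : (Fin N → ℝ) → ℝ} (hd : PDu i H H') (h0 : ∀ y, H y ≠ 0) :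
    PDu i (fun y => Real.log (H y)) (fun y => H' y / H y) :=
  fun y x => (hd y x).log (h0 _)

theorem PDu.div {i : Fin N} {H H' K K' : (Fin N → ℝ) → ℝ} (hd : PDu i H H') (hk : PDu i K K')
    (h0 : ∀ y, K y ≠ 0) :
    PDu i (fun y => H y / K y) (fun y => (H' y * K y - H y * K' y) / (K y) ^ 2) :=
  fun y x => (hd y x).div (hk y x) (h0 _)

theorem PDu.sum {i : Fin N} {ι : Type*} (s : Finset ι) {H H' : ι → (Fin N → ℝ) → ℝ}
    (hd : ∀ a ∈ s, PDu i (H a) (H' a)) :
    PDu i (fun y => ∑ a ∈ s, H a y) (fun y => ∑ a ∈ s, H' a y) :=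
  fun y x => HasDerivAt.fun_sum fun a ha => hd a ha y x

/-! ### The data of a level of the tilted chain -/

/-- `G` is Lipschitz with gradient `c B`, and `∂_i B_i = d_i`, everything bounded. -/
structure Lvl (c : ℝ) (G : (Fin N → ℝ) → ℝ) (B d : (Fin N → ℝ) → Fin N → ℝ) : Prop where
  lip : Lip G
  pd : ∀ i, PDu i G (fun y => c * B y i)
  pd2 : ∀ i, PDu i (fun y => B y i) (fun y => d y i)
  mB : ∀ i, Measurable (fun y => B y i)
  md : ∀ i, Measurable (fun y => d y i)
  bB : ∃ K : ℝ, ∀ y i, |B y i| ≤ K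
  bd : ∃ K : ℝ, ∀ y i, |d y i| ≤ K

namespace Lvl

variable {c : ℝ} {G : (Fin N → ℝ) → ℝ} {B d : (Fin N → ℝ) → Fin N → ℝ}

theorem egB (H : Lvl c G B d) (i : Fin N) : EG (fun y => B y i) := by
  obtain ⟨K, hK⟩ := H.bB
  exact EG.of_bdd (H.mB i) fun y => hK y i

theorem egd (H : Lvl c G B d) (i : Fin N) : EG (fun y => d y i) := by
  obtain ⟨K, hK⟩ := H.bd
  exact EG.of_bdd (H.md i) fun y => hK y i

theorem pd_exp (H : Lvl c G B d) (m : ℝ) (i : Fin N) :
    PDu i (fun y => Real.exp (m * G y)) (fun y => m * c * B y i * Real.exp (m * G y)) :=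
  ((H.pd i).const_mul m).exp.congr fun y => by ring

theorem eg_pd_exp (H : Lvl c G B d) (m : ℝ) (i : Fin N) :
    EG (fun y => m * c * B y i * Real.exp (m * G y)) :=
  ((H.egB i).const_mul (m * c)).mul (H.lip.exp_eg m)

theorem pd_int (H : Lvl c G B d) (m v : ℝ) (i : Fin N) :
    PDu i (fun y => ∫ z, Real.exp (m * G (y + √v • z)) ∂(gN N))
      (fun y => ∫ z, m * c * B (y + √v • z) i * Real.exp (m * G (y + √v • z)) ∂(gN N)) :=
  (H.pd_exp m i).integral (H.lip.exp_eg m) (H.eg_pd_exp m i) (√v)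

theorem pd_gstep (H : Lvl c G B d) {m : ℝ} (hm : m ≠ 0) (v : ℝ) (i : Fin N) :
    PDu i (gstepN m v G) (fun y => c * tiltN m v G (fun y => B y i) y) := by
  have h1 := ((H.pd_int m v i).log fun y => (int_exp_pos H.lip m v y).ne').const_mul (1 / m)
  refine h1.congr fun y => ?_
  unfold tiltN
  have h2 : ∫ z, m * c * B (y + √v • z) i * Real.exp (m * G (y + √v • z)) ∂(gN N) =
      m * c * ∫ z, B (y + √v • z) i * Real.exp (m * G (y + √v • z)) ∂(gN N) := by
    rw [← integral_const_mul]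
    refine integral_congr_ae (Filter.Eventually.of_forall fun z => ?_)
    ring
  rw [h2]
  field_simp

/-- derivative of the tilted average of `B_i`. -/
theorem pd_tilt (H : Lvl c G B d) (m v : ℝ) (i : Fin N) :
    PDu i (tiltN m v G (fun y => B y i)) (fun y => tiltN m v G (fun y => d y i + m * c * B y i ^ 2) y
      - m * c * (tiltN m v G (fun y => B y i) y) ^ 2) := by
  have hP := H.pd_int m v i
  have hQ0 : PDu i (fun y => B y i * Real.exp (m * G y))
      (fun y => (d y i + m * c * B y i ^ 2) * Real.exp (m * G y)) :=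
    ((H.pd2 i).mul (H.pd_exp m i)).congr fun y => by ring
  have egd2 : EG (fun y => d y i + m * c * B y i ^ 2) :=
    (H.egd i).add (((H.egB i).pow 2).const_mul _)
  have hQ := hQ0.integral ((H.egB i).mul (H.lip.exp_eg m)) (egd2.mul (H.lip.exp_eg m)) (√v)
  have h3 := hQ.div hP fun y => (int_exp_pos H.lip m v y).ne'
  refine h3.congr fun y => ?_
  unfold tiltN
  have h2 : ∫ z, m * c * B (y + √v • z) i * Real.exp (m * G (y + √v • z)) ∂(gN N) =
      m * c * ∫ z, B (y + √v • z) i * Real.exp (m * G (y + √v • z)) ∂(gN N) := by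
    rw [← integral_const_mul]
    refine integral_congr_ae (Filter.Eventually.of_forall fun z => ?_)
    ring
  rw [h2]
  have hpos := int_exp_pos H.lip m v y
  field_simp

theorem step (H : Lvl c G B d) {m : ℝ} (hm : 0 < m) (v : ℝ) :
    Lvl c (gstepN m v G) (fun y i => tiltN m v G (fun y => B y i) y)
      (fun y i => tiltN m v G (fun y => d y i + m * c * B y i ^ 2) y
        - m * c * (tiltN m v G (fun y => B y i) y) ^ 2) := by
  have egd2 : ∀ i, EG (fun y => d y i + m * c * B y i ^ 2) := fun i =>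
    (H.egd i).add (((H.egB i).pow 2).const_mul _)
  obtain ⟨K, hK⟩ := H.bB
  obtain ⟨K', hK'⟩ := H.bd
  refine ⟨H.lip.gstep hm v, H.pd_gstep hm.ne' v, H.pd_tilt m v, fun i =>
    (H.egB i).measurable_tilt H.lip m v, fun i => ?_, ⟨K, fun y i =>
      abs_tiltN_le_of_bdd H.lip (H.mB i) (fun y => hK y i) m v y⟩,
      ⟨(K' + |m * c| * K ^ 2) + |m * c| * K ^ 2, fun y i => ?_⟩⟩
  · exact ((egd2 i).measurable_tilt H.lip m v).sub
      ((((H.egB i).measurable_tilt H.lip m v).pow_const 2).const_mul _)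
  · have h1 : |tiltN m v G (fun y => d y i + m * c * B y i ^ 2) y| ≤ K' + |m * c| * K ^ 2 := by
      refine abs_tiltN_le_of_bdd H.lip (egd2 i).meas (fun y => ?_) m v y
      refine (abs_add_le _ _).trans (add_le_add (hK' y i) ?_)
      rw [abs_mul, abs_pow]
      gcongr
      exact hK y i
    have h2 : |tiltN m v G (fun y => B y i) y| ≤ K :=
      abs_tiltN_le_of_bdd H.lip (H.mB i) (fun y => hK y i) m v y
    refine (abs_sub _ _).trans (add_le_add h1 ?_)
    rw [abs_mul, abs_pow]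
    gcongr

end Lvl

end Vale.Agent.P157.Par
end
end

section

section

/-!
Exact law identity `O(N+1) → O(N)`: the Haar integral of `F` is the average of
`∫ F (S(U) ι(V)) dV`, where `S(U)` is any orthogonal matrix with the same first column as `U`.
-/

open MeasureTheory Matrix

namespace Vale.Agent.P166.L

open Conc

variable {N : ℕ}

/-- The embedding of the `N × N` matrices, fixing the basis vector `0`. -/
def one (V : Matrix (Fin N) (Fin N) ℝ) : Matrix (Fin (N + 1)) (Fin (N + 1)) ℝ :=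
  Matrix.of (Fin.cons (Fin.cons 1 0) fun i => Fin.cons 0 (V i))

@[simp] lemma one_zero_zero (V : Matrix (Fin N) (Fin N) ℝ) : one V 0 0 = 1 := rfl
@[simp] lemma one_zero_succ (V : Matrix (Fin N) (Fin N) ℝ) (j : Fin N) : one V 0 j.succ = 0 := rfl
@[simp] lemma one_succ_zero (V : Matrix (Fin N) (Fin N) ℝ) (i : Fin N) : one V i.succ 0 = 0 := rfl
@[simp] lemma one_succ_succ (V : Matrix (Fin N) (Fin N) ℝ) (i j : Fin N) :
    one V i.succ j.succ = V i j := rfl

lemma one_mulL (V W : Matrix (Fin N) (Fin N) ℝ) : one (V * W) = one V * one W := by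
  ext i j
  rw [Matrix.mul_apply, Fin.sum_univ_succ]
  refine Fin.cases ?_ (fun i => ?_) i <;> refine Fin.cases ?_ (fun j => ?_) j
  · simp only [one_zero_zero, mul_one, one_zero_succ, one_succ_zero, mul_zero, Finset.sum_const_zero, add_zero]
  · simp only [one_zero_succ, one_zero_zero, mul_zero, one_succ_succ, zero_mul, Finset.sum_const_zero, add_zero]
  · simp
  · simp only [one_succ_succ, Matrix.mul_apply, one_succ_zero, one_zero_succ, mul_zero, zero_add]

lemma one_transpose (V : Matrix (Fin N) (Fin N) ℝ) : (one V)ᵀ = one Vᵀ := by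
  ext i j
  rw [Matrix.transpose_apply]
  refine Fin.cases ?_ (fun i => ?_) i <;> refine Fin.cases ?_ (fun j => ?_) j <;> simp

lemma one_one : one (1 : Matrix (Fin N) (Fin N) ℝ) = 1 := by
  ext i j
  refine Fin.cases ?_ (fun i => ?_) i <;> refine Fin.cases ?_ (fun j => ?_) j
  · simp
  · simp only [one_zero_succ, ne_eq, (Fin.succ_ne_zero j).symm, not_false_eq_true, one_apply_ne]
  · simp [Fin.succ_ne_zero i]
  · simp [Matrix.one_apply, Fin.succ_inj]

lemma one_memL (V : OG N) : one V.1 ∈ Matrix.orthogonalGroup (Fin (N + 1)) ℝ := by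
  rw [Matrix.mem_orthogonalGroup_iff', one_transpose, ← one_mulL, OG.transpose_mul, one_one]

/-- The embedding of `O(N)` in `O(N+1)`. -/
def oneO (V : OG N) : OG (N + 1) := ⟨one V.1, one_memL V⟩

lemma oneO_mul (V W : OG N) : oneO (V * W) = oneO V * oneO W := by
  apply Subtype.ext
  exact one_mulL V.1 W.1

lemma one_mulVec (V : Matrix (Fin N) (Fin N) ℝ) (a : ℝ) (x : Fin N → ℝ) :
    one V *ᵥ (Fin.cons a x : Fin (N + 1) → ℝ) = Fin.cons a (V *ᵥ x) := by
  funext i
  rw [Matrix.mulVec, dotProduct, Fin.sum_univ_succ]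
  refine Fin.cases ?_ (fun i => ?_) i
  · simp only [one_zero_zero, Fin.cons_zero, _root_.one_mul, one_zero_succ, Fin.cons_succ, zero_mul, Finset.sum_const_zero, add_zero]
  · simp only [one_succ_zero, Fin.cons_zero, zero_mul, one_succ_succ, Fin.cons_succ, zero_add, mulVec, dotProduct]

lemma mulVec_e0 (U : Matrix (Fin (N + 1)) (Fin (N + 1)) ℝ) :
    U *ᵥ (Pi.single 0 1 : Fin (N + 1) → ℝ) = fun i => U i 0 := by
  funext i
  simp [Matrix.mulVec_single]

/-- An orthogonal matrix fixing the basis vector `0` is an embedded one. -/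
lemma exists_one (W : OG (N + 1)) (hW : W.1 *ᵥ (Pi.single 0 1 : Fin (N + 1) → ℝ) =
    Pi.single 0 1) : ∃ M : OG N, W = oneO M := by
  have hcol : ∀ i, W.1 i 0 = (Pi.single 0 1 : Fin (N + 1) → ℝ) i := by
    intro i
    rw [mulVec_e0] at hW
    exact congrFun hW i
  have h00 : W.1 0 0 = 1 := by rw [hcol]; simp
  have hi0 : ∀ i : Fin N, W.1 i.succ 0 = 0 := by
    intro i; rw [hcol]; simp
  have hrow : W.1 * W.1ᵀ = 1 := OG.mul_transpose W
  have h0j : ∀ j : Fin N, W.1 0 j.succ = 0 := by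
    have h1 := congrFun (congrFun hrow 0) 0
    rw [Matrix.mul_apply, Fin.sum_univ_succ, Matrix.one_apply_eq] at h1
    simp only [Matrix.transpose_apply, h00] at h1
    have h2 : ∑ j : Fin N, W.1 0 j.succ * W.1 0 j.succ = 0 := by linarith only [h1]
    intro j
    have h3 := (Finset.sum_eq_zero_iff_of_nonneg (fun j _ => mul_self_nonneg _)).1 h2 j
      (Finset.mem_univ j)
    exact mul_self_eq_zero.1 h3
  have hM : one (Matrix.of fun i j : Fin N => W.1 i.succ j.succ) = W.1 := by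
    ext i j
    refine Fin.cases ?_ (fun i => ?_) i <;> refine Fin.cases ?_ (fun j => ?_) j
    · rw [one_zero_zero, h00]
    · rw [one_zero_succ, h0j]
    · rw [one_succ_zero, hi0]
    · rw [one_succ_succ]; rfl
  have hmem : (Matrix.of fun i j : Fin N => W.1 i.succ j.succ) ∈
      Matrix.orthogonalGroup (Fin N) ℝ := by
    rw [Matrix.mem_orthogonalGroup_iff']
    have h1 : (W.1)ᵀ * W.1 = 1 := OG.transpose_mul W
    rw [← hM, one_transpose, ← one_mulL] at h1
    ext i j
    have h2 := congrFun (congrFun h1 i.succ) j.succ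
    rw [one_succ_succ] at h2
    rw [h2]
    simp only [Matrix.one_apply, Fin.succ_inj]
  exact ⟨⟨_, hmem⟩, Subtype.ext hM.symm⟩

section Law

variable [MeasurableSpace (OG N)] [BorelSpace (OG N)]
  [MeasurableSpace (OG (N + 1))] [BorelSpace (OG (N + 1))]

lemma measurable_oneO : Measurable (oneO : OG N → OG (N + 1)) := by
  refine measurable_OG fun i j => ?_
  refine Fin.cases ?_ (fun i => ?_) i <;> refine Fin.cases ?_ (fun j => ?_) j
  · exact measurable_const
  · exact measurable_const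
  · exact measurable_const
  · exact measurable_coe_OG i j

variable (ν : Measure (OG N)) (ν' : Measure (OG (N + 1))) [IsProbabilityMeasure ν]
  [IsProbabilityMeasure ν'] [ν.IsMulLeftInvariant] [ν'.IsMulLeftInvariant]

omit [MeasurableSpace (OG (N + 1))] [BorelSpace (OG (N + 1))] [IsProbabilityMeasure ν] in
/-- The inner average only depends on the first column. -/
theorem inner_eq (F : OG (N + 1) → ℝ) {U S : OG (N + 1)}
    (h : S.1 *ᵥ (Pi.single 0 1 : Fin (N + 1) → ℝ) = U.1 *ᵥ Pi.single 0 1) :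
    ∫ V, F (U * oneO V) ∂ν = ∫ V, F (S * oneO V) ∂ν := by
  have h1 : (S⁻¹ * U).1 *ᵥ (Pi.single 0 1 : Fin (N + 1) → ℝ) = Pi.single 0 1 := by
    rw [OG.coe_mul, OG.coe_inv, ← Matrix.mulVec_mulVec, ← h, Matrix.mulVec_mulVec,
      OG.transpose_mul, Matrix.one_mulVec]
  obtain ⟨M, hM⟩ := exists_one _ h1
  have hU : U = S * oneO M := by rw [← hM]; group
  have h2 : ∀ V, U * oneO V = S * oneO (M * V) := by
    intro V
    rw [hU, mul_assoc, oneO_mul]
  simp_rw [h2]
  exact integral_mul_left_eq_self (μ := ν) (fun V => F (S * oneO V)) M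

/-- **The law identity**, abstract form. -/
theorem law_abs {F : OG (N + 1) → ℝ} (hF : Measurable F) {C : ℝ} (hC : ∀ U, |F U| ≤ C)
    (S : OG (N + 1) → OG (N + 1))
    (hS : ∀ U, (S U).1 *ᵥ (Pi.single 0 1 : Fin (N + 1) → ℝ) = U.1 *ᵥ Pi.single 0 1) :
    ∫ U, F U ∂ν' = ∫ U, ∫ V, F (S U * oneO V) ∂ν ∂ν' := by
  have : ν'.IsMulRightInvariant := haar_right_inv ν'
  have h1 : ∀ V : OG N, ∫ U, F (U * oneO V) ∂ν' = ∫ U, F U ∂ν' := fun V =>
    integral_mul_right_eq_self (μ := ν') F (oneO V)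
  have hm : Measurable fun p : OG N × OG (N + 1) => F (p.2 * oneO p.1) :=
    hF.comp (measurable_snd.mul (measurable_oneO.comp measurable_fst))
  have h2 : ∫ V, ∫ U, F (U * oneO V) ∂ν' ∂ν = ∫ U, ∫ V, F (U * oneO V) ∂ν ∂ν' := by
    refine integral_integral_swap (f := fun V U => F (U * oneO V)) ?_
    exact (integrable_const C).mono' hm.aestronglyMeasurable
      (Filter.Eventually.of_forall fun p => by rw [Real.norm_eq_abs]; exact hC _)
  simp_rw [h1] at h2
  rw [integral_const, probReal_univ, one_smul] at h2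
  rw [h2]
  exact integral_congr_ae (Filter.Eventually.of_forall fun U => inner_eq ν F (hS U))

end Law

/-- The matrix `A` on the range of `ρ`, the identity elsewhere. -/
noncomputable def emb {n κ : ℕ} (ρ : Fin κ → Fin n) (A : Matrix (Fin κ) (Fin κ) ℝ) :
    Matrix (Fin n) (Fin n) ℝ :=
  1 + (Matrix.of fun (i : Fin n) (k : Fin κ) => if ρ k = i then (1 : ℝ) else 0) * (A - 1) *
    (Matrix.of fun (i : Fin n) (k : Fin κ) => if ρ k = i then (1 : ℝ) else 0)ᵀ

section Emb

variable {n κ : ℕ} {ρ : Fin κ → Fin n} {A : Matrix (Fin κ) (Fin κ) ℝ}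

lemma emb_mulVec (y : Fin n → ℝ) (i : Fin n) :
    (emb ρ A *ᵥ y) i = y i + ∑ k, if ρ k = i then ((A - 1) *ᵥ fun k' => y (ρ k')) k else 0 := by
  unfold emb
  rw [Matrix.add_mulVec, Matrix.one_mulVec, Pi.add_apply, ← Matrix.mulVec_mulVec,
    ← Matrix.mulVec_mulVec]
  congr 1
  have h1 : ((Matrix.of fun (i : Fin n) (k : Fin κ) => if ρ k = i then (1 : ℝ) else 0)ᵀ *ᵥ y) =
      fun k => y (ρ k) := by
    funext k
    simp only [mulVec, dotProduct, transpose_apply, of_apply, ite_mul, _root_.one_mul, zero_mul, Finset.sum_ite_eq, Finset.mem_univ, ↓reduceIte]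
  rw [h1]
  simp only [mulVec, dotProduct, of_apply, Matrix.sub_apply, ite_mul, _root_.one_mul, zero_mul]

lemma emb_range (hρ : Function.Injective ρ) (y : Fin n → ℝ) (k : Fin κ) :
    (emb ρ A *ᵥ y) (ρ k) = ∑ k', A k k' * y (ρ k') := by
  rw [emb_mulVec]
  have h1 : (∑ k', if ρ k' = ρ k then ((A - 1) *ᵥ fun k' => y (ρ k')) k' else 0) =
      ((A - 1) *ᵥ fun k' => y (ρ k')) k := by
    rw [Finset.sum_eq_single k]
    · simp
    · intro b _ hb
      rw [if_neg fun e => hb (hρ e)]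
    · intro h
      exact absurd (Finset.mem_univ k) h
  rw [h1, Matrix.sub_mulVec, Matrix.one_mulVec, Pi.sub_apply, Matrix.mulVec, dotProduct]
  ring

lemma emb_not_range (y : Fin n → ℝ) {i : Fin n} (hi : ∀ k, ρ k ≠ i) :
    (emb ρ A *ᵥ y) i = y i := by
  rw [emb_mulVec]
  simp only [hi, ↓reduceIte, Finset.sum_const_zero, add_zero]

lemma emb_mem (hρ : Function.Injective ρ) (hA : A ∈ Matrix.orthogonalGroup (Fin κ) ℝ) :
    emb ρ A ∈ Matrix.orthogonalGroup (Fin n) ℝ := by
  rw [Matrix.mem_orthogonalGroup_iff'] at hA ⊢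
  set P : Matrix (Fin n) (Fin κ) ℝ :=
    Matrix.of fun (i : Fin n) (k : Fin κ) => if ρ k = i then (1 : ℝ) else 0 with hP
  have hPP : Pᵀ * P = 1 := by
    ext k k'
    rw [Matrix.mul_apply, hP]
    simp only [Matrix.transpose_apply, Matrix.of_apply, ite_mul, zero_mul]
    rw [Finset.sum_ite_eq]
    simp only [Finset.mem_univ, if_true, Matrix.one_apply]
    by_cases h : k = k'
    · simp only [h, ↓reduceIte, mul_one]
    · have h' : ρ k' ≠ ρ k := fun e => h (hρ e.symm)
      simp [h, h']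
  have h1 : (emb ρ A)ᵀ = 1 + P * (Aᵀ - 1) * Pᵀ := by
    unfold emb
    rw [← hP, Matrix.transpose_add, Matrix.transpose_one, Matrix.transpose_mul,
      Matrix.transpose_mul, Matrix.transpose_transpose, Matrix.transpose_sub,
      Matrix.transpose_one, Matrix.mul_assoc]
  have h2 : emb ρ A = 1 + P * (A - 1) * Pᵀ := by
    unfold emb
    rw [← hP]
  rw [h1, h2]
  have h3 : P * (Aᵀ - 1) * Pᵀ * (P * (A - 1) * Pᵀ) = P * ((Aᵀ - 1) * (A - 1)) * Pᵀ := by
    calc P * (Aᵀ - 1) * Pᵀ * (P * (A - 1) * Pᵀ)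
        = P * (Aᵀ - 1) * (Pᵀ * P) * (A - 1) * Pᵀ := by
          simp only [Matrix.mul_assoc]
      _ = _ := by rw [hPP, Matrix.mul_one, Matrix.mul_assoc P]
  rw [Matrix.mul_add, Matrix.add_mul, Matrix.add_mul, Matrix.one_mul, Matrix.mul_one,
    Matrix.one_mul, h3]
  have h4 : (1 : Matrix (Fin n) (Fin n) ℝ) + P * (Aᵀ - 1) * Pᵀ +
      (P * (A - 1) * Pᵀ + P * ((Aᵀ - 1) * (A - 1)) * Pᵀ) =
      1 + P * ((Aᵀ - 1) + (A - 1) + (Aᵀ - 1) * (A - 1)) * Pᵀ := by
    rw [Matrix.mul_add, Matrix.mul_add, Matrix.add_mul, Matrix.add_mul]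
    abel
  have h5 : (Aᵀ - 1) + (A - 1) + (Aᵀ - 1) * (A - 1) = 0 := by
    rw [Matrix.sub_mul, Matrix.mul_sub, Matrix.mul_one, Matrix.one_mul, hA]
    abel
  rw [h5, Matrix.mul_zero, Matrix.zero_mul, add_zero] at h4
  refine Eq.trans ?_ h4
  abel

end Emb

section Law2

variable [MeasurableSpace (OG N)] [BorelSpace (OG N)]
  [MeasurableSpace (OG (N + 1))] [BorelSpace (OG (N + 1))]
  (ν : Measure (OG N)) (ν' : Measure (OG (N + 1))) [IsProbabilityMeasure ν]
  [IsProbabilityMeasure ν'] [ν.IsMulLeftInvariant] [ν'.IsMulLeftInvariant]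

end Law2

section Perm

variable {n : ℕ}

/-- The permutation matrix with the rows `σ i`. -/
def pm (σ : Equiv.Perm (Fin n)) : Matrix (Fin n) (Fin n) ℝ :=
  Matrix.of fun i j => if σ i = j then 1 else 0

lemma pm_mul (σ : Equiv.Perm (Fin n)) (U : Matrix (Fin n) (Fin n) ℝ) :
    pm σ * U = U.submatrix σ id := by
  ext i j
  simp only [pm, Matrix.mul_apply, of_apply, ite_mul, _root_.one_mul, zero_mul, Finset.sum_ite_eq, Finset.mem_univ, ↓reduceIte, submatrix_apply, id_eq]

lemma mul_pm (σ : Equiv.Perm (Fin n)) (U : Matrix (Fin n) (Fin n) ℝ) :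
    U * pm σ = U.submatrix id σ.symm := by
  ext i j
  rw [Matrix.mul_apply, Matrix.submatrix_apply, Finset.sum_eq_single (σ.symm j)]
  · simp [pm]
  · intro b _ hb
    have : σ b ≠ j := fun e => hb (by rw [← e, Equiv.symm_apply_apply])
    simp [pm, this]
  · intro h
    exact absurd (Finset.mem_univ _) h

lemma pm_mem (σ : Equiv.Perm (Fin n)) : pm σ ∈ Matrix.orthogonalGroup (Fin n) ℝ := by
  rw [Matrix.mem_orthogonalGroup_iff, pm_mul]
  ext i j
  rw [Matrix.submatrix_apply, Matrix.transpose_apply, id, Matrix.one_apply]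
  by_cases h : i = j
  · simp [h, pm]
  · have h' : σ j ≠ σ i := fun e => h (σ.injective e).symm
    simp only [pm, of_apply, h', ↓reduceIte, h]

variable [MeasurableSpace (OG n)] [BorelSpace (OG n)] (ν : Measure (OG n))
  [IsProbabilityMeasure ν] [ν.IsMulLeftInvariant]

/-- Exchangeability of the sites. -/
theorem int_cols (σ : Equiv.Perm (Fin n)) (F : Matrix (Fin n) (Fin n) ℝ → ℝ) :
    ∫ U : OG n, F (U.1.submatrix id σ) ∂ν = ∫ U : OG n, F U.1 ∂ν := by
  have : ν.IsMulRightInvariant := haar_right_inv ν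
  have h := integral_mul_right_eq_self (μ := ν) (fun U : OG n => F U.1)
    ⟨pm σ.symm, pm_mem σ.symm⟩
  rw [← h]
  refine integral_congr_ae (Filter.Eventually.of_forall fun U => ?_)
  change F _ = F (U.1 * pm σ.symm)
  rw [mul_pm, Equiv.symm_symm]

end Perm

end Vale.Agent.P166.L
end
end

section

section

open MeasureTheory ProbabilityTheory

namespace Vale.Agent.P157

/-- `(g · x)/√N` -/
noncomputable def proj {N : ℕ} (x g : Fin N → ℝ) : ℝ := (∑ i, g i * x i) / √(N : ℝ)

@[fun_prop]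
lemma measurable_proj {N : ℕ} (x : Fin N → ℝ) : Measurable (proj x) := by
  unfold proj; fun_prop

end Vale.Agent.P157
end
end

section

section

open MeasureTheory ProbabilityTheory

namespace Vale.Agent.P157

end Vale.Agent.P157
end
end

section

section

open MeasureTheory ProbabilityTheory

namespace Vale.Agent.P157

end Vale.Agent.P157
end
end

section

section

/-!
Telescoping and assembly of the Guerra upper bound (module U of the Parisi plan).
-/

open MeasureTheory ProbabilityTheory Filter Topology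

namespace Vale.Agent.P157.Par

variable {N : ℕ}

/-! ### Bounds on the pattern part -/

/-! ### The interpolation -/

section

variable {k : ℕ} {m r : ℕ → ℝ} {f : ℝ → ℝ} {K : ℝ}

end

/-! ### Sums -/

/-! ### The upper bound -/

end Vale.Agent.P157.Par
end
end
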