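import Vale.Agent.P166.Bdl.B1

/-! P166, full formula: the R-transform and the spectral part of the functional. -/

open MeasureTheory Finset

namespace Vale.Agent.P166

/-- The inverse of the Stieltjes transform `z ↦ ∫ (z - x)⁻¹ dμ(x)` to the right of the support of
`μ` (the value is the right end of the support where there is no inverse). -/
noncomputable def stInv (μ : Measure ℝ) (y : ℝ) : ℝ :=
  sInf {z : ℝ | sSup μ.support < z ∧ ∫ x, (z - x)⁻¹ ∂μ ≤ y}

/-- The R-transform of `μ` at `y > 0`. -/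
noncomputable def Rt (μ : Measure ℝ) (y : ℝ) : ℝ := stInv μ y - 1 / y

/-- The spectral part `(β/2) ∫₀¹ R_μ(β Λ_q(s)) ds` of the functional, where
`Λ_q(s) = 1 - s - ∑_{l ≤ k} (m_{l+1} - m_l) (q_l - s)⁺ = ∫_s^1 x(u) du`, `x` being the
distribution function of the path `q` (the mass `m_{l+1} - m_l` is at `q_l`). -/
noncomputable def specPart (β : ℝ) (μ : Measure ℝ) (k : ℕ) (m q : ℕ → ℝ) : ℝ :=
  β / 2 * ∫ s in (0 : ℝ)..1, Rt μ (β * (1 - s -
    ∑ l ∈ range (k + 1), (m (l + 1) - m l) * max (q l - s) 0))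

/-- The measure `∑ α_b δ_{a_b}`. -/
noncomputable def atoms {B : Type} [Fintype B] (a α : B → ℝ) : Measure ℝ :=
  ∑ b, ENNReal.ofReal (α b) • Measure.dirac (a b)

end Vale.Agent.P166
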