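import Vale.Agent.P157.ParDefs
import Vale.Agent.P166.Bdl.K_F_RtDefs

/-!
P166: the functional of the variational formula.
-/

open MeasureTheory

namespace Vale.Agent.P166

/-- The functional `J(q, r)` of two paths `q`, `r` with exponents `m` (`k + 1` levels): the spectral
part, the spin part of the Parisi functional (the cascade of `log cosh` along `r`, minus `r_k / 2`)
and the pairing of the two paths. -/
noncomputable def Jf (β : ℝ) (μ : Measure ℝ) (k : ℕ) (m q r : ℕ → ℝ) : ℝ :=
  specPart β μ k m q + P157.Par.spinPart k m r +
    1 / 2 * ∑ l ∈ Finset.range (k + 1), (m (l + 1) - m l) * r l * q l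

end Vale.Agent.P166
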